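import Vale.Agent.P304.Defs

namespace Vale.Agent.P304

open Finset

universe u

/-- Total movement between two labelled configurations. -/
noncomputable def mv {X : Type*} [MetricSpace X] {P : Type*} [Fintype P] (z z' : P → X) : ℝ :=
  ∑ p, dist (z p) (z' p)

/-- Total movement of a deterministic online configuration strategy `V` (indexed by the
history, oldest request first), started at `v`. -/
noncomputable def tcost {X : Type*} [MetricSpace X] {P : Type*} [Fintype P] :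
    (List X → P → X) → (P → X) → List X → ℝ
  | _, _, [] => 0
  | V, v, r :: σ => mv v (V [r]) + tcost (fun τ => V (r :: τ)) (V [r]) σ

/-- The finite Bayesian statement: finite metric, all servers start at one point, known prior. -/
def FinBound (k : ℕ) (c : ℝ) : Prop :=
  ∀ (X : Type u) [Fintype X] [DecidableEq X] [MetricSpace X] (x₀ : X)
    (ι : Type u) [Fintype ι] (w : ι → ℝ) (σ : ι → List X),
    (∀ s, 0 ≤ w s) → ∑ s, w s = 1 →
    ∃ V : List X → Fin k → X, (∀ (τ : List X) (r : X), ∃ i, V (τ ++ [r]) i = r) ∧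
      ∑ s, w s * tcost V (fun _ => x₀) (σ s) ≤
        c * ∑ s, w s * opt (fun _ : Fin k => x₀) (σ s) + 1

/-- Admissible set functions for the jump of the tree potential. -/
structure HFun {X : Type*} [Fintype X] [DecidableEq X] (L : ℝ) (h : Finset X → ℝ) : Prop where
  mono : ∀ S T, S ⊆ T → h S ≤ h T
  nonneg : ∀ S, 0 ≤ h S
  le : ∀ S, h S ≤ L
  del : ∀ (S : Finset X) (κ : X → Option X),
    ∑ c : X, (h S - h (S.filter fun x => κ x ≠ some c)) ≤ L

/-- One term of the jump: point `y`, old labels `l`, new labels `l'`. -/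
noncomputable def jterm {X Lab : Type*} [Fintype X] [DecidableEq Lab] (L : ℝ)
    (h : Finset X → ℝ) (l l' : X → Lab) (y : X) : ℝ :=
  if l' y = l y then
    h (univ.filter fun x => l x = l y) - h (univ.filter fun x => l x = l y ∧ l' x = l x)
  else L

noncomputable def jumpF {X Ω Lab : Type*} [Fintype X] [Fintype Ω] [DecidableEq Lab]
    (P : Ω → ℝ) (η : ℝ) (H : ℕ) (L : ℝ) (m : X → ℝ) (h : Ω → Finset X → ℝ)
    (lab lab' : Ω → ℕ → X → Lab) : ℝ :=
  η * ∑ ω, P ω * ∑ ℓ ∈ range H, ∑ y, m y * jterm L (h ω) (lab ω ℓ) (lab' ω ℓ) y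

noncomputable def stretchF {X Ω Lab : Type*} [Fintype Ω] [DecidableEq Lab]
    (P : Ω → ℝ) (η : ℝ) (H : ℕ) (lab : Ω → ℕ → X → Lab) (a b : X) : ℝ :=
  η * ∑ ω, P ω * ∑ ℓ ∈ range H, (if lab ω ℓ a = lab ω ℓ b then (0 : ℝ) else 1)

/-- An adaptive random hierarchical geometry with its potential. -/
structure GeoSys (X : Type u) [Fintype X] [DecidableEq X] [MetricSpace X] (x₀ : X)
    (L M K : ℝ) where
  St : Type u
  Ω : Type u
  Lab : Type u
  [fΩ : Fintype Ω]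
  [dΩ : DecidableEq Ω]
  [fL : Fintype Lab]
  [dL : DecidableEq Lab]
  P : Ω → ℝ
  P_pos : ∀ ω, 0 < P ω
  P_sum : ∑ ω, P ω = 1
  J : ℕ
  G : ℕ
  G_pos : 0 < G
  r₀ : ℝ
  r₀_pos : 0 < r₀
  lab : St → Ω → ℕ → X → Lab
  nested : ∀ γ ω ℓ ℓ' x y, ℓ ≤ ℓ' → lab γ ω ℓ x = lab γ ω ℓ y → lab γ ω ℓ' x = lab γ ω ℓ' y
  diam : ∀ γ ω j ℓ x y, j ≤ J → ℓ < 8 ^ (j + 1) * G → lab γ ω ℓ x = lab γ ω ℓ y →
    dist x y ≤ 24 * (8 ^ j * r₀)
  sep : ∀ x y : X, dist x y ≤ 24 * r₀ → x = y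
  top : ∀ x y : X, dist x y ≤ 24 * (8 ^ (J + 1) * r₀)
  ν : St → ℝ
  φ : St → X → ℝ
  ν_nonneg : ∀ γ, 0 ≤ ν γ
  φ_nonneg : ∀ γ x, 0 ≤ φ γ x
  γ₀ : St
  ν_init : ν γ₀ = 0
  φ_init : φ γ₀ x₀ = 0
  ε : ℝ
  ε_pos : 0 < ε
  lip : ∀ (m : X → ℝ) (h : Ω → Finset X → ℝ) (γ : St), (∀ y, 0 ≤ m y) → ∑ y, m y ≤ M →
    (∀ ω, HFun L (h ω)) →
    (∀ γ', ν γ + ∑ y, m y * φ γ y ≤ ν γ' + ∑ y, m y * φ γ' y +
      jumpF P (r₀ / G) (8 ^ (J + 1) * G) L m h (lab γ) (lab γ') + ε) →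
    ∀ a b, 1 ≤ m a →
      L * stretchF P (r₀ / G) (8 ^ (J + 1) * G) (lab γ) a b + φ γ b - φ γ a ≤ K * dist a b

attribute [instance] GeoSys.fΩ GeoSys.dΩ GeoSys.fL GeoSys.dL

/-- Prox step: nearly optimal in the first variable, exactly optimal in the second. -/
theorem exists_prox {A Z : Type*} [Finite Z] (F : A → Z → ℝ) (hF : ∀ a z, 0 ≤ F a z)
    (a₀ : A) (z₀ : Z) {ε : ℝ} (hε : 0 < ε) :
    ∃ a z, (∀ a' z', F a z ≤ F a' z' + ε) ∧ ∀ z', F a z ≤ F a z' := by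
  have : Nonempty (A × Z) := ⟨(a₀, z₀)⟩
  have : Nonempty Z := ⟨z₀⟩
  have hb : BddBelow (Set.range fun p : A × Z => F p.1 p.2) := ⟨0, by
    rintro _ ⟨p, rfl⟩; exact hF _ _⟩
  obtain ⟨p, hp⟩ := exists_lt_of_ciInf_lt
    (show (⨅ p : A × Z, F p.1 p.2) < (⨅ p : A × Z, F p.1 p.2) + ε by linarith)
  obtain ⟨z, hz⟩ := Finite.exists_min (F p.1)
  refine ⟨p.1, z, fun a' z' => ?_, hz⟩
  have := ciInf_le hb (a', z')
  have := hz p.2
  simp only at *
  linarith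

theorem mv_nonneg {X : Type*} [MetricSpace X] {P : Type*} [Fintype P] (z z' : P → X) :
    0 ≤ mv z z' := sum_nonneg fun _ _ => dist_nonneg

theorem mv_self {X : Type*} [MetricSpace X] {P : Type*} [Fintype P] (z : P → X) :
    mv z z = 0 := by simp [mv]

theorem mv_triangle {X : Type*} [MetricSpace X] {P : Type*} [Fintype P] (z z' z'' : P → X) :
    mv z z'' ≤ mv z z' + mv z' z'' := by
  unfold mv
  rw [← sum_add_distrib]
  exact sum_le_sum fun _ _ => dist_triangle _ _ _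

theorem tcost_nonneg {X : Type*} [MetricSpace X] {P : Type*} [Fintype P] (σ : List X) :
    ∀ (V : List X → P → X) (v : P → X), 0 ≤ tcost V v σ := by
  induction σ with
  | nil => intro V v; simp [tcost]
  | cons r σ ih => intro V v; exact add_nonneg (mv_nonneg _ _) (ih _ _)

namespace GeoSys

variable {X : Type u} [Fintype X] [DecidableEq X] [MetricSpace X] {x₀ : X} {L M K : ℝ}
  (S : GeoSys X x₀ L M K)

theorem eq_of_lab_lt (γ : S.St) (ω : S.Ω) {ℓ : ℕ} (hℓ : ℓ < 8 * S.G) {x y : X}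
    (h : S.lab γ ω ℓ x = S.lab γ ω ℓ y) : x = y := by
  apply S.sep
  have := S.diam γ ω 0 ℓ x y (Nat.zero_le _) (by simpa using hℓ) h
  simpa using this

/-- Points with the same label at slab `ℓ` are within `24 η ℓ`. -/
theorem dist_le_slab (γ : S.St) (ω : S.Ω) {ℓ : ℕ} (hℓ : ℓ < 8 ^ (S.J + 1) * S.G) {x y : X}
    (h : S.lab γ ω ℓ x = S.lab γ ω ℓ y) : dist x y ≤ 24 * (S.r₀ / S.G) * ℓ := by
  have hG : (0 : ℝ) < S.G := by exact_mod_cast S.G_pos
  have hr := S.r₀_pos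
  classical
  have hex : ∃ j, ℓ < 8 ^ (j + 1) * S.G := ⟨_, hℓ⟩
  have hj := Nat.find_spec hex
  have hjJ : Nat.find hex ≤ S.J := Nat.find_min' hex hℓ
  rcases hz : Nat.find hex with _ | j
  · rw [hz] at hj
    rw [S.eq_of_lab_lt γ ω (by simpa using hj) h, dist_self]
    positivity
  · have h1 : ¬ ℓ < 8 ^ (j + 1) * S.G := Nat.find_min hex (by omega)
    have h2 := S.diam γ ω _ ℓ x y hjJ hj h
    rw [hz] at h2
    have h3 : ((8 : ℝ) ^ (j + 1) * S.G) ≤ ℓ := by exact_mod_cast not_lt.mp h1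
    calc dist x y ≤ _ := h2
      _ = 24 * (S.r₀ / S.G) * ((8 : ℝ) ^ (j + 1) * S.G) := by field_simp
      _ ≤ _ := by gcongr

theorem dist_le_top (x y : X) :
    dist x y ≤ 24 * (S.r₀ / S.G) * ((8 ^ (S.J + 1) * S.G : ℕ) : ℝ) := by
  have hG : (0 : ℝ) < S.G := by exact_mod_cast S.G_pos
  calc dist x y ≤ _ := S.top x y
    _ = _ := by push_cast; field_simp

end GeoSys

end Vale.Agent.P304
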