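import Vale.Agent.P304.Base

namespace Vale.Agent.P304

open Finset

/-- The first centre of the list `N` whose ball of radius `r (1 + ρ c / G)` contains `x`. -/
noncomputable def grp {X : Type*} [MetricSpace X] (r : ℝ) (G : ℕ) (N : List X)
    (ρ : X → Fin G) (x : X) : Option X :=
  N.find? fun c => decide (dist c x ≤ r * (1 + ((ρ c : ℕ) : ℝ) / G))

theorem tail_geom_carve (b : ℝ) (G : ℕ) (i : Fin G) :
    (1 - b) * ∑ i' ∈ univ.filter (fun i' : Fin G => i ≤ i'), b ^ (i' : ℕ) =
      b ^ (i : ℕ) - b ^ G := by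
  have h1 : ∑ i' ∈ univ.filter (fun i' : Fin G => i ≤ i'), b ^ (i' : ℕ) =
      ∑ j ∈ Ico (i : ℕ) G, b ^ j := by
    rw [sum_filter]
    simp only [Fin.le_def]
    rw [Fin.sum_univ_eq_sum_range (fun j => if (i : ℕ) ≤ j then b ^ j else 0) G, ← sum_filter]
    refine sum_congr ?_ fun _ _ => rfl
    ext j
    simp only [mem_filter, mem_range, mem_Ico]
    tauto
  rw [h1, sum_Ico_eq_sub _ i.2.le, mul_sub, mul_neg_geom_sum, mul_neg_geom_sum]
  ring

theorem exists_dist (G : ℕ) (lam n : ℝ) (hn : 1 ≤ n) (hlam : 0 < lam) (hG : lam < G)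
    (hexp : 2 * n ≤ Real.exp lam) :
    ∃ p : Fin G → ℝ, (∀ i, 0 < p i) ∧ ∑ i, p i = 1 ∧
      ∀ i, p i ≤ lam / G * ((∑ i' ∈ univ.filter (fun i' => i ≤ i'), p i') + 1 / n) := by
  have hG0 : (0 : ℝ) < G := hlam.trans hG
  set b : ℝ := 1 - lam / G with hb
  have hq0 : 0 < lam / G := div_pos hlam hG0
  have hq1 : lam / G < 1 := (div_lt_one hG0).2 hG
  have hb0 : 0 < b := by linarith
  have hGn : 0 < G := by exact_mod_cast hG0
  set Z : ℝ := ∑ i : Fin G, b ^ (i : ℕ) with hZ
  have hZ0 : 0 < Z := by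
    have : Nonempty (Fin G) := ⟨⟨0, hGn⟩⟩
    exact sum_pos (fun i _ => pow_pos hb0 _) univ_nonempty
  have hZ1 : (1 - b) * Z = 1 - b ^ G := by
    rw [hZ, Fin.sum_univ_eq_sum_range (fun j => b ^ j) G, mul_neg_geom_sum]
  have hbG : b ^ G ≤ Real.exp (-lam) := by
    have h1 : b ≤ Real.exp (-(lam / G)) := by
      have := Real.add_one_le_exp (-(lam / G))
      linarith
    calc b ^ G ≤ Real.exp (-(lam / G)) ^ G := pow_le_pow_left₀ hb0.le h1 _
      _ = Real.exp (-lam) := by
        rw [← Real.exp_nat_mul]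
        congr 1
        field_simp
  have hn0 : 0 < n := by linarith
  have hbn : 2 * n * b ^ G ≤ 1 := by
    calc 2 * n * b ^ G ≤ Real.exp lam * Real.exp (-lam) :=
          mul_le_mul hexp hbG (pow_pos hb0 _).le (Real.exp_pos _).le
      _ = 1 := by rw [← Real.exp_add]; simp
  refine ⟨fun i => b ^ (i : ℕ) / Z, fun i => div_pos (pow_pos hb0 _) hZ0, ?_, fun i => ?_⟩
  · rw [← sum_div, div_self hZ0.ne']
  · have h1 := tail_geom_carve b G i
    have h2 : lam / G = 1 - b := by rw [hb]; ring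
    rw [← sum_div, h2, mul_add, ← mul_div_assoc, h1]
    have h3 : b ^ G / Z ≤ (1 - b) * (1 / n) := by
      rw [div_le_iff₀ hZ0, mul_right_comm, hZ1, mul_one_div, le_div_iff₀ hn0]
      have h4 : 0 ≤ b ^ G := (pow_pos hb0 _).le
      nlinarith
    rw [sub_div]
    linarith

theorem sum_prod_one {I : Type*} [Fintype I] [DecidableEq I] {G : ℕ} (p : Fin G → ℝ)
    (h1 : ∑ i, p i = 1) : ∑ ω : I → Fin G, ∏ t, p (ω t) = 1 := by
  have := Finset.prod_univ_sum (fun _ : I => (univ : Finset (Fin G))) (fun _ i => p i)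
  rw [Fintype.piFinset_univ] at this
  rw [← this]
  simp [h1]

theorem indep_carve {I : Type*} [Fintype I] [DecidableEq I] {G : ℕ} (p : Fin G → ℝ)
    (h1 : ∑ i, p i = 1) (t₀ : I) (f : Fin G → ℝ) (g : (I → Fin G) → ℝ)
    (hg : ∀ ω i, g (Function.update ω t₀ i) = g ω) :
    ∑ ω : I → Fin G, (∏ t, p (ω t)) * (f (ω t₀) * g ω) =
      (∑ i, p i * f i) * ∑ ω : I → Fin G, (∏ t, p (ω t)) * g ω := by
  let sw : (I → Fin G) × Fin G → (I → Fin G) × Fin G :=
    fun x => (Function.update x.1 t₀ x.2, x.1 t₀)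
  have hsw : Function.Involutive sw := by
    rintro ⟨ω, i⟩
    simp [sw]
  have hW : ∀ (ω : I → Fin G) (i : Fin G),
      (∏ t, p (Function.update ω t₀ i t)) * p (ω t₀) = (∏ t, p (ω t)) * p i := by
    intro ω i
    rw [← mul_prod_erase univ _ (mem_univ t₀), ← mul_prod_erase univ _ (mem_univ t₀)]
    have : ∏ t ∈ univ.erase t₀, p (Function.update ω t₀ i t) = ∏ t ∈ univ.erase t₀, p (ω t) :=
      prod_congr rfl fun t ht => by rw [Function.update_of_ne (ne_of_mem_erase ht)]
    rw [this, Function.update_self]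
    ring
  have key := Equiv.sum_comp hsw.toPerm
    (fun x : (I → Fin G) × Fin G => (∏ t, p (x.1 t)) * p x.2 * (f (x.1 t₀) * g x.1))
  simp only [Function.Involutive.coe_toPerm, sw, Function.update_self, hW, hg,
    Fintype.sum_prod_type] at key
  calc ∑ ω : I → Fin G, (∏ t, p (ω t)) * (f (ω t₀) * g ω)
      = ∑ ω : I → Fin G, ∑ i, (∏ t, p (ω t)) * p i * (f (ω t₀) * g ω) := by
        refine sum_congr rfl fun ω _ => ?_
        rw [← sum_mul, ← mul_sum, h1, mul_one]
    _ = _ := key.symm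
    _ = _ := by
        rw [mul_sum]
        refine sum_congr rfl fun ω _ => ?_
        rw [sum_mul]
        exact sum_congr rfl fun i _ => by ring

theorem card_window_carve {G : ℕ} (x y : ℝ) (hxy : x ≤ y) :
    ((univ.filter fun i : Fin G => x ≤ (i : ℕ) ∧ ((i : ℕ) : ℝ) < y).card : ℝ) ≤ y - x + 1 := by
  have h1 : (univ.filter fun i : Fin G => x ≤ (i : ℕ) ∧ ((i : ℕ) : ℝ) < y).card ≤
      (Ico ⌈x⌉ ⌈y⌉).card := by
    refine card_le_card_of_injOn (fun i => ((i : ℕ) : ℤ)) (fun i hi => ?_) ?_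
    · have hi' := (mem_filter.1 (mem_coe.1 hi)).2
      refine mem_coe.2 (mem_Ico.2 ⟨Int.ceil_le.2 ?_, Int.lt_ceil.2 ?_⟩)
      · exact_mod_cast hi'.1
      · exact_mod_cast hi'.2
    · intro i _ j _ hij
      have hij' : ((i : ℕ) : ℤ) = ((j : ℕ) : ℤ) := hij
      exact Fin.ext (by exact_mod_cast hij')
  have h2 : (((Ico ⌈x⌉ ⌈y⌉).card : ℤ) : ℝ) = (⌈y⌉ : ℝ) - ⌈x⌉ := by
    rw [Int.card_Ico, Int.toNat_of_nonneg (sub_nonneg.2 (Int.ceil_mono hxy))]
    push_cast
    ring
  have h3 : ((univ.filter fun i : Fin G => x ≤ (i : ℕ) ∧ ((i : ℕ) : ℝ) < y).card : ℝ) ≤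
      ((Ico ⌈x⌉ ⌈y⌉).card : ℝ) := by exact_mod_cast h1
  have h4 := Int.le_ceil x
  have h5 := Int.ceil_lt_add_one y
  push_cast at h2
  linarith

theorem one_le_carve {G : ℕ} (p : Fin G → ℝ) (lam n r d u v : ℝ)
    (hn : 0 < n) (hlam : 0 ≤ lam) (hr : 0 < r) (h0 : ∀ i, 0 ≤ p i)
    (hp : ∀ i, p i ≤ lam / G * ((∑ i' ∈ univ.filter (fun i' => i ≤ i'), p i') + 1 / n))
    (hd : r ≤ d * G) (huv : u ≤ v) (hvu : v - u ≤ d) :
    ∑ i : Fin G, p i * (if u ≤ r * (1 + ((i : ℕ) : ℝ) / G) ∧ ¬ v ≤ r * (1 + ((i : ℕ) : ℝ) / G)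
        then (1 : ℝ) else 0) ≤
      2 * lam * d / r * ((∑ i : Fin G, p i *
        (if u ≤ r * (1 + ((i : ℕ) : ℝ) / G) then (1 : ℝ) else 0)) + 1 / n) := by
  have hd0 : 0 ≤ d := by linarith
  have hG : (0 : ℝ) < G := by
    rcases Nat.eq_zero_or_pos G with h | h
    · subst h; simp at hd; linarith
    · exact_mod_cast h
  set γ : ℝ := ∑ i : Fin G, p i * (if u ≤ r * (1 + ((i : ℕ) : ℝ) / G) then (1 : ℝ) else 0)
    with hγ
  have hγ0 : 0 ≤ γ := sum_nonneg fun i _ => mul_nonneg (h0 i) (by split_ifs <;> norm_num)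
  have hcov : ∀ (w : ℝ) (i : Fin G),
      w ≤ r * (1 + ((i : ℕ) : ℝ) / G) ↔ (w / r - 1) * G ≤ (i : ℕ) := by
    intro w i
    rw [← le_div_iff₀ hG, sub_le_iff_le_add, div_le_iff₀ hr]
    constructor <;> intro h <;> linarith
  set S := univ.filter fun i : Fin G =>
    (u / r - 1) * G ≤ (i : ℕ) ∧ ((i : ℕ) : ℝ) < (v / r - 1) * G with hS
  have hcard : (S.card : ℝ) ≤ 2 * d * G / r := by
    have h1 := card_window_carve (G := G) ((u / r - 1) * G) ((v / r - 1) * G) (by gcongr)
    have h2 : (v / r - 1) * G - (u / r - 1) * G = (v - u) * G / r := by field_simp; ring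
    have h3 : (v - u) * G / r ≤ d * G / r := by gcongr
    have h4 : 1 ≤ d * G / r := (one_le_div hr).2 hd
    have h5 : 2 * d * G / r = d * G / r + d * G / r := by ring
    linarith
  have hterm : ∀ i ∈ S, p i ≤ lam / G * (γ + 1 / n) := by
    intro i hi
    refine (hp i).trans (mul_le_mul_of_nonneg_left ?_ (by positivity))
    have hi1 := (mem_filter.1 hi).2.1
    refine add_le_add_left ?_ _
    rw [sum_filter]
    refine sum_le_sum fun j _ => ?_
    by_cases hij : i ≤ j
    · have : (u / r - 1) * G ≤ (j : ℕ) := hi1.trans (by exact_mod_cast hij)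
      rw [if_pos hij, if_pos ((hcov u j).2 this), mul_one]
    · rw [if_neg hij]
      exact mul_nonneg (h0 j) (by split_ifs <;> norm_num)
  calc _ = ∑ i ∈ S, p i := by
        rw [hS, sum_filter]
        refine sum_congr rfl fun i _ => ?_
        simp only [hcov, not_le]
        split_ifs <;> simp
    _ ≤ ∑ _i ∈ S, lam / G * (γ + 1 / n) := sum_le_sum hterm
    _ = S.card * (lam / G * (γ + 1 / n)) := by rw [sum_const, nsmul_eq_mul]
    _ ≤ (2 * d * G / r) * (lam / G * (γ + 1 / n)) := by gcongr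
    _ = _ := by field_simp

theorem cut_bound {X I : Type*} [MetricSpace X] [DecidableEq X] [Fintype I] [DecidableEq I]
    {G : ℕ} (e : X → I) (he : Function.Injective e) (p : Fin G → ℝ) (lam n r : ℝ)
    (hn : 0 < n) (hlam : 0 ≤ lam) (hr : 0 < r)
    (h0 : ∀ i, 0 ≤ p i) (h1 : ∑ i, p i = 1)
    (hp : ∀ i, p i ≤ lam / G * ((∑ i' ∈ univ.filter (fun i' => i ≤ i'), p i') + 1 / n))
    (a b : X) (hab : r ≤ dist a b * G) (N : List X) (hN : N.Nodup) :
    ∑ ω : I → Fin G, (∏ t, p (ω t)) *
        (if grp r G N (fun c => ω (e c)) a = grp r G N (fun c => ω (e c)) b then (0 : ℝ) else 1)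
      ≤ 2 * lam * dist a b / r * (1 + N.length / n) := by
  have hκ : 0 ≤ 2 * lam * dist a b / r := by positivity
  have hW : ∀ ω : I → Fin G, 0 ≤ ∏ t, p (ω t) := fun ω => prod_nonneg fun t _ => h0 _
  induction N with
  | nil => simp only [grp, List.find?_nil, if_true, mul_zero, sum_const_zero]; positivity
  | cons c N ih =>
    have hc : c ∉ N := (List.nodup_cons.1 hN).1
    have ih := ih (List.nodup_cons.1 hN).2
    set κ := 2 * lam * dist a b / r with hκd
    let R : Fin G → ℝ := fun i => r * (1 + ((i : ℕ) : ℝ) / G)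
    set u := min (dist c a) (dist c b) with hu
    set v := max (dist c a) (dist c b) with hv
    let one : Fin G → ℝ := fun i => if u ≤ R i ∧ ¬ v ≤ R i then 1 else 0
    let cov : Fin G → ℝ := fun i => if u ≤ R i then 1 else 0
    let g : (I → Fin G) → ℝ := fun ω =>
      if grp r G N (fun c => ω (e c)) a = grp r G N (fun c => ω (e c)) b then (0 : ℝ) else 1
    have hg : ∀ ω i, g (Function.update ω (e c) i) = g ω := by
      intro ω i
      have : ∀ x, grp r G N (fun c' => Function.update ω (e c) i (e c')) x =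
          grp r G N (fun c' => ω (e c')) x := by
        intro x
        unfold grp
        refine List.find?_congr fun c' hc' => ?_
        have hne : e c' ≠ e c := fun h => hc (he h ▸ hc')
        simp only [Function.update_of_ne hne]
      simp only [g, this]
    have hpt : ∀ ω : I → Fin G,
        (if grp r G (c :: N) (fun c => ω (e c)) a = grp r G (c :: N) (fun c => ω (e c)) b
          then (0 : ℝ) else 1) ≤ one (ω (e c)) * 1 + (1 - cov (ω (e c))) * g ω := by
      intro ω
      have hg0 : 0 ≤ g ω := by simp only [g]; split_ifs <;> norm_num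
      have hcons : ∀ x, grp r G (c :: N) (fun c => ω (e c)) x =
          if dist c x ≤ R (ω (e c)) then some c else grp r G N (fun c => ω (e c)) x := by
        intro x
        simp only [grp, List.find?_cons, R]
        by_cases h : dist c x ≤ r * (1 + ((ω (e c) : ℕ) : ℝ) / G) <;> simp [h]
      rw [hcons, hcons]
      simp only [one, cov, hu, hv, min_le_iff, max_le_iff]
      by_cases ha : dist c a ≤ R (ω (e c)) <;> by_cases hb : dist c b ≤ R (ω (e c))
      · simp [ha, hb]
      · simp only [ha, hb, if_true, if_false, true_or, and_false, not_false_eq_true, and_self]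
        split_ifs <;> norm_num
      · simp only [ha, hb, if_true, if_false, or_true, false_and, not_false_eq_true, and_self]
        split_ifs <;> norm_num
      · simp [ha, hb, g]
    have hone := one_le_carve p lam n r (dist a b) u v hn hlam hr h0 hp hab min_le_max (by
      rw [hu, hv, max_sub_min_eq_abs']
      have := abs_dist_sub_le a b c
      rwa [dist_comm a c, dist_comm b c] at this)
    have hcov1 : ∑ i, p i * cov i ≤ 1 := by
      rw [← h1]
      refine sum_le_sum fun i _ => ?_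
      simp only [cov]
      split_ifs
      · simp
      · simpa using h0 i
    have hcov0 : 0 ≤ ∑ i, p i * cov i :=
      sum_nonneg fun i _ => mul_nonneg (h0 i) (by simp only [cov]; split_ifs <;> norm_num)
    have e1 := indep_carve p h1 (e c) one (fun _ => 1) (fun _ _ => rfl)
    have e2 := indep_carve p h1 (e c) (fun i => 1 - cov i) g hg
    have e3 : ∑ i, p i * (1 - cov i) = 1 - ∑ i, p i * cov i := by
      simp only [mul_sub, mul_one, sum_sub_distrib, h1]
    simp only [mul_one, sum_prod_one p h1] at e1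
    calc _ ≤ ∑ ω : I → Fin G, (∏ t, p (ω t)) *
          (one (ω (e c)) * 1 + (1 - cov (ω (e c))) * g ω) :=
          sum_le_sum fun ω _ => mul_le_mul_of_nonneg_left (hpt ω) (hW ω)
      _ = ∑ i, p i * one i + (1 - ∑ i, p i * cov i) *
            ∑ ω : I → Fin G, (∏ t, p (ω t)) * g ω := by
          simp only [mul_add, sum_add_distrib, mul_one, e1, e2, e3]
      _ ≤ κ * (∑ i, p i * cov i + 1 / n) + (1 - ∑ i, p i * cov i) *
            (κ * (1 + N.length / n)) :=
          add_le_add hone (mul_le_mul_of_nonneg_left ih (by linarith))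
      _ ≤ _ := by
          have h2 : 0 ≤ κ * (N.length / n) * ∑ i, p i * cov i := by positivity
          rw [List.length_cons]
          push_cast
          have h3 : κ * (1 + ((N.length : ℝ) + 1) / n) =
            κ * (1 + N.length / n) + κ * (1 / n) := by ring
          rw [h3]
          nlinarith

end Vale.Agent.P304
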