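import Mathlib

namespace Vale.Agent.P304

/-- The offline optimum: the least total distance moved when the requests are served in order
from the configuration `s`, each request by moving one server onto it. -/
noncomputable def opt {X : Type*} [MetricSpace X] {k : ℕ} : (Fin k → X) → List X → ℝ
  | _, [] => 0
  | s, r :: σ => ⨅ i : Fin k, (dist (s i) r + opt (Function.update s i r) σ)

/-- A randomized online policy: given the requests so far (oldest first, the current one last)
and the servers chosen for the earlier requests, a probability vector on the `k` servers. -/
structure Policy (X : Type*) (k : ℕ) where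
  prob : List X → List (Fin k) → Fin k → ℝ
  nonneg : ∀ hr hc i, 0 ≤ prob hr hc i
  sum_one : ∀ hr hc, ∑ i, prob hr hc i = 1

/-- Expected movement of the policy on the remaining requests, given the earlier requests `hr`,
the earlier choices `hc` and the current configuration. -/
noncomputable def costFrom {X : Type*} [MetricSpace X] {k : ℕ} (A : Policy X k) :
    List X → List (Fin k) → (Fin k → X) → List X → ℝ
  | _, _, _, [] => 0
  | hr, hc, s, r :: σ => ∑ i, A.prob (hr ++ [r]) hc i *
      (dist (s i) r + costFrom A (hr ++ [r]) (hc ++ [i]) (Function.update s i r) σ)

/-- Expected total movement of the policy on `σ` from the initial configuration `s`. -/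
noncomputable def expCost {X : Type*} [MetricSpace X] {k : ℕ} (A : Policy X k)
    (s : Fin k → X) (σ : List X) : ℝ :=
  costFrom A [] [] s σ

end Vale.Agent.P304
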