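import Vale.Agent.P304.Psi

namespace Vale.Agent.P304

open Finset

def pD (k : ℕ) : ℕ := 24 * Nat.clog 2 k + 38
def pg (k : ℕ) : ℕ := 4 * pD k * k
def pQ1 (k : ℕ) : ℕ := 8 * pD k * k ^ 2
def pQ (k : ℕ) : ℕ := pQ1 k + pg k
noncomputable def pc (k : ℕ) : ℝ := 24 * ((pQ k : ℝ) + pD k) * pD k

section counting

theorem cnt_union_fe {X P : Type*} [Fintype P] [DecidableEq X] (z : P → X) {A B : Finset X}
    (h : Disjoint A B) : cnt z (A ∪ B) = cnt z A + cnt z B := by
  unfold cnt
  simp only [card_filter]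
  rw [← sum_add_distrib]
  refine sum_congr rfl fun p _ => ?_
  by_cases h1 : z p ∈ A
  · have h2 : z p ∉ B := disjoint_left.1 h h1
    simp [h1, h2]
  · by_cases h2 : z p ∈ B <;> simp [h1, h2]

theorem cnt_update_fe {X P : Type*} [Fintype P] [DecidableEq P] [DecidableEq X] (z : P → X)
    (p : P) (a : X) (S : Finset X) :
    cnt (Function.update z p a) S + (if z p ∈ S then 1 else 0) =
      cnt z S + (if a ∈ S then 1 else 0) := by
  unfold cnt
  simp only [card_filter]
  rw [← add_sum_erase _ _ (mem_univ p),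
    ← add_sum_erase _ (fun i => if z i ∈ S then 1 else 0) (mem_univ p)]
  have : ∑ x ∈ univ.erase p, (if Function.update z p a x ∈ S then 1 else 0 : ℕ) =
      ∑ x ∈ univ.erase p, (if z x ∈ S then 1 else 0 : ℕ) :=
    sum_congr rfl fun x hx => by rw [Function.update_of_ne (ne_of_mem_erase hx)]
  rw [this, Function.update_self]
  omega

theorem count_lower_fe (x : ℝ) (Q : ℕ) :
    min (Q : ℝ) x ≤ ∑ b ∈ range Q, (if (b : ℝ) ≤ x then (1 : ℝ) else 0) := by
  induction Q with
  | zero => simp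
  | succ Q ih =>
    rw [sum_range_succ]
    push_cast
    by_cases h : (Q : ℝ) ≤ x
    · rw [if_pos h]
      rw [min_eq_left h] at ih
      have := min_le_left ((Q : ℝ) + 1) x
      linarith
    · rw [if_neg h]
      rw [min_eq_right (not_le.1 h).le] at ih
      have := min_le_right ((Q : ℝ) + 1) x
      linarith

theorem count_upper_fe (x : ℝ) (hx : 0 ≤ x) (Q : ℕ) :
    ∑ b ∈ range Q, (if (b : ℝ) ≤ x then (1 : ℝ) else 0) ≤ x + 1 := by
  have h0 : ∀ Q : ℕ, ∑ b ∈ range Q, (if (b : ℝ) ≤ x then (1 : ℝ) else 0) ≤ Q := by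
    intro Q
    calc _ ≤ ∑ _b ∈ range Q, (1 : ℝ) := sum_le_sum fun b _ => by split_ifs <;> norm_num
      _ = Q := by simp
  induction Q with
  | zero => simp; linarith
  | succ Q ih =>
    rw [sum_range_succ]
    by_cases h : (Q : ℝ) ≤ x
    · rw [if_pos h]
      have := h0 Q
      linarith
    · rw [if_neg h]
      linarith

theorem exists_tau_fe (f : ℕ → ℝ) (hf : Antitone f) (k : ℕ) :
    ∃ n, ∑ i ∈ range k, max 0 (f i) ≤ ∑ i ∈ range n, f i := by
  induction k with
  | zero => exact ⟨0, by simp⟩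
  | succ k ih =>
    by_cases h : f k ≤ 0
    · obtain ⟨n, hn⟩ := ih
      exact ⟨n, by rw [sum_range_succ, max_eq_left h, add_zero]; exact hn⟩
    · refine ⟨k + 1, sum_le_sum fun i hi => ?_⟩
      have := hf (show i ≤ k by have := mem_range.1 hi; omega)
      rw [max_eq_right (by linarith [not_le.1 h])]

end counting

section excess

variable {X ι : Type*} [DecidableEq X] [Fintype ι] {k : ℕ}

/-- Mass of the scenarios with at most `i` servers in `S`. -/
noncomputable def pS (w : ι → ℝ) (C : ι → Fin k → X) (S : Finset X) (i : ℕ) : ℝ :=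
  ∑ s, w s * (if cnt (C s) S ≤ i then (1 : ℝ) else 0)

/-- Excess of the set `S` at level `q`. -/
noncomputable def eS (w : ι → ℝ) (C : ι → Fin k → X) (S : Finset X) (q : ℝ) : ℝ :=
  ∑ i ∈ range k, max 0 (q * (∑ s, w s) - pS w C S i)

variable {w : ι → ℝ}

theorem pS_nonneg (hw : ∀ s, 0 ≤ w s) (C : ι → Fin k → X) (S : Finset X) (i : ℕ) :
    0 ≤ pS w C S i :=
  sum_nonneg fun s _ => mul_nonneg (hw s) (by split_ifs <;> norm_num)

theorem pS_mono (hw : ∀ s, 0 ≤ w s) (C : ι → Fin k → X) (S : Finset X) :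
    Monotone (pS w C S) := by
  intro i j hij
  refine sum_le_sum fun s _ => mul_le_mul_of_nonneg_left ?_ (hw s)
  by_cases h : cnt (C s) S ≤ i
  · rw [if_pos h, if_pos (h.trans hij)]
  · rw [if_neg h]; split_ifs <;> norm_num

theorem pS_top (C : ι → Fin k → X) (S : Finset X) {i : ℕ} (hi : k ≤ i) :
    pS w C S i = ∑ s, w s := by
  refine sum_congr rfl fun s _ => ?_
  have : cnt (C s) S ≤ k := by
    unfold cnt
    exact (card_filter_le _ _).trans (by simp)
  rw [if_pos (this.trans hi), mul_one]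

theorem sum_pS (C : ι → Fin k → X) (S : Finset X) (n : ℕ) :
    ∑ i ∈ range n, pS w C S i = ∑ s, w s * ((n - cnt (C s) S : ℕ) : ℝ) := by
  unfold pS
  rw [sum_comm]
  refine sum_congr rfl fun s _ => ?_
  rw [← mul_sum]
  congr 1
  generalize cnt (C s) S = N
  induction n with
  | zero => simp
  | succ n ih =>
    rw [sum_range_succ, ih]
    by_cases h : N ≤ n
    · rw [if_pos h, show n + 1 - N = (n - N) + 1 by omega]; push_cast; ring
    · rw [if_neg h, show n + 1 - N = n - N by omega, add_zero]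

theorem eS_nonneg (C : ι → Fin k → X) (S : Finset X) (q : ℝ) : 0 ≤ eS w C S q :=
  sum_nonneg fun _ _ => le_max_left _ _

theorem eS_le (hw : ∀ s, 0 ≤ w s) (C : ι → Fin k → X) (S : Finset X) {q : ℝ} (hq : 0 ≤ q) :
    eS w C S q ≤ k * (q * ∑ s, w s) := by
  have hW : 0 ≤ q * ∑ s, w s := mul_nonneg hq (sum_nonneg fun s _ => hw s)
  calc eS w C S q ≤ ∑ _i ∈ range k, q * ∑ s, w s :=
        sum_le_sum fun i _ => max_le hW (by linarith [pS_nonneg hw C S i])
    _ = _ := by simp

theorem tau_le_eS (hw : ∀ s, 0 ≤ w s) (C : ι → Fin k → X) (S : Finset X) {q : ℝ} (hq : q ≤ 1)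
    (n : ℕ) : ∑ i ∈ range n, (q * (∑ s, w s) - pS w C S i) ≤ eS w C S q := by
  have hW : 0 ≤ ∑ s, w s := sum_nonneg fun s _ => hw s
  calc _ ≤ ∑ i ∈ range n, (if i < k then max 0 (q * (∑ s, w s) - pS w C S i) else 0) := by
        refine sum_le_sum fun i _ => ?_
        split_ifs with h
        · exact le_max_right _ _
        · rw [pS_top C S (not_lt.1 h)]; nlinarith
    _ = ∑ i ∈ (range n).filter (· < k), max 0 (q * (∑ s, w s) - pS w C S i) := by
        rw [sum_filter]
    _ ≤ _ := sum_le_sum_of_subset_of_nonneg (fun i hi => mem_range.2 (mem_filter.1 hi).2)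
        fun _ _ _ => le_max_left _ _

theorem eS_super (hw : ∀ s, 0 ≤ w s) (C : ι → Fin k → X) {A B : Finset X} (h : Disjoint A B)
    {q : ℝ} (hq : q ≤ 1) : eS w C A q + eS w C B q ≤ eS w C (A ∪ B) q := by
  obtain ⟨nA, hA⟩ := exists_tau_fe (fun i => q * (∑ s, w s) - pS w C A i)
    (fun i j hij => by have := pS_mono hw C A hij; simp only; linarith) k
  obtain ⟨nB, hB⟩ := exists_tau_fe (fun i => q * (∑ s, w s) - pS w C B i)
    (fun i j hij => by have := pS_mono hw C B hij; simp only; linarith) k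
  have h1 := tau_le_eS hw C (A ∪ B) hq (nA + nB)
  rw [sum_sub_distrib, sum_pS, sum_const, card_range, nsmul_eq_mul] at hA hB h1
  have h2 : ∑ s, w s * ((nA + nB - cnt (C s) (A ∪ B) : ℕ) : ℝ) ≤
      ∑ s, w s * ((nA - cnt (C s) A : ℕ) : ℝ) + ∑ s, w s * ((nB - cnt (C s) B : ℕ) : ℝ) := by
    rw [← sum_add_distrib]
    refine sum_le_sum fun s _ => ?_
    rw [← mul_add, cnt_union_fe _ h]
    refine mul_le_mul_of_nonneg_left ?_ (hw s)
    exact_mod_cast (by omega : nA + nB - (cnt (C s) A + cnt (C s) B) ≤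
      (nA - cnt (C s) A) + (nB - cnt (C s) B))
  unfold eS at *
  push_cast at h1
  linarith

theorem eS_convex (C : ι → Fin k → X) (S : Finset X) (q t : ℝ) :
    3 * eS w C S (q + 2 * t) ≤ 2 * eS w C S q + eS w C S (q + 6 * t) := by
  unfold eS
  rw [mul_sum (range k), mul_sum (range k), ← sum_add_distrib]
  refine sum_le_sum fun i _ => ?_
  have h1 := le_max_left 0 (q * (∑ s, w s) - pS w C S i)
  have h2 := le_max_right 0 (q * (∑ s, w s) - pS w C S i)
  have h3 := le_max_left 0 ((q + 6 * t) * (∑ s, w s) - pS w C S i)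
  have h4 := le_max_right 0 ((q + 6 * t) * (∑ s, w s) - pS w C S i)
  rcases le_total 0 ((q + 2 * t) * (∑ s, w s) - pS w C S i) with h | h
  · rw [max_eq_right h]; linarith
  · rw [max_eq_left h]; linarith

theorem eS_ratio (hw : ∀ s, 0 ≤ w s) (C : ι → Fin k → X) (S : Finset X) {q q' : ℝ}
    (hq : 0 ≤ q) (h : q ≤ q') : q' * eS w C S q ≤ q * eS w C S q' := by
  unfold eS
  rw [mul_sum (range k), mul_sum (range k)]
  refine sum_le_sum fun i _ => ?_
  have h0 := pS_nonneg hw C S i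
  have h3 := le_max_left 0 (q' * (∑ s, w s) - pS w C S i)
  have h4 := le_max_right 0 (q' * (∑ s, w s) - pS w C S i)
  rcases le_total 0 (q * (∑ s, w s) - pS w C S i) with h5 | h5
  · rw [max_eq_right h5]
    have h6 := mul_le_mul_of_nonneg_left h4 hq
    nlinarith
  · rw [max_eq_left h5, mul_zero]
    exact mul_nonneg hq h3

theorem muF_eq_fe (Q D : ℕ) (C : ι → Fin k → X) (S : Finset X) (ib : Fin k × Fin Q) :
    muF k Q D w C S ib = (∑ s, w s) / ((Q : ℝ) + D) -
      pS w C S ib.1 / ((Q : ℝ) + D - (ib.2 : ℕ)) := by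
  unfold muF pS
  rw [sum_div, sum_div, ← sum_sub_distrib]
  refine sum_congr rfl fun s _ => ?_
  ring

theorem card_big_fe {Q D : ℕ} (hD : 0 < D) (hW : 0 < ∑ s, w s) (C : ι → Fin k → X)
    (S : Finset X) {q : ℝ} (hq : 0 < q) :
    ((univ.filter fun ib => (1 - q) * (∑ s, w s) / ((Q : ℝ) + D) ≤ muF k Q D w C S ib).card : ℝ)
      = ∑ i ∈ range k, ∑ b ∈ range Q, (if (b : ℝ) ≤
        ((Q : ℝ) + D) * (1 - pS w C S i / (q * ∑ s, w s)) then (1 : ℝ) else 0) := by
  rw [card_filter]
  push_cast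
  rw [Fintype.sum_prod_type,
    ← Fin.sum_univ_eq_sum_range (fun i => ∑ b ∈ range Q, (if (b : ℝ) ≤
      ((Q : ℝ) + D) * (1 - pS w C S i / (q * ∑ s, w s)) then (1 : ℝ) else 0))]
  refine sum_congr rfl fun i _ => ?_
  rw [← Fin.sum_univ_eq_sum_range (fun b => (if (b : ℝ) ≤
      ((Q : ℝ) + D) * (1 - pS w C S i / (q * ∑ s, w s)) then (1 : ℝ) else 0))]
  refine sum_congr rfl fun b _ => ?_
  refine if_congr ?_ rfl rfl
  rw [muF_eq_fe]
  have hD' : (0 : ℝ) < D := by exact_mod_cast hD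
  have hb : ((b : ℕ) : ℝ) < Q := by exact_mod_cast b.2
  have hb0 : (0 : ℝ) ≤ ((b : ℕ) : ℝ) := Nat.cast_nonneg _
  simp only
  generalize ∑ s, w s = W at hW ⊢
  generalize pS w C S i = p
  generalize ((b : ℕ) : ℝ) = β at hb hb0 ⊢
  have h1 : (0 : ℝ) < Q + D := by linarith
  have h2 : (0 : ℝ) < Q + D - β := by linarith
  have h3 : 0 < q * W := mul_pos hq hW
  have e1 : (1 - q) * W / (Q + D) ≤ W / (Q + D) - p / (Q + D - β) ↔
      p / (Q + D - β) ≤ q * W / (Q + D) := by
    have : (1 - q) * W / (Q + D) = W / (Q + D) - q * W / (Q + D) := by ring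
    rw [this]
    constructor <;> intro h <;> linarith
  have e2 : (Q + D) * (1 - p / (q * W)) = (Q + D) * (q * W - p) / (q * W) := by
    field_simp
  rw [e1, e2, div_le_div_iff₀ h2 h1, le_div_iff₀ h3]
  constructor <;> intro h <;> nlinarith

theorem gain_fe {Q D : ℕ} (hD : 0 < D) (hw : ∀ s, 0 ≤ w s) (hW : 0 < ∑ s, w s)
    (C : ι → Fin k → X) (S : Finset X) {q : ℝ} (hq : 0 < q) (u : ℕ)
    (h : q * (∑ s, w s) * (u + 2 * D * k) / ((Q : ℝ) + 2 * D) < eS w C S q) :
    psi (muF k Q D w C S) u + (1 - q) * (∑ s, w s) / ((Q : ℝ) + D) ≤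
      psi (muF k Q D w C S) (u + 1) := by
  apply psi_gain
  have hD' : (0 : ℝ) < D := by exact_mod_cast hD
  have hQ : (0 : ℝ) ≤ Q := Nat.cast_nonneg _
  have h3 : 0 < q * ∑ s, w s := mul_pos hq hW
  have h1 : ∀ i, ((Q : ℝ) + 2 * D) / (q * ∑ s, w s) * max 0 (q * (∑ s, w s) - pS w C S i) - 2 * D
      ≤ ∑ b ∈ range Q, (if (b : ℝ) ≤
        ((Q : ℝ) + D) * (1 - pS w C S i / (q * ∑ s, w s)) then (1 : ℝ) else 0) := by
    intro i
    have hp := pS_nonneg hw C S i
    rcases le_total 0 (q * (∑ s, w s) - pS w C S i) with h5 | h5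
    · refine le_trans ?_ (count_lower_fe _ _)
      rw [max_eq_right h5]
      have e : ((Q : ℝ) + 2 * D) / (q * ∑ s, w s) * (q * (∑ s, w s) - pS w C S i) =
          ((Q : ℝ) + 2 * D) * (1 - pS w C S i / (q * ∑ s, w s)) := by field_simp
      rw [e]
      have h6 : 0 ≤ pS w C S i / (q * ∑ s, w s) := div_nonneg hp h3.le
      have h7 : pS w C S i / (q * ∑ s, w s) ≤ 1 := (div_le_one h3).2 (by linarith)
      generalize pS w C S i / (q * ∑ s, w s) = y at h6 h7
      refine le_min ?_ ?_ <;> nlinarith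
    · rw [max_eq_left h5, mul_zero]
      have : (0 : ℝ) ≤ ∑ b ∈ range Q, (if (b : ℝ) ≤
        ((Q : ℝ) + D) * (1 - pS w C S i / (q * ∑ s, w s)) then (1 : ℝ) else 0) :=
        sum_nonneg fun b _ => by split_ifs <;> norm_num
      linarith
  have h2 := sum_le_sum fun i (_ : i ∈ range k) => h1 i
  rw [← card_big_fe hD hW C S hq, sum_sub_distrib, ← mul_sum, sum_const, card_range,
    nsmul_eq_mul] at h2
  have h4 : (u : ℝ) + 2 * D * k < ((Q : ℝ) + 2 * D) / (q * ∑ s, w s) * eS w C S q := by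
    rw [div_lt_iff₀ (by linarith)] at h
    rw [div_mul_eq_mul_div, lt_div_iff₀ h3]
    linarith
  unfold eS at h4
  exact Nat.cast_lt.1 (lt_of_lt_of_le (by linarith) h2)

theorem loss_fe {Q D : ℕ} (hD : 0 < D) (hw : ∀ s, 0 ≤ w s) (hW : 0 < ∑ s, w s)
    (C : ι → Fin k → X) (S : Finset X) {q : ℝ} (hq : 0 < q) (hq1 : q + 1 / (D : ℝ) ≤ 1) (u : ℕ)
    (h : psi (muF k Q D w C S) u + (1 - q) * (∑ s, w s) / ((Q : ℝ) + D) ≤
      psi (muF k Q D w C S) (u + 1)) :
    (q + 1 / (D : ℝ)) * (∑ s, w s) * ((u + 1 : ℕ) : ℝ) / ((Q : ℝ) + 2 * D) ≤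
      eS w C S (q + 1 / (D : ℝ)) := by
  have hD' : (0 : ℝ) < D := by exact_mod_cast hD
  have hQ : (0 : ℝ) ≤ Q := Nat.cast_nonneg _
  have hη : (0 : ℝ) < 1 / (D : ℝ) := by positivity
  have hηD : (D : ℝ) * (1 / (D : ℝ)) = 1 := by field_simp
  generalize 1 / (D : ℝ) = t at *
  have h0 := psi_loss _ _ _ (div_pos (mul_pos (by linarith) hW) (by linarith)) h
  have h3 : 0 < q * ∑ s, w s := mul_pos hq hW
  have h3' : 0 < (q + t) * ∑ s, w s := mul_pos (by linarith) hW
  have h1 : ∀ i, ∑ b ∈ range Q, (if (b : ℝ) ≤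
        ((Q : ℝ) + D) * (1 - pS w C S i / (q * ∑ s, w s)) then (1 : ℝ) else 0) ≤
      ((Q : ℝ) + 2 * D) / ((q + t) * ∑ s, w s) *
        max 0 ((q + t) * (∑ s, w s) - pS w C S i) := by
    intro i
    have hp := pS_nonneg hw C S i
    rcases le_or_gt (pS w C S i) (q * ∑ s, w s) with h5 | h5
    · have h7 : pS w C S i / (q * ∑ s, w s) ≤ 1 := (div_le_one h3).2 h5
      refine le_trans (count_upper_fe _ (mul_nonneg (by linarith) (by linarith)) _) ?_
      rw [max_eq_right (by nlinarith)]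
      have e : ((Q : ℝ) + 2 * D) / ((q + t) * ∑ s, w s) * ((q + t) * (∑ s, w s) - pS w C S i) =
          ((Q : ℝ) + 2 * D) * (1 - pS w C S i / ((q + t) * ∑ s, w s)) := by field_simp
      rw [e]
      have h8 : pS w C S i / ((q + t) * ∑ s, w s) ≤ pS w C S i / (q * ∑ s, w s) :=
        div_le_div_of_nonneg_left hp h3 (by nlinarith)
      have h9 : pS w C S i / ((q + t) * ∑ s, w s) ≤ 1 - t := by
        rw [div_le_iff₀ h3']
        have : q ≤ (1 - t) * (q + t) := by nlinarith
        nlinarith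
      generalize pS w C S i / ((q + t) * ∑ s, w s) = y' at h8 h9
      generalize pS w C S i / (q * ∑ s, w s) = y at h8 h7
      nlinarith
    · have h7 : 1 < pS w C S i / (q * ∑ s, w s) := (one_lt_div h3).2 h5
      rw [sum_eq_zero fun b _ => if_neg (by
        have : (0 : ℝ) ≤ b := Nat.cast_nonneg _
        nlinarith)]
      exact mul_nonneg (div_nonneg (by linarith) h3'.le) (le_max_left _ _)
  have h2 := sum_le_sum fun i (_ : i ∈ range k) => h1 i
  rw [← card_big_fe hD hW C S hq, ← mul_sum] at h2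
  have h4 : ((u + 1 : ℕ) : ℝ) ≤ ((Q : ℝ) + 2 * D) / ((q + t) * ∑ s, w s) * eS w C S (q + t) :=
    le_trans (by exact_mod_cast h0) h2
  rw [div_mul_eq_mul_div, le_div_iff₀ h3'] at h4
  rw [div_le_iff₀ (by linarith)]
  linarith

end excess

section abstract

/-- Laminar lemma. -/
theorem laminar_fe {X : Type*} [DecidableEq X] (Rf : Finset X → ℝ) (G : Finset X → Prop)
    (occ : X → Prop) (hsup : ∀ A B, Disjoint A B → Rf A + Rf B ≤ Rf (A ∪ B))
    (hG : ∀ V, G V → 0 ≤ Rf V) (hemp : ∀ Y, (∀ x ∈ Y, ¬ occ x) → 0 ≤ Rf Y)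
    (hlam : ∀ V V', G V → G V' → Disjoint V V' ∨ V ⊆ V' ∨ V' ⊆ V) (Y : Finset X) :
    (∀ x ∈ Y, occ x → ∃ V, G V ∧ x ∈ V ∧ V ⊆ Y) → 0 ≤ Rf Y := by
  classical
  induction Y using Finset.strongInduction with
  | H Y ih =>
    intro h
    by_cases h0 : ∀ x ∈ Y, ¬ occ x
    · exact hemp Y h0
    push Not at h0
    obtain ⟨x, hx, hxo⟩ := h0
    obtain ⟨V₀, hV₀, hxV₀, hV₀Y⟩ := h x hx hxo
    obtain ⟨V, hV, hmax⟩ := exists_max_image (Y.powerset.filter G) card
      ⟨V₀, mem_filter.2 ⟨mem_powerset.2 hV₀Y, hV₀⟩⟩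
    have hVY : V ⊆ Y := mem_powerset.1 (mem_filter.1 hV).1
    have hVG : G V := (mem_filter.1 hV).2
    have hne : V.Nonempty := by
      have h1 := hmax V₀ (mem_filter.2 ⟨mem_powerset.2 hV₀Y, hV₀⟩)
      have h2 : 0 < V₀.card := card_pos.2 ⟨x, hxV₀⟩
      exact card_pos.1 (by omega)
    have h1 := ih (Y \ V) (sdiff_ssubset hVY hne) fun y hy hyo => by
      obtain ⟨hyY, hyV⟩ := mem_sdiff.1 hy
      obtain ⟨V', hV', hyV', hV'Y⟩ := h y hyY hyo
      refine ⟨V', hV', hyV', subset_sdiff.2 ⟨hV'Y, ?_⟩⟩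
      rcases hlam V' V hV' hVG with h2 | h2 | h2
      · exact h2
      · exact absurd (h2 hyV') hyV
      · have h3 := hmax V' (mem_filter.2 ⟨mem_powerset.2 hV'Y, hV'⟩)
        rw [eq_of_subset_of_card_le h2 h3] at hyV
        exact absurd hyV' hyV
    have h2 := hsup V (Y \ V) disjoint_sdiff
    rw [union_sdiff_of_subset hVY] at h2
    linarith [hG V hVG]

theorem telescope_fe (H : ℕ) (F R : ℕ → ℝ) (h : ∀ l, l < H → F l + R l ≤ F (l + 1)) :
    ∀ l, l ≤ H → F 0 + ∑ i ∈ range l, R i ≤ F l := by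
  intro l
  induction l with
  | zero => simp
  | succ l ih =>
    intro hl
    rw [sum_range_succ]
    linarith [ih (by omega), h l (by omega)]

/-- The doubling argument. -/
theorem engine_fe (H n : ℕ) (φ : ℝ) (hφ : 0 < φ) (F R : ℕ → ℕ → ℝ)
    (hF0 : ∀ m, 1 ≤ m → φ ≤ F m 0) (hFH : ∀ m, F m H ≤ 0)
    (hFs : ∀ m, m ≤ n → ∀ l, l < H → F m l + R m l ≤ F m (l + 1))
    (hd : ∀ m, 1 ≤ m → m < n → ∀ i, i < H → (∀ j, j ≤ i → 0 < F m j) →
      0 ≤ R (m + 1) i ∧ -2 * R m i ≤ R (m + 1) i) :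
    ∀ m, 1 ≤ m → m ≤ n → ∃ l, l ≤ H ∧ (∀ i, i < l → 0 ≤ R m i) ∧
      (2 ^ m - 2) * φ ≤ ∑ i ∈ range l, R m i := by
  intro m hm
  induction m, hm using Nat.le_induction with
  | base => intro _; exact ⟨0, Nat.zero_le _, fun i hi => absurd hi (by omega), by simp⟩
  | succ m hm ih =>
    intro hmn
    obtain ⟨l, hl, hR, hS⟩ := ih (by omega)
    classical
    have hex : ∃ j, F m j ≤ 0 := ⟨H, hFH m⟩
    have h1 := Nat.find_spec hex
    have h2 : Nat.find hex ≤ H := Nat.find_min' hex (hFH m)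
    have h3 : ∀ j, j < Nat.find hex → 0 < F m j := fun j hj => not_le.1 (Nat.find_min hex hj)
    generalize Nat.find hex = l' at h1 h2 h3
    have htel := telescope_fe H (F m) (R m) (hFs m (by omega))
    have h4 : l ≤ l' := by
      by_contra h5
      have h6 := htel l' h2
      have h7 : 0 ≤ ∑ i ∈ range l', R m i :=
        sum_nonneg fun i hi => hR i (by have := mem_range.1 hi; omega)
      linarith [hF0 m hm]
    have h5 : ∀ i, i < l' → 0 ≤ R (m + 1) i ∧ -2 * R m i ≤ R (m + 1) i := fun i hi =>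
      hd m hm (by omega) i (by omega) fun j hj => h3 j (by omega)
    refine ⟨l', h2, fun i hi => (h5 i hi).1, ?_⟩
    have h6 := htel l' h2
    rw [← sum_range_add_sum_Ico _ h4] at h6 ⊢
    have h7 : 0 ≤ ∑ i ∈ range l, R (m + 1) i :=
      sum_nonneg fun i hi => (h5 i (by have := mem_range.1 hi; omega)).1
    have h8 : ∑ i ∈ Ico l l', -2 * R m i ≤ ∑ i ∈ Ico l l', R (m + 1) i :=
      sum_le_sum fun i hi => (h5 i (mem_Ico.1 hi).2).2
    rw [← mul_sum] at h8
    have h9 := hF0 m hm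
    rw [pow_succ]
    linarith

theorem numeric_fe {k : ℕ} (hk : 2 ≤ k) :
    pQ k + 2 * pD k + 24 < 12 * 2 ^ (4 * Nat.clog 2 k + 6) := by
  have h1 : k ≤ 2 ^ Nat.clog 2 k := Nat.le_pow_clog (by norm_num) k
  have h2 : Nat.clog 2 k < 2 ^ Nat.clog 2 k := Nat.lt_two_pow_self
  have h3 : 2 ^ (4 * Nat.clog 2 k + 6) = 64 * (2 ^ Nat.clog 2 k) ^ 4 := by
    rw [← pow_mul]; ring
  unfold pQ pQ1 pg
  have h4 : pD k ≤ 31 * 2 ^ Nat.clog 2 k := by unfold pD; omega
  rw [h3]
  generalize pD k = D at h4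
  generalize 2 ^ Nat.clog 2 k = K at h1 h4
  have h5 : 2 ≤ K := by omega
  have h6 : D * k ^ 2 ≤ 31 * K * K ^ 2 := by gcongr
  have h7 : D * k ≤ 31 * K * K := by gcongr
  have h8 : 2 * K ≤ K * K := by nlinarith
  have h9 : 2 * (K * K) ≤ K * K ^ 2 := by nlinarith
  have h10 : 2 * (K * K ^ 2) ≤ K ^ 4 := by nlinarith
  nlinarith

end abstract

section slabs

variable {X ι P Lab : Type*} [Fintype X] [DecidableEq X] [Fintype ι] [Fintype P] [DecidableEq P]
  [Fintype Lab] [DecidableEq Lab] {k Q D : ℕ}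

theorem slab_same_fe (w : ι → ℝ) (C : ι → Fin k → X) (z : P → X) (p : P) (a : X) (l : X → Lab)
    (h : l (z p) = l a) : slabI k Q D w C (Function.update z p a) l = slabI k Q D w C z l := by
  unfold slabI
  congr 1
  refine sum_congr rfl fun b _ => ?_
  have := cnt_update_fe z p a (univ.filter fun x => l x = b)
  simp only [mem_filter, mem_univ, true_and, h] at this
  rw [Nat.add_right_cancel this]

theorem slab_diff_fe (w : ι → ℝ) (C : ι → Fin k → X) (z : P → X) (p : P) (a : X) (l : X → Lab)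
    (h : l (z p) ≠ l a) : ∃ v, v + 1 = cnt z (univ.filter fun x => l x = l (z p)) ∧
      slabI k Q D w C (Function.update z p a) l = slabI k Q D w C z l -
        (psi (muF k Q D w C (univ.filter fun x => l x = l a))
            (cnt z (univ.filter fun x => l x = l a) + 1) -
          psi (muF k Q D w C (univ.filter fun x => l x = l a))
            (cnt z (univ.filter fun x => l x = l a))) +
        (psi (muF k Q D w C (univ.filter fun x => l x = l (z p))) (v + 1) -
          psi (muF k Q D w C (univ.filter fun x => l x = l (z p))) v) := by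
  have h1 := cnt_update_fe z p a (univ.filter fun x => l x = l (z p))
  have h2 := cnt_update_fe z p a (univ.filter fun x => l x = l a)
  simp only [mem_filter, mem_univ, true_and, h, h.symm, if_true, if_false, add_zero] at h1 h2
  refine ⟨_, h1, ?_⟩
  unfold slabI
  have hm : l (z p) ∈ (univ : Finset Lab).erase (l a) := mem_erase.2 ⟨h, mem_univ _⟩
  rw [← add_sum_erase _ _ (mem_univ (l a)), ← add_sum_erase _ _ hm,
    ← add_sum_erase _ (fun b => psi (muF k Q D w C (univ.filter fun x => l x = b))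
      (cnt z (univ.filter fun x => l x = b))) (mem_univ (l a)),
    ← add_sum_erase _ (fun b => psi (muF k Q D w C (univ.filter fun x => l x = b))
      (cnt z (univ.filter fun x => l x = b))) hm]
  have h3 : ∑ b ∈ (univ.erase (l a)).erase (l (z p)),
      psi (muF k Q D w C (univ.filter fun x => l x = b))
        (cnt (Function.update z p a) (univ.filter fun x => l x = b)) =
      ∑ b ∈ (univ.erase (l a)).erase (l (z p)),
      psi (muF k Q D w C (univ.filter fun x => l x = b))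
        (cnt z (univ.filter fun x => l x = b)) := by
    refine sum_congr rfl fun b hb => ?_
    have h4 := cnt_update_fe z p a (univ.filter fun x => l x = b)
    have h5 : l (z p) ≠ b := (ne_of_mem_erase hb).symm
    have h6 : l a ≠ b := (ne_of_mem_erase (mem_of_mem_erase hb)).symm
    simp only [mem_filter, mem_univ, true_and, h5, h6, if_false, add_zero] at h4
    rw [h4]
  rw [h3, h2, h1]
  ring

end slabs

/-- Local optimality of the particles forces many particles on a point that every scenario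
occupies. -/
theorem feasible {X ι P Lab : Type*} [Fintype X] [DecidableEq X] [MetricSpace X] [Fintype ι]
    [Fintype P] [DecidableEq P] [Fintype Lab] [DecidableEq Lab] {k : ℕ} (hk : 2 ≤ k)
    (hP : Fintype.card P = k * pQ k) {w : ι → ℝ} (hw : ∀ s, 0 ≤ w s) (hW : 0 < ∑ s, w s)
    (C : ι → Fin k → X) (a : X) (ha : ∀ s, w s ≠ 0 → ∃ i, C s i = a)
    (H : ℕ) (hH : 0 < H) (η : ℝ) (hη : 0 < η) (lab : ℕ → X → Lab)
    (nested : ∀ ℓ ℓ' x y, ℓ ≤ ℓ' → lab ℓ x = lab ℓ y → lab ℓ' x = lab ℓ' y)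
    (hd : ∀ ℓ x y, ℓ < H → lab ℓ x = lab ℓ y → dist x y ≤ 24 * η * ℓ)
    (htop : ∀ x y : X, dist x y ≤ 24 * η * H)
    (z : P → X)
    (hopt : ∀ p, η * ∑ ℓ ∈ range H, slabI k (pQ k) (pD k) w C z (lab ℓ) ≤
      η * ∑ ℓ ∈ range H, slabI k (pQ k) (pD k) w C (Function.update z p a) (lab ℓ) +
        (∑ s, w s) * dist (z p) a / pc k) :
    pQ1 k ≤ cnt z {a} := by
  by_contra hcon
  have hnum := numeric_fe hk
  have hDn : pD k = 6 * (4 * Nat.clog 2 k + 6) + 2 := by unfold pD; ring
  have hQ1 : pQ k = pQ1 k + 4 * pD k * k := rfl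
  unfold pc at hopt
  generalize 4 * Nat.clog 2 k + 6 = n at hnum hDn
  generalize pQ1 k = Q₁ at hcon hQ1
  generalize pQ k = Q at hP hopt hnum hQ1
  generalize pD k = D at hopt hnum hDn hQ1
  have hD : 0 < D := by omega
  have hD' : (0 : ℝ) < D := by exact_mod_cast hD
  have hQ : (0 : ℝ) ≤ Q := Nat.cast_nonneg _
  have hk' : (2 : ℝ) ≤ k := by exact_mod_cast hk
  obtain ⟨t, ht⟩ : ∃ t : ℝ, t = 1 / (D : ℝ) := ⟨_, rfl⟩
  have ht0 : 0 < t := by rw [ht]; positivity
  have htD : (D : ℝ) * t = 1 := by rw [ht]; field_simp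
  have htn : (6 * (n : ℝ) + 2) * t = 1 := by
    rw [← htD, hDn]; push_cast; ring
  obtain ⟨W, hWe⟩ : ∃ W : ℝ, W = ∑ s, w s := ⟨_, rfl⟩
  have hW' : 0 < W := hWe ▸ hW
  have hQD : (0 : ℝ) < Q + 2 * D := by linarith
  have hQ' : (0 : ℝ) < Q + D := by linarith
  -- the functions
  set Rf : ℝ → Finset X → ℝ := fun q S => eS w C S q - q * W * (cnt z S : ℝ) / ((Q : ℝ) + 2 * D)
    with hRf
  set U : ℕ → Finset X := fun l => if l < H then univ.filter fun x => lab l x = lab l a else univ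
    with hU
  have hUm : ∀ l x, x ∈ U l ↔ (l < H → lab l x = lab l a) := by
    intro l x
    simp only [hU]
    split_ifs with h
    · simp [h]
    · simp [h]
  have hUs : ∀ l, U l ⊆ U (l + 1) := fun l x hx =>
    (hUm _ _).2 fun h => nested l _ _ _ (Nat.le_succ l) ((hUm _ _).1 hx (by omega))
  have hU0 : U 0 = {a} := by
    ext x
    rw [hUm, mem_singleton]
    refine ⟨fun h => ?_, fun h _ => by rw [h]⟩
    have := hd 0 x a hH (h hH)
    simpa using this
  have hsup : ∀ q, q ≤ 1 → ∀ A B, Disjoint A B → Rf q A + Rf q B ≤ Rf q (A ∪ B) := by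
    intro q hq A B h
    have h1 := eS_super hw C h hq
    simp only [hRf]
    rw [cnt_union_fe z h]
    push_cast
    rw [mul_add, add_div]
    linarith
  have hgood : ∀ q, 0 < q → q + 2 * t ≤ 1 → ∀ i, i < H →
      (∀ j, j ≤ i → 0 < Rf q (U j) - q * W * (2 * D * k) / ((Q : ℝ) + 2 * D)) →
      0 ≤ Rf (q + 2 * t) (U (i + 1) \ U i) := by
    intro q hq hq1 i hi hF
    refine laminar_fe (Rf (q + 2 * t))
      (fun V => 0 ≤ Rf (q + 2 * t) V ∧ ∃ j y, V = univ.filter fun x => lab j x = lab j y)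
      (fun x => ∃ p, z p = x) (hsup _ hq1) (fun V hV => hV.1) (fun Y hY => ?_)
      (fun V V' hV hV' => ?_) _ ?_
    · have : cnt z Y = 0 := by
        unfold cnt
        rw [card_eq_zero, filter_eq_empty_iff]
        exact fun p _ hp => hY _ hp ⟨p, rfl⟩
      simp only [hRf, this]
      simpa using eS_nonneg C Y (q + 2 * t)
    · obtain ⟨-, j, y, rfl⟩ := hV
      obtain ⟨-, j', y', rfl⟩ := hV'
      by_cases hdis : Disjoint (univ.filter fun x => lab j x = lab j y)
        (univ.filter fun x => lab j' x = lab j' y')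
      · exact Or.inl hdis
      right
      obtain ⟨x, hx, hx'⟩ := not_disjoint_iff.1 hdis
      have h1 := (mem_filter.1 hx).2
      have h2 := (mem_filter.1 hx').2
      rcases le_total j j' with h | h
      · exact Or.inl fun u hu => mem_filter.2 ⟨mem_univ _,
          (nested j j' u x h ((mem_filter.1 hu).2.trans h1.symm)).trans h2⟩
      · exact Or.inr fun u hu => mem_filter.2 ⟨mem_univ _,
          (nested j' j u x h ((mem_filter.1 hu).2.trans h2.symm)).trans h1⟩
    · rintro _ hx ⟨p, rfl⟩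
      obtain ⟨hx1, hx2⟩ := mem_sdiff.1 hx
      rw [hUm] at hx1 hx2
      have hx3 : lab i (z p) ≠ lab i a := fun h => hx2 fun _ => h
      have hne : ∀ j, j ≤ i → lab j (z p) ≠ lab j a := fun j hj h => hx3 (nested j i _ _ hj h)
      have hdist : dist (z p) a ≤ 24 * η * ((i + 1 : ℕ) : ℝ) := by
        by_cases h : i + 1 < H
        · exact hd _ _ _ h (hx1 h)
        · rw [show i + 1 = H by omega]; exact htop _ _
      by_contra hno
      have hslab : ∀ j ∈ range (i + 1),
          slabI k Q D w C (Function.update z p a) (lab j) <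
            slabI k Q D w C z (lab j) - t * W / ((Q : ℝ) + D) := by
        intro j hj
        have hji : j ≤ i := by have := mem_range.1 hj; omega
        obtain ⟨v, hv, he⟩ := slab_diff_fe (Q := Q) (D := D) w C z p a (lab j) (hne j hji)
        have hUj : U j = univ.filter fun x => lab j x = lab j a := by
          simp only [hU]; rw [if_pos (by omega)]
        have h1 := hF j hji
        rw [hUj] at h1
        have h2 := gain_fe (Q := Q) hD hw hW C (univ.filter fun x => lab j x = lab j a) hq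
          (cnt z (univ.filter fun x => lab j x = lab j a)) (by
            simp only [hRf] at h1
            rw [← hWe, mul_add, add_div]
            linarith)
        have h3 : psi (muF k Q D w C (univ.filter fun x => lab j x = lab j (z p))) (v + 1) <
            psi (muF k Q D w C (univ.filter fun x => lab j x = lab j (z p))) v +
              (1 - (q + t)) * (∑ s, w s) / ((Q : ℝ) + D) := by
          by_contra h4
          have h5 := loss_fe (Q := Q) hD hw hW C (univ.filter fun x => lab j x = lab j (z p))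
            (q := q + t) (by linarith) (by rw [← ht]; linarith) v (not_lt.1 h4)
          rw [← ht, hv, ← hWe, show q + t + t = q + 2 * t by ring] at h5
          refine hno ⟨univ.filter fun x => lab j x = lab j (z p), ⟨?_, j, z p, rfl⟩,
            mem_filter.2 ⟨mem_univ _, rfl⟩, fun x hx => ?_⟩
          · simp only [hRf]; linarith
          · have h6 := (mem_filter.1 hx).2
            refine mem_sdiff.2 ⟨(hUm _ _).2 fun h =>
              (nested j _ _ _ (by omega) h6).trans (hx1 h), fun h => hx3 ?_⟩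
            exact (nested j i _ _ hji h6).symm.trans ((hUm _ _).1 h hi)
        rw [← hWe] at h2 h3
        have h6 : (1 - (q + t)) * W / ((Q : ℝ) + D) =
            (1 - q) * W / ((Q : ℝ) + D) - t * W / ((Q : ℝ) + D) := by ring
        linarith
      have h1 := sum_lt_sum_of_nonempty (nonempty_range_add_one (n := i)) hslab
      have h2 : ∑ j ∈ Ico (i + 1) H, slabI k Q D w C (Function.update z p a) (lab j) =
          ∑ j ∈ Ico (i + 1) H, slabI k Q D w C z (lab j) := by
        refine sum_congr rfl fun j hj => slab_same_fe w C z p a (lab j) ?_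
        obtain ⟨h3, h4⟩ := mem_Ico.1 hj
        exact nested (i + 1) j _ _ h3 (hx1 (by omega))
      have h3 := hopt p
      rw [← sum_range_add_sum_Ico _ (show i + 1 ≤ H by omega),
        ← sum_range_add_sum_Ico _ (show i + 1 ≤ H by omega), h2, ← hWe] at h3
      rw [sum_sub_distrib, sum_const, card_range, nsmul_eq_mul] at h1
      have h4 : W * dist (z p) a / (24 * ((Q : ℝ) + D) * D) ≤
          η * (((i + 1 : ℕ) : ℝ) * (t * W / ((Q : ℝ) + D))) := by
        calc _ ≤ W * (24 * η * ((i + 1 : ℕ) : ℝ)) / (24 * ((Q : ℝ) + D) * D) := by gcongr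
          _ = _ := by rw [ht]; field_simp
      have h5 := mul_lt_mul_of_pos_left h1 hη
      linarith
  have hφ : 0 < 12 * k * W / ((Q : ℝ) + 2 * D) := by positivity
  have hF0 : ∀ q, 0 ≤ q → 2 * D * k * (q * W) / ((Q : ℝ) + 2 * D) ≤
      Rf q (U 0) - q * W * (2 * D * k) / ((Q : ℝ) + 2 * D) := by
    intro q hq
    have h1 : pS w C {a} 0 = 0 := by
      refine sum_eq_zero fun s _ => ?_
      by_cases hs : w s = 0
      · rw [hs, zero_mul]
      · obtain ⟨i, hi⟩ := ha s hs
        have : 0 < cnt (C s) {a} := card_pos.2 ⟨i, by simp [hi]⟩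
        rw [if_neg (by omega), mul_zero]
    have h2 : q * W ≤ eS w C {a} q := by
      have h3 := single_le_sum (f := fun i => max 0 (q * (∑ s, w s) - pS w C {a} i))
        (fun _ _ => le_max_left _ _) (mem_range.2 (show 0 < k by omega))
      simp only [h1, sub_zero] at h3
      rw [hWe]
      exact le_trans (le_max_right _ _) h3
    have h3 : (cnt z {a} : ℝ) + 4 * D * k ≤ Q + 2 * D := by
      have : cnt z {a} + 4 * D * k ≤ Q + 2 * D := by omega
      exact_mod_cast this
    have h4 : q * W * ((cnt z {a} : ℝ) + 4 * D * k) / ((Q : ℝ) + 2 * D) ≤ q * W := by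
      rw [div_le_iff₀ hQD]
      exact mul_le_mul_of_nonneg_left h3 (mul_nonneg hq hW'.le)
    simp only [hRf, hU0]
    have h5 : q * W * ((cnt z {a} : ℝ) + 4 * D * k) / ((Q : ℝ) + 2 * D) =
        q * W * (cnt z {a} : ℝ) / ((Q : ℝ) + 2 * D) +
          2 * (q * W * (2 * D * k) / ((Q : ℝ) + 2 * D)) := by ring
    have h6 : 2 * D * k * (q * W) / ((Q : ℝ) + 2 * D) =
        q * W * (2 * D * k) / ((Q : ℝ) + 2 * D) := by ring
    linarith
  have hq0 : ∀ m : ℕ, 0 ≤ 6 * (m : ℝ) * t := fun m => by positivity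
  have hFs : ∀ m, m ≤ n → ∀ l, l < H →
      Rf (6 * (m : ℝ) * t) (U l) - 6 * (m : ℝ) * t * W * (2 * D * k) / ((Q : ℝ) + 2 * D) +
        Rf (6 * (m : ℝ) * t) (U (l + 1) \ U l) ≤
      Rf (6 * (m : ℝ) * t) (U (l + 1)) -
        6 * (m : ℝ) * t * W * (2 * D * k) / ((Q : ℝ) + 2 * D) := by
    intro m hm l _
    have hm' : (m : ℝ) ≤ n := by exact_mod_cast hm
    have h1 := hsup (6 * (m : ℝ) * t) (by nlinarith) (U l) (U (l + 1) \ U l) disjoint_sdiff
    rw [union_sdiff_of_subset (hUs l)] at h1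
    linarith
  have hn1 : 1 ≤ n := by
    by_contra h
    have : n = 0 := by omega
    subst this
    omega
  obtain ⟨l, hl, -, hS⟩ := engine_fe H n (12 * k * W / ((Q : ℝ) + 2 * D)) hφ
    (fun m l => Rf (6 * (m : ℝ) * t) (U l) -
      6 * (m : ℝ) * t * W * (2 * D * k) / ((Q : ℝ) + 2 * D))
    (fun m i => Rf (6 * (m : ℝ) * t) (U (i + 1) \ U i))
    (fun m hm => by
      refine le_trans ?_ (hF0 _ (hq0 m))
      have hm' : (1 : ℝ) ≤ m := by exact_mod_cast hm
      have e : 2 * D * k * (6 * (m : ℝ) * t * W) = 12 * k * W * m * (D * t) := by ring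
      rw [e, htD, mul_one]
      exact div_le_div_of_nonneg_right (le_mul_of_one_le_right (by positivity) hm') hQD.le)
    (fun m => by
      have e1 : U H = univ := by simp only [hU]; rw [if_neg (lt_irrefl _)]
      have e2 : cnt z univ = k * Q := by
        unfold cnt
        rw [filter_true_of_mem fun p _ => mem_univ _, card_univ, hP]
      have h1 := eS_le hw C univ (hq0 m)
      simp only [hRf, e1, e2]
      rw [← hWe] at h1
      have e3 : 6 * (m : ℝ) * t * W * ((k * Q : ℕ) : ℝ) / ((Q : ℝ) + 2 * D) +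
          6 * (m : ℝ) * t * W * (2 * D * k) / ((Q : ℝ) + 2 * D) = k * (6 * (m : ℝ) * t * W) := by
        push_cast
        field_simp
      linarith)
    hFs
    (fun m hm hmn i hi hF => by
      have hm' : (1 : ℝ) ≤ m := by exact_mod_cast hm
      have hm2 : (m : ℝ) ≤ n := by exact_mod_cast hmn.le
      have hq : 0 < 6 * (m : ℝ) * t := by positivity
      have h1 := hgood (6 * (m : ℝ) * t) hq (by nlinarith) i hi hF
      have e : 6 * ((m + 1 : ℕ) : ℝ) * t = 6 * (m : ℝ) * t + 6 * t := by push_cast; ring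
      simp only [e]
      generalize 6 * (m : ℝ) * t = q at hq h1
      generalize U (i + 1) \ U i = S at h1
      have h2 := eS_convex (w := w) C S q t
      have h3 := eS_ratio hw C S (q := q + 2 * t) (q' := q + 6 * t) (by linarith) (by linarith)
      simp only [hRf] at h1 ⊢
      have e1 : ∀ r : ℝ, r * W * (cnt z S : ℝ) / ((Q : ℝ) + 2 * D) =
          r * (W * (cnt z S : ℝ) / ((Q : ℝ) + 2 * D)) := fun r => by ring
      rw [e1] at h1
      rw [e1, e1]
      generalize W * (cnt z S : ℝ) / ((Q : ℝ) + 2 * D) = c at h1 ⊢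
      refine ⟨?_, by linarith⟩
      have h4 : (q + 2 * t) * ((q + 6 * t) * c) ≤ (q + 2 * t) * eS w C S (q + 6 * t) := by
        have := mul_le_mul_of_nonneg_left (sub_nonneg.1 h1) (show 0 ≤ q + 6 * t by linarith)
        linarith
      have := le_of_mul_le_mul_left h4 (by linarith)
      linarith) n hn1 le_rfl
  have h1 := telescope_fe H _ _ (hFs n le_rfl) l hl
  have h2 := hF0 _ (hq0 n)
  have h3 := eS_le hw C (U l) (hq0 n)
  rw [← hWe] at h3
  have h4 : 0 ≤ 2 * D * k * (6 * (n : ℝ) * t * W) / ((Q : ℝ) + 2 * D) := by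
    have := hq0 n
    positivity
  have h5 : 0 ≤ 6 * (n : ℝ) * t * W * (2 * D * k) / ((Q : ℝ) + 2 * D) := by
    have := hq0 n
    positivity
  have h6 : 0 ≤ 6 * (n : ℝ) * t * W * (cnt z (U l) : ℝ) / ((Q : ℝ) + 2 * D) := by
    have := hq0 n
    positivity
  have h7 : Rf (6 * (n : ℝ) * t) (U l) ≤ k * W := by
    simp only [hRf]
    have h8 : 6 * (n : ℝ) * t ≤ 1 := by nlinarith
    have h9 : (k : ℝ) * (6 * (n : ℝ) * t * W) ≤ k * W := by
      have := mul_le_mul_of_nonneg_right h8 (show 0 ≤ (k : ℝ) * W by positivity)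
      linarith
    linarith
  have h8 : (2 ^ n - 2) * (12 * k * W / ((Q : ℝ) + 2 * D)) ≤ k * W := by
    linarith
  have h9 : (Q : ℝ) + 2 * D + 24 < 12 * 2 ^ n := by exact_mod_cast hnum
  rw [← mul_div_assoc, div_le_iff₀ hQD] at h8
  have h10 : 0 < (k : ℝ) * W := by positivity
  nlinarith

end Vale.Agent.P304
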