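import Vale.Agent.P304.Base

namespace Vale.Agent.P304

open Finset

universe u

theorem minimax_fin {κ : Type*} [Fintype κ] (K : Set (κ → ℝ)) (hK : Convex ℝ K)
    (hne : K.Nonempty)
    (H : ∀ w : κ → ℝ, (∀ j, 0 ≤ w j) → ∑ j, w j = 1 → ∃ v ∈ K, ∑ j, w j * v j ≤ 0) :
    ∃ v ∈ K, ∀ j, v j < 1 := by
  classical
  by_contra hc
  push Not at hc
  obtain ⟨φ, s, h1, h2⟩ := geometric_hahn_banach_open
    (s := Set.pi Set.univ fun _ : κ => Set.Iio (1 : ℝ)) (t := K)
    (convex_pi fun _ _ => convex_Iio _) (isOpen_set_pi Set.finite_univ fun _ _ => isOpen_Iio) hK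
    (Set.disjoint_left.2 fun x hx hxK => by
      obtain ⟨j, hj⟩ := hc x hxK
      exact absurd (hx j trivial) (not_lt.2 hj))
  have e : ∀ x, φ x = ∑ j, φ (Pi.single j 1) * x j := fun x => by
    conv_lhs => rw [pi_eq_sum_univ' x]
    simp [map_sum, mul_comm]
  set a : κ → ℝ := fun j => φ (Pi.single j 1) with ha
  have hs : 0 < s := by
    have := h1 0 fun _ _ => by simp
    simpa using this
  have a0 : ∀ j, 0 ≤ a j := fun j => by
    by_contra hj
    push Not at hj
    have h4 : s / a j ≤ 0 := div_nonpos_of_nonneg_of_nonpos hs.le hj.le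
    have h5 := h1 ((s / a j) • Pi.single j 1) fun i _ => by
      have : s / a j * (Pi.single j 1 : κ → ℝ) i ≤ 0 :=
        mul_nonpos_of_nonpos_of_nonneg h4 (by rw [Pi.single_apply]; split_ifs <;> norm_num)
      simp only [Set.mem_Iio, Pi.smul_apply, smul_eq_mul]
      linarith
    rw [map_smul, smul_eq_mul] at h5
    have h6 : s / a j * a j = s := div_mul_cancel₀ _ hj.ne
    linarith
  rcases (sum_nonneg fun j (_ : j ∈ univ) => a0 j).eq_or_lt with hS | hS
  · obtain ⟨v, hv⟩ := hne
    have h3 := h2 v hv
    have h4 : ∀ j, a j = 0 := fun j =>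
      (sum_eq_zero_iff_of_nonneg fun j _ => a0 j).1 hS.symm j (mem_univ j)
    rw [e] at h3
    have h5 : ∑ j, φ (Pi.single j 1) * v j = 0 :=
      sum_eq_zero fun j _ => by rw [show φ (Pi.single j 1) = 0 from h4 j, zero_mul]
    linarith
  · obtain ⟨v, hv, hv'⟩ := H (fun j => a j / ∑ j, a j) (fun j => div_nonneg (a0 j) hS.le)
      (by rw [← sum_div, div_self hS.ne'])
    have h3 := h2 v hv
    rw [e] at h3
    have h4 : ∑ j, a j / (∑ j, a j) * v j = (∑ j, a j * v j) / ∑ j, a j := by
      rw [sum_div]
      exact sum_congr rfl fun j _ => by ring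
    rw [h4, div_le_iff₀ hS, zero_mul] at hv'
    have h5 : ∑ j, φ (Pi.single j 1) * v j = ∑ j, a j * v j := rfl
    linarith

section
variable {X : Type*} [MetricSpace X] {k : ℕ}

theorem mv_update_fin (s s' : Fin k → X) (i : Fin k) (r : X) :
    mv (Function.update s' i r) (Function.update s i r) + dist (s' i) (s i) = mv s' s := by
  unfold mv
  rw [← add_sum_erase univ _ (mem_univ i), ← add_sum_erase univ _ (mem_univ i)]
  have : ∑ j ∈ univ.erase i, dist (Function.update s' i r j) (Function.update s i r j) =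
      ∑ j ∈ univ.erase i, dist (s' j) (s j) :=
    sum_congr rfl fun j hj => by
      rw [Function.update_of_ne (ne_of_mem_erase hj), Function.update_of_ne (ne_of_mem_erase hj)]
  rw [this, Function.update_self, Function.update_self, dist_self]
  ring

theorem opt_lip_fin (hk : 0 < k) (σ : List X) :
    ∀ s s' : Fin k → X, opt s' σ ≤ opt s σ + mv s' s := by
  have : Nonempty (Fin k) := ⟨⟨0, hk⟩⟩
  induction σ with
  | nil => intro s s'; simpa [opt] using mv_nonneg s' s
  | cons r σ ih =>
    intro s s'
    obtain ⟨i, hi⟩ := Finite.exists_min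
      fun i : Fin k => dist (s i) r + opt (Function.update s i r) σ
    have h1 : dist (s i) r + opt (Function.update s i r) σ ≤ opt s (r :: σ) := le_ciInf hi
    have h2 : opt s' (r :: σ) ≤ dist (s' i) r + opt (Function.update s' i r) σ :=
      ciInf_le (f := fun i : Fin k => dist (s' i) r + opt (Function.update s' i r) σ)
        (Set.finite_range _).bddBelow i
    have h3 := ih (Function.update s i r) (Function.update s' i r)
    have h4 := mv_update_fin s s' i r
    have h5 := dist_triangle (s' i) (s i) r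
    linarith

theorem opt_val_fin {p : X → Prop} (σ : List {x // p x}) :
    ∀ s : Fin k → {x // p x}, opt s σ = opt (fun i => (s i).1) (σ.map Subtype.val) := by
  induction σ with
  | nil => intro s; simp [opt]
  | cons r σ ih =>
    intro s
    simp only [opt, List.map_cons]
    refine iInf_congr fun i => ?_
    rw [ih, Subtype.dist_eq]
    congr 2
    funext j
    by_cases h : j = i
    · subst h; simp
    · simp [Function.update_of_ne h]

/-- Probability of the choices along a history, both lists read from the newest entry. -/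
noncomputable def reachR (A : Policy X k) : List X → List (Fin k) → ℝ
  | r :: hr, i :: hc => reachR A hr hc * A.prob (r :: hr).reverse hc.reverse i
  | _, _ => 1

noncomputable def reach (A : Policy X k) (hr : List X) (hc : List (Fin k)) : ℝ :=
  reachR A hr.reverse hc.reverse

omit [MetricSpace X] in
theorem reachR_nonneg (A : Policy X k) : ∀ hr hc, 0 ≤ reachR A hr hc
  | [], _ => by simp [reachR]
  | _ :: _, [] => by simp [reachR]
  | r :: hr, i :: hc => by
    rw [reachR]
    exact mul_nonneg (reachR_nonneg A hr hc) (A.nonneg _ _ _)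

omit [MetricSpace X] in
theorem reach_nonneg (A : Policy X k) (hr : List X) (hc : List (Fin k)) : 0 ≤ reach A hr hc :=
  reachR_nonneg A _ _

omit [MetricSpace X] in
theorem reach_concat (A : Policy X k) (hr : List X) (hc : List (Fin k)) (r : X) (i : Fin k) :
    reach A (hr ++ [r]) (hc ++ [i]) = reach A hr hc * A.prob (hr ++ [r]) hc i := by
  simp [reach, reachR]

omit [MetricSpace X] in
theorem reach_nil (A : Policy X k) : reach A [] [] = 1 := by simp [reach, reachR]

open Classical in
/-- The behavioural policy that realises the mixture of two policies. -/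
noncomputable def mixP (A B : Policy X k) {a b : ℝ} (ha : 0 ≤ a) (hb : 0 ≤ b) : Policy X k where
  prob hr hc i :=
    if a * reach A hr.dropLast hc + b * reach B hr.dropLast hc = 0 then A.prob hr hc i
    else (a * reach A hr.dropLast hc * A.prob hr hc i + b * reach B hr.dropLast hc * B.prob hr hc i) /
      (a * reach A hr.dropLast hc + b * reach B hr.dropLast hc)
  nonneg hr hc i := by
    have h1 := mul_nonneg ha (reach_nonneg A hr.dropLast hc)
    have h2 := mul_nonneg hb (reach_nonneg B hr.dropLast hc)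
    split_ifs
    · exact A.nonneg _ _ _
    · exact div_nonneg (add_nonneg (mul_nonneg h1 (A.nonneg _ _ _))
        (mul_nonneg h2 (B.nonneg _ _ _))) (add_nonneg h1 h2)
  sum_one hr hc := by
    split_ifs with h
    · exact A.sum_one _ _
    · rw [← sum_div, sum_add_distrib, ← mul_sum, ← mul_sum, A.sum_one, B.sum_one, mul_one,
        mul_one, div_self h]

theorem mix_cost_fin (A B : Policy X k) {a b : ℝ} (ha : 0 ≤ a) (hb : 0 ≤ b) (σ : List X) :
    ∀ hr hc (s : Fin k → X),
      (a * reach A hr hc + b * reach B hr hc) * costFrom (mixP A B ha hb) hr hc s σ =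
        a * reach A hr hc * costFrom A hr hc s σ + b * reach B hr hc * costFrom B hr hc s σ := by
  induction σ with
  | nil => intro hr hc s; simp [costFrom]
  | cons r σ ih =>
    intro hr hc s
    simp only [costFrom, mul_sum]
    rw [← sum_add_distrib]
    refine sum_congr rfl fun i _ => ?_
    have key : (a * reach A hr hc + b * reach B hr hc) * (mixP A B ha hb).prob (hr ++ [r]) hc i =
        a * reach A hr hc * A.prob (hr ++ [r]) hc i + b * reach B hr hc * B.prob (hr ++ [r]) hc i := by
      simp only [mixP, List.dropLast_concat]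
      split_ifs with h
      · have h1 := mul_nonneg ha (reach_nonneg A hr hc)
        have h2 := mul_nonneg hb (reach_nonneg B hr hc)
        have h3 : a * reach A hr hc = 0 := by linarith
        have h4 : b * reach B hr hc = 0 := by linarith
        rw [h3, h4]; simp
      · rw [mul_div_cancel₀ _ h]
    have h5 := ih (hr ++ [r]) (hc ++ [i]) (Function.update s i r)
    rw [reach_concat, reach_concat] at h5
    rw [← mul_assoc, key]
    linear_combination h5

theorem exists_mix_fin (A B : Policy X k) {a b : ℝ} (ha : 0 ≤ a) (hb : 0 ≤ b) (hab : a + b = 1)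
    (s : Fin k → X) :
    ∃ M : Policy X k, ∀ σ, expCost M s σ = a * expCost A s σ + b * expCost B s σ := by
  refine ⟨mixP A B ha hb, fun σ => ?_⟩
  have := mix_cost_fin A B ha hb σ [] [] s
  simpa only [expCost, reach_nil, mul_one, hab, one_mul] using this

/-- A deterministic rule as a policy. -/
noncomputable def detP (g : List X → Fin k) : Policy X k where
  prob hr _ i := if i = g hr then 1 else 0
  nonneg hr _ i := by split_ifs <;> norm_num
  sum_one hr _ := by simp

theorem lazify_fin {p : X → Prop} (ret : X → {x // p x}) (hret : ∀ x, p x → (ret x).1 = x)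
    (V : List {x // p x} → Fin k → {x // p x}) (g : List X → Fin k)
    (hg : ∀ τ r, V (τ.map ret ++ [ret r]) (g (τ ++ [r])) = ret r) (σ : List X) :
    (∀ r ∈ σ, p r) → ∀ hr hc (s : Fin k → X) (v : Fin k → {x // p x}),
      costFrom (detP g) hr hc s σ ≤
        tcost (fun τ => V (hr.map ret ++ τ)) v (σ.map ret) + mv s (fun i => (v i).1) := by
  induction σ with
  | nil => intro _ hr hc s v; simpa [costFrom, tcost] using mv_nonneg _ _
  | cons r σ ih =>
    intro hσ hr hc s v
    have hr' : (ret r).1 = r := hret r (hσ r List.mem_cons_self)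
    set i := g (hr ++ [r]) with hi
    set v' := V (hr.map ret ++ [ret r]) with hv'
    have h1 : costFrom (detP g) hr hc s (r :: σ) = dist (s i) r +
        costFrom (detP g) (hr ++ [r]) (hc ++ [i]) (Function.update s i r) σ := by
      simp [costFrom, detP, hi]
    have h2 := ih (fun x hx => hσ x (List.mem_cons_of_mem _ hx)) (hr ++ [r]) (hc ++ [i])
      (Function.update s i r) v'
    have h3 : tcost (fun τ => V (hr.map ret ++ τ)) v ((r :: σ).map ret) =
        mv v v' + tcost (fun τ => V ((hr ++ [r]).map ret ++ τ)) v' (σ.map ret) := by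
      simp [tcost, hv']
    have h4 : (v' i).1 = r := by rw [hv', hi, hg, hr']
    have h5 := mv_update_fin (fun j => (v' j).1) s i r
    have h6 : Function.update (fun j => (v' j).1) i r = fun j => (v' j).1 := by
      rw [← h4]; exact Function.update_eq_self i _
    rw [h6] at h5
    simp only [h4] at h5
    have h7 := mv_triangle s (fun j => (v j).1) (fun j => (v' j).1)
    have h8 : mv (fun j => (v j).1) (fun j => (v' j).1) = mv v v' := rfl
    linarith

end

theorem bayes_fin {k : ℕ} (hk : 0 < k) {c : ℝ} (hc : 0 ≤ c) (h : FinBound.{u} k c)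
    (X : Type u) [MetricSpace X] (s : Fin k → X) (x₀ : X) (T : Finset (List X))
    (w : T → ℝ) (hw : ∀ j, 0 ≤ w j) (hw1 : ∑ j, w j = 1) :
    ∃ A : Policy X k, ∑ j : T, w j * (expCost A s j.1 - c * opt s j.1 -
      (mv s (fun _ => x₀) + c * mv (fun _ => x₀) s + 1)) ≤ 0 := by
  classical
  let F : Finset X := insert x₀ (T.biUnion List.toFinset)
  have hx : x₀ ∈ F := mem_insert_self _ _
  let ret : X → {x // x ∈ F} := fun x => if h : x ∈ F then ⟨x, h⟩ else ⟨x₀, hx⟩
  have hret : ∀ x, x ∈ F → (ret x).1 = x := fun x hx => by simp [ret, hx]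
  have hT : ∀ j : T, ∀ r ∈ j.1, r ∈ F := fun j r hr =>
    mem_insert_of_mem (mem_biUnion.2 ⟨j.1, j.2, List.mem_toFinset.2 hr⟩)
  obtain ⟨V, hV, hcost⟩ := h {x // x ∈ F} ⟨x₀, hx⟩ T w (fun j => j.1.map ret) hw hw1
  choose g hg using hV
  let g' : List X → Fin k := fun t => g (t.dropLast.map ret) (ret (t.getLastD x₀))
  have hg' : ∀ τ r, V (τ.map ret ++ [ret r]) (g' (τ ++ [r])) = ret r := by
    intro τ r
    simp only [g', List.dropLast_concat, List.getLastD_concat]
    exact hg _ _
  refine ⟨detP g', ?_⟩
  have h1 : ∀ j : T, expCost (detP g') s j.1 ≤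
      tcost V (fun _ => ⟨x₀, hx⟩) (j.1.map ret) + mv s (fun _ => x₀) := fun j => by
    simpa [expCost] using lazify_fin ret hret V g' hg' j.1 (hT j) [] [] s (fun _ => ⟨x₀, hx⟩)
  have h2 : ∀ j : T, opt (fun _ : Fin k => (⟨x₀, hx⟩ : {x // x ∈ F})) (j.1.map ret) ≤
      opt s j.1 + mv (fun _ => x₀) s := fun j => by
    rw [opt_val_fin, List.map_map]
    have : List.map (Subtype.val ∘ ret) j.1 = j.1 := by
      conv_rhs => rw [← List.map_id j.1]
      exact List.map_congr_left fun r hr => hret r (hT j r hr)
    rw [this]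
    exact opt_lip_fin hk _ _ _
  calc _ ≤ ∑ j : T, (w j * tcost V (fun _ => ⟨x₀, hx⟩) (j.1.map ret) -
        c * (w j * opt (fun _ : Fin k => (⟨x₀, hx⟩ : {x // x ∈ F})) (j.1.map ret)) - w j) := by
        refine sum_le_sum fun j _ => ?_
        have h3 := mul_le_mul_of_nonneg_left (h1 j) (hw j)
        have h4 := mul_le_mul_of_nonneg_left (h2 j) (mul_nonneg hc (hw j))
        linarith
    _ ≤ 0 := by
        rw [sum_sub_distrib, sum_sub_distrib, ← mul_sum, hw1]
        linarith

theorem policy_of_finBound {k : ℕ} (hk : 0 < k) {c : ℝ} (hc : 0 ≤ c) (h : FinBound.{u} k c)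
    (X : Type u) [MetricSpace X] (s : Fin k → X) :
    ∃ (A : Policy X k) (B : ℝ), ∀ σ : List X, expCost A s σ ≤ c * opt s σ + B := by
  classical
  set x₀ := s ⟨0, hk⟩
  set B₀ := mv s (fun _ => x₀) + c * mv (fun _ => x₀) s + 1 with hB₀
  have hfin : ∀ T : Finset (List X), ∃ A : Policy X k,
      ∀ σ ∈ T, expCost A s σ ≤ c * opt s σ + (B₀ + 1) := by
    intro T
    obtain ⟨v, ⟨A, hA⟩, hv⟩ := minimax_fin
      {v : T → ℝ | ∃ A : Policy X k, ∀ j, v j = expCost A s j.1 - c * opt s j.1 - B₀}
      (by
        rintro x ⟨A, hA⟩ y ⟨B, hB⟩ a b ha hb hab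
        obtain ⟨M, hM⟩ := exists_mix_fin A B ha hb hab s
        refine ⟨M, fun j => ?_⟩
        simp only [Pi.add_apply, Pi.smul_apply, smul_eq_mul, hA, hB, hM]
        linear_combination (- c * opt s j.1 - B₀) * hab)
      ⟨_, detP fun _ => ⟨0, hk⟩, fun _ => rfl⟩
      (fun w hw hw1 => by
        obtain ⟨A, hA⟩ := bayes_fin hk hc h X s x₀ T w hw hw1
        exact ⟨_, ⟨A, fun _ => rfl⟩, hA⟩)
    refine ⟨A, fun σ hσ => ?_⟩
    have h1 := hv ⟨σ, hσ⟩
    rw [hA] at h1
    simp only at h1
    linarith
  have : CompactSpace (stdSimplex ℝ (Fin k)) :=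
    isCompact_iff_compactSpace.1 (isCompact_stdSimplex ℝ (Fin k))
  let pol : (List X × List (Fin k) → stdSimplex ℝ (Fin k)) → Policy X k := fun p =>
    ⟨fun hr hc i => (p (hr, hc)).1 i, fun hr hc i => (p (hr, hc)).2.1 i,
      fun hr hc => (p (hr, hc)).2.2⟩
  have hcont : ∀ (σ : List X) hr hc (s' : Fin k → X),
      Continuous fun p => costFrom (pol p) hr hc s' σ := by
    intro σ
    induction σ with
    | nil => intro hr hc s'; simpa [costFrom] using continuous_const
    | cons r σ ih =>
      intro hr hc s'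
      simp only [costFrom]
      refine continuous_finsetSum _ fun i _ => Continuous.mul ?_ (continuous_const.add (ih _ _ _))
      exact (continuous_apply i).comp (continuous_subtype_val.comp (continuous_apply _))
  obtain ⟨p, -, hp⟩ := isCompact_univ.inter_iInter_nonempty
    (fun σ : List X => {p | expCost (pol p) s σ ≤ c * opt s σ + (B₀ + 1)})
    (fun σ => isClosed_le (hcont σ [] [] s) continuous_const)
    (fun T => by
      obtain ⟨A, hA⟩ := hfin T
      refine ⟨fun x => ⟨A.prob x.1 x.2, A.nonneg x.1 x.2, A.sum_one x.1 x.2⟩, Set.mem_univ _, ?_⟩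
      simp only [Set.mem_iInter]
      exact hA)
  exact ⟨pol p, B₀ + 1, fun σ => Set.mem_iInter.1 hp σ⟩

end Vale.Agent.P304
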