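import Vale.Agent.P304.Carve

namespace Vale.Agent.P304

open Finset

universe u

/-- State of one scale: ordered centres and heavy slots (Katetov functions). -/
structure Lv (X : Type u) [MetricSpace X] (r : ℝ) where
  N : List X
  nodup : N.Nodup
  f : Option X → X → ℝ
  lip : ∀ c x y, f c x ≤ f c y + dist x y
  kat : ∀ c x y, dist x y ≤ f c x + f c y
  far : ∀ c c' x, c ≠ c' → 30 * r ≤ f c x + f c' x

section loc
variable {X : Type u} [MetricSpace X]

noncomputable def key (r : ℝ) (G : ℕ) (N : List X) (ρ : X → Fin G) (x : X) : X ⊕ X :=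
  (grp r G N ρ x).elim (Sum.inr x) Sum.inl

def evk (r : ℝ) (f : X → ℝ) : X ⊕ X → ℝ
  | Sum.inl p => f p
  | Sum.inr x => f x + 2 * r

open Classical in
noncomputable def baseK (r t : ℝ) (f : Option X → X → ℝ) (κ : X ⊕ X) : Option X ⊕ (X ⊕ X) :=
  if h : ∃ c, evk r (f c) κ ≤ t then Sum.inl h.choose else Sum.inr κ

theorem Lv.nonneg {r : ℝ} (s : Lv X r) (c : Option X) (x : X) : 0 ≤ s.f c x := by
  have := s.kat c x x
  rw [dist_self] at this
  linarith

theorem grp_some {r : ℝ} (hr : 0 < r) {G : ℕ} {N : List X} {ρ : X → Fin G} {x c : X}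
    (h : grp r G N ρ x = some c) : c ∈ N ∧ dist c x ≤ 2 * r := by
  refine ⟨List.mem_of_find?_eq_some h, ?_⟩
  have h1 := List.find?_some h
  simp only [decide_eq_true_eq] at h1
  have hG : (0 : ℝ) < G := by exact_mod_cast (ρ c).pos
  have h2 : (((ρ c : ℕ) : ℝ)) / G ≤ 1 := by
    rw [div_le_one hG]; exact_mod_cast (ρ c).isLt.le
  nlinarith

theorem grp_ne_none {r : ℝ} (hr : 0 < r) {G : ℕ} {N : List X} (ρ : X → Fin G) {x c : X}
    (hc : c ∈ N) (hd : dist c x ≤ r) : grp r G N ρ x ≠ none := by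
  intro h
  have := List.find?_eq_none.1 h c hc
  simp only [decide_eq_true_eq, not_le] at this
  have h2 : 0 ≤ (((ρ c : ℕ) : ℝ)) / G := by positivity
  nlinarith

theorem key_of_some {r : ℝ} {G : ℕ} {N : List X} {ρ : X → Fin G} {x c : X}
    (h : grp r G N ρ x = some c) : key r G N ρ x = Sum.inl c := by simp [key, h]

theorem key_of_none {r : ℝ} {G : ℕ} {N : List X} {ρ : X → Fin G} {x : X}
    (h : grp r G N ρ x = none) : key r G N ρ x = Sum.inr x := by simp [key, h]

theorem evk_far {r : ℝ} (hr : 0 < r) (s : Lv X r) {c c' : Option X} (h : c ≠ c') (κ : X ⊕ X) :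
    30 * r ≤ evk r (s.f c) κ + evk r (s.f c') κ := by
  rcases κ with p | x
  · exact s.far c c' p h
  · have := s.far c c' x h
    simp only [evk]; linarith

theorem evk_key_le {r : ℝ} (hr : 0 < r) (s : Lv X r) (c : Option X) {G : ℕ} (N : List X)
    (ρ : X → Fin G) (x : X) : evk r (s.f c) (key r G N ρ x) ≤ s.f c x + 2 * r := by
  rcases h : grp r G N ρ x with _ | p
  · rw [key_of_none h]; simp [evk]
  · rw [key_of_some h]
    have := (grp_some hr h).2
    have := s.lip c p x
    simp only [evk]; linarith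

theorem le_evk_key {r : ℝ} (hr : 0 < r) (s : Lv X r) (c : Option X) {G : ℕ} (N : List X)
    (ρ : X → Fin G) (x : X) : s.f c x ≤ evk r (s.f c) (key r G N ρ x) + 2 * r := by
  rcases h : grp r G N ρ x with _ | p
  · rw [key_of_none h]; simp only [evk]; linarith
  · rw [key_of_some h]
    have := (grp_some hr h).2
    have := s.lip c x p
    rw [dist_comm] at this
    simp only [evk]; linarith

theorem evk_le_add {r δ : ℝ} {f f' : X → ℝ} (h : ∀ x, f' x ≤ f x + δ) (κ : X ⊕ X) :
    evk r f' κ ≤ evk r f κ + δ := by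
  rcases κ with p | x
  · exact h p
  · have := h x
    simp only [evk]; linarith

theorem baseK_inl {r t : ℝ} (hr : 0 < r) (ht : t ≤ 10 * r) (s : Lv X r) {c : Option X}
    {κ : X ⊕ X} (h : evk r (s.f c) κ ≤ t) : baseK r t s.f κ = Sum.inl c := by
  have hex : ∃ c, evk r (s.f c) κ ≤ t := ⟨c, h⟩
  rw [baseK, dif_pos hex]
  congr 1
  by_contra hne
  have := evk_far hr s hne κ
  have := hex.choose_spec
  linarith

theorem baseK_inr {r t : ℝ} {f : Option X → X → ℝ} {κ : X ⊕ X}
    (h : ∀ c, t < evk r (f c) κ) : baseK r t f κ = Sum.inr κ := by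
  rw [baseK, dif_neg]
  rintro ⟨c, hc⟩
  exact absurd (h c) (not_lt.2 hc)

theorem baseK_cases {r t : ℝ} (hr : 0 < r) (ht : t ≤ 10 * r) (s : Lv X r) (κ : X ⊕ X) :
    (∃ c, evk r (s.f c) κ ≤ t ∧ baseK r t s.f κ = Sum.inl c) ∨
      ((∀ c, t < evk r (s.f c) κ) ∧ baseK r t s.f κ = Sum.inr κ) := by
  by_cases h : ∃ c, evk r (s.f c) κ ≤ t
  · obtain ⟨c, hc⟩ := h
    exact Or.inl ⟨c, hc, baseK_inl hr ht s hc⟩
  · push Not at h
    exact Or.inr ⟨h, baseK_inr h⟩

theorem baseK_congr {r t : ℝ} (hr : 0 < r) (ht : t ≤ 10 * r) (s s' : Lv X r) {κ : X ⊕ X}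
    (h : ∀ c, evk r (s'.f c) κ ≤ t ↔ evk r (s.f c) κ ≤ t) :
    baseK r t s'.f κ = baseK r t s.f κ := by
  rcases baseK_cases hr ht s κ with ⟨c, hc, e⟩ | ⟨hc, e⟩
  · rw [e, baseK_inl hr ht s' ((h c).2 hc)]
  · rw [e, baseK_inr fun c => lt_of_not_ge fun h' => absurd (hc c) (not_lt.2 ((h c).1 h'))]

theorem baseK_nested {r t t' : ℝ} (hr : 0 < r) (htt : t ≤ t') (ht : t' ≤ 10 * r) (s : Lv X r)
    {κ κ' : X ⊕ X} (h : baseK r t s.f κ = baseK r t s.f κ') :
    baseK r t' s.f κ = baseK r t' s.f κ' := by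
  rcases baseK_cases hr (htt.trans ht) s κ with ⟨c, hc, e⟩ | ⟨hc, e⟩ <;>
    rcases baseK_cases hr (htt.trans ht) s κ' with ⟨c', hc', e'⟩ | ⟨hc', e'⟩ <;>
    rw [e, e'] at h
  · obtain rfl : c = c' := Sum.inl_injective h
    rw [baseK_inl hr ht s (hc.trans htt), baseK_inl hr ht s (hc'.trans htt)]
  · cases h
  · cases h
  · rw [Sum.inr_injective h]

theorem key_dist {r : ℝ} (hr : 0 < r) {G : ℕ} {N : List X} {ρ : X → Fin G} {x y : X}
    (h : key r G N ρ x = key r G N ρ y) : dist x y ≤ 4 * r := by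
  rcases hx : grp r G N ρ x with _ | p <;> rcases hy : grp r G N ρ y with _ | q
  · rw [key_of_none hx, key_of_none hy] at h
    rw [Sum.inr_injective h, dist_self]; linarith
  · rw [key_of_none hx, key_of_some hy] at h; cases h
  · rw [key_of_some hx, key_of_none hy] at h; cases h
  · rw [key_of_some hx, key_of_some hy] at h
    obtain rfl : p = q := Sum.inl_injective h
    have := (grp_some hr hx).2
    have := (grp_some hr hy).2
    have := dist_triangle_left x y p
    linarith

theorem baseK_diam {r t : ℝ} (hr : 0 < r) (ht : t ≤ 10 * r) (s : Lv X r) {G : ℕ} {N : List X}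
    {ρ : X → Fin G} {x y : X}
    (h : baseK r t s.f (key r G N ρ x) = baseK r t s.f (key r G N ρ y)) : dist x y ≤ 24 * r := by
  rcases baseK_cases hr ht s (key r G N ρ x) with ⟨c, hc, e⟩ | ⟨hc, e⟩ <;>
    rcases baseK_cases hr ht s (key r G N ρ y) with ⟨c', hc', e'⟩ | ⟨hc', e'⟩ <;>
    rw [e, e'] at h
  · obtain rfl : c = c' := Sum.inl_injective h
    have := le_evk_key hr s c N ρ x
    have := le_evk_key hr s c N ρ y
    have := s.kat c x y
    linarith
  · cases h
  · cases h
  · have := key_dist hr (Sum.inr_injective h)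
    linarith

/-- Points deep inside a slot are absorbed. -/
theorem baseK_core {r t : ℝ} (hr : 0 < r) (ht9 : 9 * r ≤ t) (ht : t ≤ 10 * r) (s : Lv X r)
    {c : Option X} {x : X} (hx : s.f c x ≤ 7 * r) {G : ℕ} (N : List X) (ρ : X → Fin G) :
    baseK r t s.f (key r G N ρ x) = Sum.inl c :=
  baseK_inl hr ht s (by have := evk_key_le hr s c N ρ x; linarith)

/-- Locality: slots that changed are far from `y`. -/
def Unaff {r : ℝ} (s s' : Lv X r) (y : X) : Prop :=
  ∀ c, s'.f c = s.f c ∨ (12 * r < s.f c y ∧ 12 * r < s'.f c y)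

theorem baseK_unaff {r t : ℝ} (hr : 0 < r) (ht : t ≤ 10 * r) {s s' : Lv X r} {y : X}
    (h : Unaff s s' y) {G : ℕ} (N : List X) (ρ : X → Fin G) :
    baseK r t s'.f (key r G N ρ y) = baseK r t s.f (key r G N ρ y) := by
  refine baseK_congr hr ht s s' fun c => ?_
  rcases h c with e | ⟨h1, h2⟩
  · rw [e]
  · have := le_evk_key hr s c N ρ y
    have := le_evk_key hr s' c N ρ y
    constructor <;> intro <;> linarith

/-! ### scalar profiles -/

noncomputable def tt (s : ℝ) : ℝ := max 0 (min 4 (s - 2))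
noncomputable def gF (s : ℝ) : ℝ := tt s ^ 2 / 16
noncomputable def chi (s : ℝ) : ℝ := max 0 (min 1 (s - 5))

theorem tt_nonneg (s : ℝ) : 0 ≤ tt s := le_max_left _ _
theorem tt_le (s : ℝ) : tt s ≤ 4 := max_le (by norm_num) (min_le_left _ _)
theorem tt_lip {s s' δ : ℝ} (hδ : 0 ≤ δ) (h : s' ≤ s + δ) : tt s' ≤ tt s + δ := by
  unfold tt
  rcases le_total 4 (s - 2) with h1 | h1 <;> rcases le_total 0 (s - 2) with h2 | h2 <;>
    rcases le_total 4 (s' - 2) with h3 | h3 <;> rcases le_total 0 (s' - 2) with h4 | h4 <;>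
    simp only [max_def, min_def] <;> split_ifs <;> linarith
theorem gF_nonneg (s : ℝ) : 0 ≤ gF s := by unfold gF; positivity
theorem gF_le (s : ℝ) : gF s ≤ 1 := by
  have := tt_nonneg s; have := tt_le s
  unfold gF; nlinarith
theorem gF_sub {s s' δ : ℝ} (hδ : 0 ≤ δ) (h : s' ≤ s + δ) :
    gF s' - gF s ≤ δ * (2 * tt s + δ) / 16 := by
  have := tt_lip hδ h
  have := tt_nonneg s; have := tt_nonneg s'
  unfold gF; nlinarith
theorem gF_lip {s s' δ : ℝ} (hδ : 0 ≤ δ) (h : s' ≤ s + δ) : gF s' - gF s ≤ δ / 2 := by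
  have := tt_lip hδ h
  have := tt_nonneg s; have := tt_nonneg s'; have := tt_le s; have := tt_le s'
  unfold gF
  rcases le_total (tt s') (tt s) with h1 | h1 <;> nlinarith
theorem chi_nonneg (s : ℝ) : 0 ≤ chi s := le_max_left _ _
theorem chi_le (s : ℝ) : chi s ≤ 1 := max_le (by norm_num) (min_le_left _ _)
theorem chi_lip {s s' δ : ℝ} (hδ : 0 ≤ δ) (h : s' ≤ s + δ) : chi s' ≤ chi s + δ := by
  unfold chi
  simp only [max_def, min_def]; split_ifs <;> linarith
theorem chi_zero {s : ℝ} (h : s ≤ 5) : chi s = 0 := by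
  unfold chi
  simp only [max_def, min_def]; split_ifs <;> linarith
theorem chi_one {s : ℝ} (h : 6 ≤ s) : chi s = 1 := by
  unfold chi
  simp only [max_def, min_def]; split_ifs <;> linarith
theorem tt_big {s : ℝ} (h : 6 ≤ s) : tt s = 4 := by
  unfold tt
  simp only [max_def, min_def]; split_ifs <;> linarith
theorem tt_zero {s : ℝ} (h : s ≤ 2) : tt s = 0 := by
  unfold tt
  simp only [max_def, min_def]; split_ifs <;> linarith
theorem tt_ge {s : ℝ} (h : 3 ≤ s) : 1 ≤ tt s := by
  unfold tt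
  simp only [max_def, min_def]; split_ifs <;> linarith
theorem tt_le_two {s : ℝ} (h : s ≤ 4) : tt s ≤ 2 := by
  unfold tt
  simp only [max_def, min_def]; split_ifs <;> linarith

/-- Gain of the drift on the core. -/
theorem gF_drift {s s' θ δ : ℝ} (hθ : 0 ≤ θ) (hθ1 : θ ≤ 1) (hδ : δ ≤ 1) (hs : s ≤ 6)
    (h : s' ≤ (1 - θ) * s + θ * δ) : gF s' - gF s ≤ -(θ * (2 * tt s - θ) / 16) := by
  have h0 := tt_nonneg s'
  have h1 := tt_nonneg s
  have key : tt s' ≤ max 0 (tt s - θ) := by
    rcases le_total s 2 with h2 | h2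
    · have : s' ≤ 2 := by nlinarith
      rw [tt_zero this]; exact le_max_left _ _
    · have e : tt s = s - 2 := by
        unfold tt; simp only [max_def, min_def]; split_ifs <;> linarith
      have h3 : s' - 2 ≤ s - 2 - θ := by nlinarith
      rw [e]
      exact max_le (le_max_left _ _) ((min_le_right _ _).trans (h3.trans (le_max_right _ _)))
  unfold gF
  rcases le_total 0 (tt s - θ) with h2 | h2
  · rw [max_eq_right h2] at key
    nlinarith
  · rw [max_eq_left h2] at key
    have : tt s' = 0 := le_antisymm key h0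
    rw [this]
    nlinarith [sq_nonneg (tt s - θ)]

noncomputable def mar (r : ℝ) (y : X) : List X → ℝ
  | [] => 1
  | c :: N => min (max 0 (4 * dist c y / r - 1)) (mar r y N)

theorem mar_nonneg (r : ℝ) (y : X) (N : List X) : 0 ≤ mar r y N := by
  induction N with
  | nil => simp [mar]
  | cons c N ih => exact le_min (le_max_left _ _) ih

theorem mar_le_one (r : ℝ) (y : X) (N : List X) : mar r y N ≤ 1 := by
  induction N with
  | nil => simp [mar]
  | cons c N ih => exact (min_le_right _ _).trans ih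

theorem mar_le (r : ℝ) (y : X) {N : List X} {c : X} (hc : c ∈ N) :
    mar r y N ≤ max 0 (4 * dist c y / r - 1) := by
  induction N with
  | nil => simp at hc
  | cons c' N ih =>
    rcases List.mem_cons.1 hc with rfl | h
    · exact min_le_left _ _
    · exact (min_le_right _ _).trans (ih h)

theorem mar_cases (r : ℝ) (y : X) (N : List X) :
    mar r y N = 1 ∨ ∃ c ∈ N, mar r y N = max 0 (4 * dist c y / r - 1) := by
  induction N with
  | nil => simp [mar]
  | cons c' N ih =>
    rcases min_choice (max 0 (4 * dist c' y / r - 1)) (mar r y N) with h | h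
    · exact Or.inr ⟨c', by simp, h⟩
    · rcases ih with h1 | ⟨c, hc, h1⟩
      · exact Or.inl (by simp only [mar]; rw [h, h1])
      · exact Or.inr ⟨c, by simp [hc], by simp only [mar]; rw [h, h1]⟩

theorem mar_anti (r : ℝ) (y : X) {N N' : List X} (h : ∀ c ∈ N, c ∈ N') :
    mar r y N' ≤ mar r y N := by
  rcases mar_cases r y N with e | ⟨c, hc, e⟩
  · rw [e]; exact mar_le_one _ _ _
  · rw [e]; exact mar_le _ _ (h c hc)

theorem mar_lip {r : ℝ} (hr : 0 < r) (a b : X) (N : List X) :
    mar r b N ≤ mar r a N + 4 * (dist a b / r) := by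
  have h0 : 0 ≤ dist a b / r := by positivity
  rcases mar_cases r a N with e | ⟨c, hc, e⟩
  · have := mar_le_one r b N; linarith
  · rw [e]
    refine (mar_le r b hc).trans (max_le (by positivity) ?_)
    have h1 : 4 * dist c b / r ≤ 4 * dist c a / r + 4 * (dist a b / r) := by
      have := dist_triangle c a b
      rw [← mul_div_assoc, ← add_div]
      gcongr; linarith
    have := le_max_right 0 (4 * dist c a / r - 1)
    linarith

end loc

section mf
variable {X : Type u} [MetricSpace X] [Fintype X]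

noncomputable def mf {r : ℝ} (s : Lv X r) (y : X) : ℝ :=
  (univ : Finset (Option X)).inf' univ_nonempty fun c => s.f c y

theorem mf_le {r : ℝ} (s : Lv X r) (c : Option X) (y : X) : mf s y ≤ s.f c y :=
  inf'_le (fun c => s.f c y) (mem_univ c)

theorem exists_mf {r : ℝ} (s : Lv X r) (y : X) : ∃ c, mf s y = s.f c y := by
  obtain ⟨c, _, h⟩ := exists_mem_eq_inf' (univ_nonempty (α := Option X)) fun c => s.f c y
  exact ⟨c, h⟩

theorem mf_lip {r : ℝ} (s : Lv X r) (a b : X) : mf s b ≤ mf s a + dist a b := by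
  obtain ⟨c, e⟩ := exists_mf s a
  have := mf_le s c b
  have := s.lip c b a
  rw [dist_comm] at this
  linarith

theorem mf_le_add {r δ : ℝ} {s s' : Lv X r} {y : X} (h : ∀ c, s'.f c y ≤ s.f c y + δ) :
    mf s' y ≤ mf s y + δ := by
  obtain ⟨c, e⟩ := exists_mf s y
  have := mf_le s' c y
  have := h c
  linarith

theorem mf_eq {r : ℝ} (hr : 0 < r) (s : Lv X r) {c : Option X} {y : X} (h : s.f c y ≤ 15 * r) :
    mf s y = s.f c y := by
  obtain ⟨c', e⟩ := exists_mf s y
  by_cases hc : c' = c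
  · rw [e, hc]
  · have := s.far c' c y hc
    have := mf_le s c y
    linarith

theorem mf_unaff {r : ℝ} (hr : 0 < r) {s s' : Lv X r} {y : X} (h : Unaff s s' y) :
    mf s' y = mf s y ∨ (6 ≤ mf s y / r ∧ 6 ≤ mf s' y / r) := by
  obtain ⟨c, e⟩ := exists_mf s y
  obtain ⟨c', e'⟩ := exists_mf s' y
  have h1 := mf_le s c' y
  have h2 := mf_le s' c y
  rw [le_div_iff₀ hr, le_div_iff₀ hr]
  rcases h c with h3 | h3 <;> rcases h c' with h4 | h4
  · left; rw [h3] at h2; rw [h4] at e'; linarith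
  · right; rw [h3] at h2; constructor <;> linarith [h4.1, h4.2]
  · right; rw [h4] at e'; constructor <;> linarith [h3.1, h3.2]
  · right; constructor <;> linarith [h3.1, h3.2, h4.1, h4.2]

theorem exists_free {r : ℝ} (s : Lv X r) : ∃ c, ∀ x, 15 * r ≤ s.f c x := by
  classical
  by_contra hne
  push Not at hne
  choose g hg using hne
  have hinj : Function.Injective g := by
    intro c c' e
    by_contra h
    have := s.far c c' (g c) h
    have h1 := hg c
    have h2 := hg c'
    rw [← e] at h2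
    linarith
  have := Fintype.card_le_of_injective g hinj
  simp at this

end mf

end Vale.Agent.P304
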