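import Vale.Agent.P304.Geom1

namespace Vale.Agent.P304

open Finset

universe u

set_option linter.unusedSectionVars false

section jt
variable {X Lab : Type*} [Fintype X] [DecidableEq X] [DecidableEq Lab] {L : ℝ}
  {h : Finset X → ℝ}

theorem jterm_le (hh : HFun L h) (l l' : X → Lab) (y : X) : jterm L h l l' y ≤ L := by
  unfold jterm
  split_ifs
  · have := hh.le (univ.filter fun x => l x = l y)
    have := hh.nonneg (univ.filter fun x => l x = l y ∧ l' x = l x)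
    linarith
  · exact le_rfl

theorem jterm_le_sub (hh : HFun L h) {l l' : X → Lab} {y : X} (hy : l' y = l y) (T : Finset X)
    (hT : ∀ x ∈ T, l x = l y ∧ l' x = l x) :
    jterm L h l l' y ≤ h (univ.filter fun x => l x = l y) - h T := by
  unfold jterm
  rw [if_pos hy]
  have := hh.mono T (univ.filter fun x => l x = l y ∧ l' x = l x)
    fun x hx => mem_filter.2 ⟨mem_univ _, hT x hx⟩
  linarith

theorem jterm_zero (hh : HFun L h) {l l' : X → Lab} {y : X}
    (hT : ∀ x, l x = l y → l' x = l x) : jterm L h l l' y ≤ 0 := by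
  have := jterm_le_sub hh (hT y rfl) (univ.filter fun x => l x = l y)
    fun x hx => ⟨(mem_filter.1 hx).2, hT x (mem_filter.1 hx).2⟩
  linarith

end jt

/-- Parameters of the geometry. -/
structure Par (X Ω : Type u) [Fintype Ω] where
  J : ℕ
  G : ℕ
  r₀ : ℝ
  L : ℝ
  P : Ω → ℝ
  ρ : Fin (J + 1) → Ω → X → Fin G
  hG : 10 ≤ G
  hr : 0 < r₀
  hL : 1 ≤ L
  hP : ∀ ω, 0 ≤ P ω
  hP1 : ∑ ω, P ω = 1

namespace Par

variable {X Ω : Type u} [Fintype X] [DecidableEq X] [MetricSpace X] [Fintype Ω] (A : Par X Ω)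

noncomputable def r (j : ℕ) : ℝ := 8 ^ j * A.r₀
def hi (j : ℕ) : ℕ := 8 ^ (j + 1) * A.G
noncomputable def thr (j ℓ : ℕ) : ℝ := (9 + (ℓ : ℝ) / A.hi j) * A.r j
abbrev St := (j : Fin (A.J + 1)) → Lv X (A.r j)
abbrev Lab := Fin (A.J + 1) → Option (Option X ⊕ (X ⊕ X))

noncomputable def ky (j : Fin (A.J + 1)) (N : List X) (ω : Ω) (x : X) : X ⊕ X :=
  key (A.r j) A.G N (A.ρ j ω) x

noncomputable def gp (j : Fin (A.J + 1)) (N : List X) (ω : Ω) (x : X) : Option X :=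
  grp (A.r j) A.G N (A.ρ j ω) x

noncomputable def base (j : Fin (A.J + 1)) (s : Lv X (A.r j)) (ω : Ω) (ℓ : ℕ) (x : X) :
    Option X ⊕ (X ⊕ X) :=
  baseK (A.r j) (A.thr j ℓ) s.f (A.ky j s.N ω x)

noncomputable def lab (γ : A.St) (ω : Ω) (ℓ : ℕ) (x : X) : A.Lab :=
  fun j => if ℓ < A.hi j then some (A.base j (γ j) ω ℓ x) else none

noncomputable def unc (j : Fin (A.J + 1)) (N : List X) (y : X) : ℝ :=
  ∑ ω, A.P ω * (if A.gp j N ω y = none then (1 : ℝ) else 0)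

noncomputable def phiL (j : Fin (A.J + 1)) (s : Lv X (A.r j)) (y : X) : ℝ :=
  320 * A.L * gF (mf s y / A.r j) +
    chi (mf s y / A.r j) * (2 * mar (A.r j) y s.N + 8 * A.L * A.unc j s.N y)

noncomputable def phi (γ : A.St) (y : X) : ℝ := ∑ j : Fin (A.J + 1), A.r j * A.phiL j (γ j) y
noncomputable def nu (γ : A.St) : ℝ := ∑ j : Fin (A.J + 1), A.r j * ((γ j).N.length : ℝ)

theorem r_pos (j : ℕ) : 0 < A.r j := by have := A.hr; unfold r; positivity
theorem G_pos : (0 : ℝ) < A.G := by have := A.hG; positivity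
theorem hi_pos (j : ℕ) : 0 < A.hi j := by have := A.hG; unfold hi; positivity
theorem hi_mono {i j : ℕ} (h : i ≤ j) : A.hi i ≤ A.hi j :=
  Nat.mul_le_mul_right _ (Nat.pow_le_pow_right (by norm_num) (by omega))
theorem r₀_le (j : ℕ) : A.r₀ ≤ A.r j := by
  have := A.hr
  have : (1 : ℝ) ≤ 8 ^ j := one_le_pow₀ (by norm_num)
  unfold r; nlinarith
theorem eta_hi (j : ℕ) : A.r₀ / A.G * (A.hi j : ℝ) = 8 * A.r j := by
  have := A.G_pos
  unfold hi r; push_cast; field_simp; ring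

theorem thr_ge (j ℓ : ℕ) : 9 * A.r j ≤ A.thr j ℓ := by
  have := A.r_pos j
  have : 0 ≤ (ℓ : ℝ) / A.hi j := by positivity
  unfold thr; nlinarith
theorem thr_le {j ℓ : ℕ} (h : ℓ < A.hi j) : A.thr j ℓ ≤ 10 * A.r j := by
  have := A.r_pos j
  have h1 : (0 : ℝ) < A.hi j := by exact_mod_cast A.hi_pos j
  have : (ℓ : ℝ) / A.hi j ≤ 1 := by
    rw [div_le_one h1]; exact_mod_cast h.le
  unfold thr; nlinarith
theorem thr_mono (j : ℕ) {ℓ ℓ' : ℕ} (h : ℓ ≤ ℓ') : A.thr j ℓ ≤ A.thr j ℓ' := by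
  have := A.r_pos j
  have h1 : (ℓ : ℝ) ≤ ℓ' := by exact_mod_cast h
  unfold thr; gcongr
theorem thr_add (j ℓ : ℕ) : A.thr j (ℓ + 8 ^ j) = A.thr j ℓ + A.r j / (8 * A.G) := by
  have := A.G_pos
  unfold thr hi; push_cast; field_simp; ring

theorem base_eq_of_lab {γ : A.St} {ω : Ω} {ℓ : ℕ} {x y : X} (h : A.lab γ ω ℓ x = A.lab γ ω ℓ y)
    (j : Fin (A.J + 1)) (hj : ℓ < A.hi j) :
    A.base j (γ j) ω ℓ x = A.base j (γ j) ω ℓ y := by
  have := congrFun h j
  simpa [lab, hj] using this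

theorem nested (γ : A.St) (ω : Ω) {ℓ ℓ' : ℕ} {x y : X} (hl : ℓ ≤ ℓ')
    (h : A.lab γ ω ℓ x = A.lab γ ω ℓ y) : A.lab γ ω ℓ' x = A.lab γ ω ℓ' y := by
  funext j
  unfold lab
  split_ifs with hj
  · congr 1
    exact baseK_nested (A.r_pos j) (A.thr_mono j hl) (A.thr_le hj) _
      (A.base_eq_of_lab h j (hl.trans_lt hj))
  · rfl

theorem diam {γ : A.St} {ω : Ω} {ℓ : ℕ} {x y : X} (h : A.lab γ ω ℓ x = A.lab γ ω ℓ y)
    (j : Fin (A.J + 1)) (hj : ℓ < A.hi j) : dist x y ≤ 24 * A.r j :=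
  baseK_diam (A.r_pos j) (A.thr_le hj) _ (A.base_eq_of_lab h j hj)

theorem lab_update_iff (γ : A.St) (j : Fin (A.J + 1)) (s : Lv X (A.r j)) (ω : Ω) {ℓ : ℕ}
    (hj : ℓ < A.hi j) (x : X) :
    A.lab (Function.update γ j s) ω ℓ x = A.lab γ ω ℓ x ↔
      A.base j s ω ℓ x = A.base j (γ j) ω ℓ x := by
  constructor
  · intro h
    have := congrFun h j
    simpa [lab, hj] using this
  · intro h
    funext i
    by_cases hi : i = j
    · subst hi; simp [lab, hj, h]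
    · simp [lab, Function.update_of_ne hi]

theorem lab_update_ge (γ : A.St) (j : Fin (A.J + 1)) (s : Lv X (A.r j)) (ω : Ω) {ℓ : ℕ}
    (hj : ¬ ℓ < A.hi j) (x : X) :
    A.lab (Function.update γ j s) ω ℓ x = A.lab γ ω ℓ x := by
  funext i
  by_cases hi : i = j
  · subst hi; simp [lab, hj]
  · simp [lab, Function.update_of_ne hi]

theorem unc_nonneg (j : Fin (A.J + 1)) (N : List X) (y : X) : 0 ≤ A.unc j N y :=
  sum_nonneg fun ω _ => mul_nonneg (A.hP ω) (by split_ifs <;> norm_num)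

theorem unc_le (j : Fin (A.J + 1)) (N : List X) (y : X) : A.unc j N y ≤ 1 := by
  rw [← A.hP1]
  refine sum_le_sum fun ω _ => ?_
  have := A.hP ω
  split_ifs <;> linarith

theorem V_bounds (j : Fin (A.J + 1)) (N : List X) (y : X) :
    0 ≤ 2 * mar (A.r j) y N + 8 * A.L * A.unc j N y ∧
      2 * mar (A.r j) y N + 8 * A.L * A.unc j N y ≤ 10 * A.L := by
  have := mar_nonneg (A.r j) y N
  have := mar_le_one (A.r j) y N
  have := A.unc_nonneg j N y
  have := A.unc_le j N y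
  have := A.hL
  constructor <;> nlinarith

theorem phiL_nonneg (j : Fin (A.J + 1)) (s : Lv X (A.r j)) (y : X) : 0 ≤ A.phiL j s y := by
  have := A.V_bounds j s.N y
  have := gF_nonneg (mf s y / A.r j)
  have := chi_nonneg (mf s y / A.r j)
  have := A.hL
  unfold phiL
  have : 0 ≤ A.L := by linarith
  nlinarith [mul_nonneg this (gF_nonneg (mf s y / A.r j)), mul_nonneg (chi_nonneg (mf s y / A.r j)) (A.V_bounds j s.N y).1]

theorem phiL_le (j : Fin (A.J + 1)) (s : Lv X (A.r j)) (y : X) : A.phiL j s y ≤ 330 * A.L := by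
  have h1 := A.V_bounds j s.N y
  have := gF_le (mf s y / A.r j)
  have := chi_le (mf s y / A.r j)
  have := chi_nonneg (mf s y / A.r j)
  have := A.hL
  unfold phiL
  nlinarith [h1.1, h1.2]

theorem phiL_unaff (j : Fin (A.J + 1)) {s s' : Lv X (A.r j)} (hN : s'.N = s.N) {y : X}
    (h : Unaff s s' y) : A.phiL j s' y = A.phiL j s y := by
  unfold phiL
  rcases mf_unaff (A.r_pos j) h with e | ⟨h1, h2⟩
  · rw [e, hN]
  · rw [hN, chi_one h1, chi_one h2, gF, gF, tt_big h1, tt_big h2]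

theorem base_unaff (j : Fin (A.J + 1)) {s s' : Lv X (A.r j)} (hN : s'.N = s.N) {y : X}
    (h : Unaff s s' y) (ω : Ω) {ℓ : ℕ} (hl : ℓ < A.hi j) :
    A.base j s' ω ℓ y = A.base j s ω ℓ y := by
  unfold base ky
  rw [hN]
  exact baseK_unaff (A.r_pos j) (A.thr_le hl) h _ _

variable (m : X → ℝ) (h : Ω → Finset X → ℝ)

/-- Near optimality of the geometry state. -/
def Opt (ε : ℝ) (γ : A.St) : Prop :=
  ∀ γ', A.nu γ + ∑ y, m y * A.phi γ y ≤ A.nu γ' + ∑ y, m y * A.phi γ' y +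
    jumpF A.P (A.r₀ / A.G) (8 ^ (A.J + 1) * A.G) A.L m h (A.lab γ) (A.lab γ') + ε

noncomputable def jt (γ : A.St) (j : Fin (A.J + 1)) (s : Lv X (A.r j)) (ω : Ω) (ℓ : ℕ) (y : X) :
    ℝ :=
  jterm A.L (h ω) (A.lab γ ω ℓ) (A.lab (Function.update γ j s) ω ℓ) y

noncomputable def JT (γ : A.St) (j : Fin (A.J + 1)) (s : Lv X (A.r j)) (y : X) : ℝ :=
  A.r₀ / A.G * ∑ ω, A.P ω * ∑ ℓ ∈ range (A.hi j), A.jt h γ j s ω ℓ y

variable {A m h}

theorem test {ε : ℝ} {γ : A.St} (ho : A.Opt m h ε γ) (hm : ∀ y, 0 ≤ m y)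
    (hh : ∀ ω, HFun A.L (h ω)) (j : Fin (A.J + 1)) (s : Lv X (A.r j)) (B : X → ℝ)
    (hB : ∀ y, A.r j * (A.phiL j s y - A.phiL j (γ j) y) + A.JT h γ j s y ≤ B y) :
    A.r j * (γ j).N.length ≤ A.r j * s.N.length + ∑ y, m y * B y + ε := by
  have h1 := ho (Function.update γ j s)
  have e1 : A.nu (Function.update γ j s) =
      A.nu γ + A.r j * s.N.length - A.r j * (γ j).N.length := by
    unfold nu
    rw [← add_sum_erase _ _ (mem_univ j), ← add_sum_erase univ _ (mem_univ j),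
      sum_congr rfl fun i hi => by rw [Function.update_of_ne (ne_of_mem_erase hi)]]
    simp only [Function.update_self]; ring
  have e2 : ∀ y, A.phi (Function.update γ j s) y =
      A.phi γ y + A.r j * (A.phiL j s y - A.phiL j (γ j) y) := by
    intro y
    unfold phi
    rw [← add_sum_erase _ _ (mem_univ j), ← add_sum_erase univ _ (mem_univ j),
      sum_congr rfl fun i hi => by rw [Function.update_of_ne (ne_of_mem_erase hi)]]
    simp only [Function.update_self]; ring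
  have hη : 0 ≤ A.r₀ / A.G := by have := A.hr; positivity
  have e3 : jumpF A.P (A.r₀ / A.G) (8 ^ (A.J + 1) * A.G) A.L m h (A.lab γ)
      (A.lab (Function.update γ j s)) ≤ ∑ y, m y * A.JT h γ j s y := by
    have e4 : ∑ y, m y * A.JT h γ j s y = A.r₀ / A.G * ∑ ω, A.P ω *
        ∑ ℓ ∈ range (A.hi j), ∑ y, m y * A.jt h γ j s ω ℓ y := by
      unfold JT
      simp only [mul_sum]
      rw [sum_comm]
      refine sum_congr rfl fun ω _ => ?_
      rw [sum_comm]
      exact sum_congr rfl fun ℓ _ => sum_congr rfl fun y _ => by ring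
    rw [e4, jumpF]
    refine mul_le_mul_of_nonneg_left (sum_le_sum fun ω _ =>
      mul_le_mul_of_nonneg_left ?_ (A.hP ω)) hη
    have hs : range (A.hi j) ⊆ range (8 ^ (A.J + 1) * A.G) :=
      range_subset_range.2 (A.hi_mono (Nat.lt_succ_iff.1 j.isLt))
    rw [← sum_sdiff hs]
    have : ∑ ℓ ∈ range (8 ^ (A.J + 1) * A.G) \ range (A.hi j), ∑ y, m y *
        jterm A.L (h ω) (A.lab γ ω ℓ) (A.lab (Function.update γ j s) ω ℓ) y ≤ 0 := by
      refine sum_nonpos fun ℓ hl => sum_nonpos fun y _ => mul_nonpos_of_nonneg_of_nonpos (hm y) ?_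
      have : ¬ ℓ < A.hi j := by simpa using (mem_sdiff.1 hl).2
      exact jterm_zero (hh ω) fun x _ => A.lab_update_ge γ j s ω this x
    unfold jt
    linarith
  have e5 : ∑ y, m y * A.phi (Function.update γ j s) y + ∑ y, m y * A.JT h γ j s y ≤
      ∑ y, m y * A.phi γ y + ∑ y, m y * B y := by
    rw [← sum_add_distrib, ← sum_add_distrib]
    refine sum_le_sum fun y _ => ?_
    rw [e2]
    nlinarith [hB y, hm y]
  linarith

theorem JT_le {γ : A.St} {j : Fin (A.J + 1)} {s : Lv X (A.r j)} {y : X} (T : Ω → ℝ)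
    (hT : ∀ ω, ∑ ℓ ∈ range (A.hi j), A.jt h γ j s ω ℓ y ≤ T ω) :
    A.JT h γ j s y ≤ A.r₀ / A.G * ∑ ω, A.P ω * T ω := by
  have hη : 0 ≤ A.r₀ / A.G := by have := A.hr; positivity
  exact mul_le_mul_of_nonneg_left (sum_le_sum fun ω _ =>
    mul_le_mul_of_nonneg_left (hT ω) (A.hP ω)) hη

theorem JT_le_pt {γ : A.St} {j : Fin (A.J + 1)} {s : Lv X (A.r j)} {y : X} (T : Ω → ℝ)
    (hT : ∀ ω ℓ, ℓ < A.hi j → A.jt h γ j s ω ℓ y ≤ T ω) :
    A.JT h γ j s y ≤ 8 * A.r j * ∑ ω, A.P ω * T ω := by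
  refine (JT_le (fun ω => A.hi j * T ω) fun ω => ?_).trans (le_of_eq ?_)
  · have := sum_le_card_nsmul (range (A.hi j)) _ (T ω) fun ℓ hl => hT ω ℓ (mem_range.1 hl)
    simpa using this
  · rw [← A.eta_hi, mul_assoc, mul_sum _ _ (A.hi j : ℝ)]
    congr 1
    exact sum_congr rfl fun ω _ => by ring

theorem JT_le_const {γ : A.St} {j : Fin (A.J + 1)} {s : Lv X (A.r j)} {y : X} (T : ℝ)
    (hT : ∀ ω ℓ, ℓ < A.hi j → A.jt h γ j s ω ℓ y ≤ T) :
    A.JT h γ j s y ≤ 8 * A.r j * T := by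
  have := JT_le_pt (fun _ => T) hT
  rwa [← sum_mul, A.hP1, one_mul] at this

/-- Far from the modified region nothing changes. -/
theorem far_zero {γ : A.St} (hh : ∀ ω, HFun A.L (h ω)) {j : Fin (A.J + 1)} {s : Lv X (A.r j)}
    (hN : s.N = (γ j).N) {a y : X} (hU : ∀ x, 48 * A.r j < dist a x → Unaff (γ j) s x)
    (hy : 512 * A.r j < dist a y) :
    A.r j * (A.phiL j s y - A.phiL j (γ j) y) + A.JT h γ j s y ≤ 0 := by
  have hr := A.r_pos j
  rw [A.phiL_unaff j hN (hU y (by linarith))]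
  have := JT_le_const (γ := γ) (h := h) (s := s) (y := y) 0 fun ω ℓ hl => by
    refine jterm_zero (hh ω) fun x hx => ?_
    rw [A.lab_update_iff γ j s ω hl]
    refine A.base_unaff j hN (hU x ?_) ω hl
    have := A.diam hx j hl
    have := dist_triangle a x y
    linarith
  linarith

end Par

end Vale.Agent.P304
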