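import Vale.Agent.P304.Geom2

namespace Vale.Agent.P304

open Finset

universe u

set_option linter.unusedSectionVars false

theorem find_filter_ne {α : Type*} [DecidableEq α] (p : α → Bool) (c : α) (l : List α)
    (h : l.find? p ≠ some c) : (l.filter fun x => decide (x ≠ c)).find? p = l.find? p := by
  induction l with
  | nil => simp
  | cons a l ih =>
    by_cases hp : p a = true
    · have hac : a ≠ c := by
        rintro rfl
        exact h (by simp [hp])
      simp [hac, hp]
    · have h' : l.find? p ≠ some c := by simpa [hp] using h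
      by_cases hac : a = c
      · subst hac
        simpa [hp] using ih h'
      · simpa [hac, hp] using ih h'

namespace Par

variable {X Ω : Type u} [Fintype X] [DecidableEq X] [MetricSpace X] [Fintype Ω] {A : Par X Ω}
  {m : X → ℝ} {h : Ω → Finset X → ℝ} {ε : ℝ} {γ : A.St}

theorem ky_congr {j : Fin (A.J + 1)} {N N' : List X} {ω : Ω} {x : X}
    (e : A.gp j N' ω x = A.gp j N ω x) : A.ky j N' ω x = A.ky j N ω x := by
  unfold ky key
  unfold gp at e
  rw [e]

theorem eq_of_ky {j : Fin (A.J + 1)} {N : List X} {ω : Ω} {x y : X}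
    (e : A.ky j N ω y = Sum.inr x) : y = x := by
  unfold ky at e
  rcases hy : grp (A.r j) A.G N (A.ρ j ω) y with _ | q
  · rw [key_of_none hy] at e; exact Sum.inr_injective e
  · rw [key_of_some hy] at e; cases e

/-- Test: appending a centre. -/
theorem test_append (ho : A.Opt m h ε γ) (hm : ∀ y, 0 ≤ m y) (hh : ∀ ω, HFun A.L (h ω))
    (hε : ε < A.r₀) (j : Fin (A.J + 1)) {a : X} (ha : 1 ≤ m a)
    (hf : ∀ c, 6 * A.r j < (γ j).f c a) : ∃ c ∈ (γ j).N, dist c a ≤ A.r j / 2 := by
  by_contra hne
  push Not at hne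
  have hr := A.r_pos j
  have hL := A.hL
  have haN : a ∉ (γ j).N := fun h => by
    have := hne a h
    rw [dist_self] at this; linarith
  let s : Lv X (A.r j) := ⟨(γ j).N ++ [a], by
    simpa [List.nodup_append, (γ j).nodup] using fun x hx (e : x = a) => haN (e ▸ hx),
    (γ j).f, (γ j).lip, (γ j).kat, (γ j).far⟩
  have hg : ∀ ω x, A.gp j s.N ω x = (A.gp j (γ j).N ω x).or (A.gp j [a] ω x) := fun ω x =>
    List.find?_append
  have hchg : ∀ ω ℓ x, ℓ < A.hi j → A.base j s ω ℓ x ≠ A.base j (γ j) ω ℓ x →
      A.gp j (γ j).N ω x = none ∧ A.gp j s.N ω x ≠ none ∧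
      A.base j (γ j) ω ℓ x = Sum.inr (Sum.inr x) ∧ chi (mf (γ j) x / A.r j) = 1 := by
    intro ω ℓ x hl hne
    have h1 : A.gp j s.N ω x ≠ A.gp j (γ j).N ω x := fun e => hne (by
      unfold base; rw [ky_congr e])
    have h2 : A.gp j (γ j).N ω x = none := by
      rcases hx : A.gp j (γ j).N ω x with _ | c
      · rfl
      · exact absurd (by rw [hg, hx]; rfl) h1
    rw [h2] at h1
    refine ⟨h2, h1, ?_⟩
    obtain ⟨c, hc⟩ := Option.ne_none_iff_exists'.1 h1
    have k1 : A.ky j (γ j).N ω x = Sum.inr x := key_of_none h2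
    have k2 : A.ky j s.N ω x = Sum.inl c := key_of_some hc
    have hd := (grp_some hr hc).2
    rcases baseK_cases hr (A.thr_le hl) (γ j) (Sum.inr x) with ⟨c', hc', e⟩ | ⟨hc', e⟩
    · exfalso
      apply hne
      unfold base
      rw [k1, k2, e]
      refine baseK_inl hr (A.thr_le hl) s ?_
      have := (γ j).lip c' c x
      simp only [evk] at hc' ⊢
      change (γ j).f c' c ≤ _
      linarith
    · refine ⟨by unfold base; rw [k1, e], chi_one ?_⟩
      obtain ⟨c', e'⟩ := exists_mf (γ j) x
      have := hc' c'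
      have := A.thr_ge j ℓ
      simp only [evk] at *
      rw [le_div_iff₀ hr]; linarith
  have key := test ho hm hh j s
    (fun y => A.r j * (chi (mf (γ j) y / A.r j) * (2 * (mar (A.r j) y s.N - mar (A.r j) y (γ j).N))))
    fun y => by
      have hJ := JT_le_pt (γ := γ) (h := h) (s := s) (y := y)
        (fun ω => A.L * chi (mf (γ j) y / A.r j) *
          ((if A.gp j (γ j).N ω y = none then (1 : ℝ) else 0) -
            (if A.gp j s.N ω y = none then (1 : ℝ) else 0))) fun ω ℓ hl => by
        by_cases hy : A.base j s ω ℓ y = A.base j (γ j) ω ℓ y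
        · refine (jterm_zero (hh ω) fun x hx => ?_).trans ?_
          · rw [A.lab_update_iff γ j s ω hl]
            by_contra hx'
            obtain ⟨-, -, h3, -⟩ := hchg ω ℓ x hl hx'
            have h4 := A.base_eq_of_lab hx j hl
            rw [h3] at h4
            rcases baseK_cases hr (A.thr_le hl) (γ j) (A.ky j (γ j).N ω y) with
              ⟨c', _, e⟩ | ⟨_, e⟩
            · unfold base at h4; rw [e] at h4; cases h4
            · unfold base at h4; rw [e] at h4
              obtain rfl := eq_of_ky (Sum.inr_injective h4).symm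
              exact hx' hy
          · refine mul_nonneg (mul_nonneg (by linarith) (chi_nonneg _)) ?_
            by_cases h5 : A.gp j s.N ω y = none
            · have h6 : A.gp j (γ j).N ω y = none := by
                rw [hg] at h5; exact (Option.or_eq_none_iff.1 h5).1
              simp [h5, h6]
            · rw [if_neg h5]; split_ifs <;> norm_num
        · obtain ⟨h1, h2, -, h4⟩ := hchg ω ℓ y hl hy
          rw [if_pos h1, if_neg h2, h4]
          simpa [jt] using jterm_le (hh ω) _ _ y
      have e : ∑ ω, A.P ω * (A.L * chi (mf (γ j) y / A.r j) *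
          ((if A.gp j (γ j).N ω y = none then (1 : ℝ) else 0) -
            (if A.gp j s.N ω y = none then (1 : ℝ) else 0))) =
          A.L * chi (mf (γ j) y / A.r j) * (A.unc j (γ j).N y - A.unc j s.N y) := by
        unfold unc
        rw [← sum_sub_distrib, mul_sum]
        exact sum_congr rfl fun ω _ => by ring
      rw [e] at hJ
      have e2 : mf s y = mf (γ j) y := rfl
      unfold phiL
      rw [e2]
      nlinarith
  have hB : ∀ y, m y * (A.r j * (chi (mf (γ j) y / A.r j) *
      (2 * (mar (A.r j) y s.N - mar (A.r j) y (γ j).N)))) ≤ 0 := fun y => by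
    have := mar_anti (A.r j) y (N := (γ j).N) (N' := s.N) fun c hc => by simp [s, hc]
    exact mul_nonpos_of_nonneg_of_nonpos (hm y) (mul_nonpos_of_nonneg_of_nonpos hr.le
      (mul_nonpos_of_nonneg_of_nonpos (chi_nonneg _) (by linarith)))
  have h1 := single_le_sum (f := fun y => -(m y * (A.r j * (chi (mf (γ j) y / A.r j) *
      (2 * (mar (A.r j) y s.N - mar (A.r j) y (γ j).N)))))) (s := univ)
    (fun y _ => by have := hB y; linarith) (mem_univ a)
  rw [sum_neg_distrib] at h1
  have c1 : chi (mf (γ j) a / A.r j) = 1 := by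
    obtain ⟨c, e⟩ := exists_mf (γ j) a
    apply chi_one
    rw [le_div_iff₀ hr, e]; exact (hf c).le
  have c2 : mar (A.r j) a s.N = 0 := by
    refine le_antisymm ((mar_le _ a (c := a) (by simp [s])).trans ?_) (mar_nonneg _ _ _)
    simp
  have c3 : mar (A.r j) a (γ j).N = 1 := by
    rcases mar_cases (A.r j) a (γ j).N with e | ⟨c, hc, e⟩
    · exact e
    · refine le_antisymm (mar_le_one _ _ _) ?_
      rw [e]
      refine le_trans ?_ (le_max_right _ _)
      have := hne c hc
      have : 2 ≤ 4 * dist c a / A.r j := by rw [le_div_iff₀ hr]; linarith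
      linarith
  have c4 : (s.N.length : ℝ) = (γ j).N.length + 1 := by simp [s]
  simp only [c1, c2, c3] at h1
  rw [c4] at key
  have := A.r₀_le j
  nlinarith

/-- Test: deleting a centre. -/
theorem test_delete (ho : A.Opt m h ε γ) (hm : ∀ y, 0 ≤ m y) (hh : ∀ ω, HFun A.L (h ω))
    (hε : ε ≤ A.r₀ / 2) {M : ℝ} (hM : ∑ y, m y ≤ M) (j : Fin (A.J + 1)) :
    ((γ j).N.length : ℝ) ≤ 52 * M * A.L := by
  have hr := A.r_pos j
  have hL := A.hL
  have hη : 0 ≤ A.r₀ / A.G := by have := A.hr; positivity
  let s : X → Lv X (A.r j) := fun c => ⟨(γ j).N.filter fun x => decide (x ≠ c),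
    (γ j).nodup.filter _, (γ j).f, (γ j).lip, (γ j).kat, (γ j).far⟩
  have hg : ∀ c ω x, A.gp j (γ j).N ω x ≠ some c → A.gp j (s c).N ω x = A.gp j (γ j).N ω x :=
    fun c ω x hx => find_filter_ne _ c _ hx
  let ind : X → Ω → X → ℝ := fun c ω y => if A.gp j (γ j).N ω y = some c then 1 else 0
  let S : Ω → ℕ → X → Finset X := fun ω ℓ y => univ.filter fun x => A.lab γ ω ℓ x = A.lab γ ω ℓ y
  let T : X → Ω → ℕ → X → ℝ := fun c ω ℓ y => A.L * ind c ω y +
    (h ω (S ω ℓ y) - h ω ((S ω ℓ y).filter fun x => A.gp j (γ j).N ω x ≠ some c))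
  let B : X → X → ℝ := fun c y =>
    A.r j * (2 * (mar (A.r j) y (s c).N - mar (A.r j) y (γ j).N) +
      8 * A.L * ∑ ω, A.P ω * ind c ω y) +
      A.r₀ / A.G * ∑ ω, A.P ω * ∑ ℓ ∈ range (A.hi j), T c ω ℓ y
  have ind0 : ∀ c ω y, 0 ≤ ind c ω y := fun c ω y => by
    simp only [ind]; split_ifs <;> norm_num
  have ind1 : ∀ ω y, ∑ c ∈ (γ j).N.toFinset, ind c ω y ≤ 1 := fun ω y => by
    simp only [ind]
    rcases A.gp j (γ j).N ω y with _ | c
    · simp
    · simp only [Option.some.injEq, sum_ite_eq]; split_ifs <;> norm_num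
  have key : ∀ c ∈ (γ j).N.toFinset, A.r j / 2 ≤ ∑ y, m y * B c y := by
    intro c hc
    have h1 := test ho hm hh j (s c) (B c) fun y => by
      have hJ := JT_le (γ := γ) (h := h) (s := s c) (y := y)
        (fun ω => ∑ ℓ ∈ range (A.hi j), T c ω ℓ y) fun ω => sum_le_sum fun ℓ hl => by
        have hl := mem_range.1 hl
        have hb : ∀ x, A.gp j (γ j).N ω x ≠ some c →
            A.lab (Function.update γ j (s c)) ω ℓ x = A.lab γ ω ℓ x := fun x hx => by
          rw [A.lab_update_iff γ j _ ω hl]
          unfold base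
          rw [ky_congr (hg c ω x hx)]
        by_cases hy : A.gp j (γ j).N ω y = some c
        · have := jterm_le (hh ω) (A.lab γ ω ℓ) (A.lab (Function.update γ j (s c)) ω ℓ) y
          have := (hh ω).mono _ _
            (filter_subset (fun x => A.gp j (γ j).N ω x ≠ some c) (S ω ℓ y))
          simp only [T, ind, if_pos hy, jt]
          linarith
        · have := jterm_le_sub (hh ω) (hb y hy)
            ((S ω ℓ y).filter fun x => A.gp j (γ j).N ω x ≠ some c) fun x hx =>
              ⟨(mem_filter.1 (mem_filter.1 hx).1).2, hb x (mem_filter.1 hx).2⟩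
          simp only [T, ind, if_neg hy, jt]
          linarith
      have e2 : mf (s c) y = mf (γ j) y := rfl
      have m1 := mar_anti (A.r j) y (N := (s c).N) (N' := (γ j).N) fun x hx =>
        (List.mem_filter.1 hx).1
      have u1 : A.unc j (s c).N y - A.unc j (γ j).N y ≤ ∑ ω, A.P ω * ind c ω y := by
        unfold unc
        rw [← sum_sub_distrib]
        refine sum_le_sum fun ω _ => ?_
        rw [← mul_sub]
        refine mul_le_mul_of_nonneg_left ?_ (A.hP ω)
        by_cases hy : A.gp j (γ j).N ω y = some c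
        · simp only [ind, if_pos hy]; split_ifs <;> norm_num
        · rw [hg c ω y hy, sub_self]; exact ind0 _ _ _
      have u2 : 0 ≤ ∑ ω, A.P ω * ind c ω y := sum_nonneg fun ω _ => mul_nonneg (A.hP ω) (ind0 _ _ _)
      have c0 := chi_nonneg (mf (γ j) y / A.r j)
      have c1 := chi_le (mf (γ j) y / A.r j)
      have h2 : A.phiL j (s c) y - A.phiL j (γ j) y ≤
          2 * (mar (A.r j) y (s c).N - mar (A.r j) y (γ j).N) + 8 * A.L * ∑ ω, A.P ω * ind c ω y := by
        unfold phiL
        rw [e2]
        have h3 : 8 * A.L * (A.unc j (s c).N y - A.unc j (γ j).N y) ≤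
            8 * A.L * ∑ ω, A.P ω * ind c ω y := by gcongr
        have h4 : 0 ≤ 2 * (mar (A.r j) y (s c).N - mar (A.r j) y (γ j).N) +
            8 * A.L * ∑ ω, A.P ω * ind c ω y := by positivity
        nlinarith
      have := mul_le_mul_of_nonneg_left h2 hr.le
      simp only [B]
      linarith
    have h2 : (s c).N.length < (γ j).N.length := by
      refine List.length_filter_lt_length_iff_exists.2 ⟨c, List.mem_toFinset.1 hc, by simp⟩
    have h3 : ((s c).N.length : ℝ) + 1 ≤ (γ j).N.length := by exact_mod_cast h2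
    have := A.r₀_le j
    nlinarith
  have hsum : ∀ y, ∑ c ∈ (γ j).N.toFinset, B c y ≤ 26 * A.r j * A.L := by
    intro y
    have b1 : ∑ c ∈ (γ j).N.toFinset, (mar (A.r j) y (s c).N - mar (A.r j) y (γ j).N) ≤ 1 := by
      rcases mar_cases (A.r j) y (γ j).N with e | ⟨c₀, hc₀, e⟩
      · refine (sum_nonpos fun c _ => ?_).trans zero_le_one
        have := mar_le_one (A.r j) y (s c).N
        linarith
      · calc _ ≤ ∑ c ∈ (γ j).N.toFinset, (if c₀ = c then (1 : ℝ) else 0) := by
              refine sum_le_sum fun c _ => ?_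
              split_ifs with hc
              · have := mar_le_one (A.r j) y (s c).N
                have := mar_nonneg (A.r j) y (γ j).N
                linarith
              · have := mar_le (A.r j) y (N := (s c).N) (c := c₀)
                  (List.mem_filter.2 ⟨hc₀, by simpa using hc⟩)
                linarith
          _ ≤ 1 := by rw [sum_ite_eq]; split_ifs <;> norm_num
    have b2 : ∑ c ∈ (γ j).N.toFinset, ∑ ω, A.P ω * ind c ω y ≤ 1 := by
      rw [sum_comm, ← A.hP1]
      refine sum_le_sum fun ω _ => ?_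
      rw [← mul_sum]
      exact mul_le_of_le_one_right (A.hP ω) (ind1 ω y)
    have b3 : ∑ c ∈ (γ j).N.toFinset, ∑ ω, A.P ω * ∑ ℓ ∈ range (A.hi j), T c ω ℓ y ≤
        A.hi j * (2 * A.L) := by
      rw [sum_comm]
      calc _ ≤ ∑ ω, A.P ω * (A.hi j * (2 * A.L)) := by
            refine sum_le_sum fun ω _ => ?_
            rw [← mul_sum, sum_comm]
            refine mul_le_mul_of_nonneg_left ?_ (A.hP ω)
            have := sum_le_card_nsmul (range (A.hi j))
              (fun ℓ => ∑ c ∈ (γ j).N.toFinset, T c ω ℓ y) (2 * A.L) fun ℓ _ => by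
              simp only [T]
              rw [sum_add_distrib, ← mul_sum]
              have d1 := (hh ω).del (S ω ℓ y) (A.gp j (γ j).N ω)
              have d2 : ∑ c ∈ (γ j).N.toFinset, (h ω (S ω ℓ y) -
                  h ω ((S ω ℓ y).filter fun x => A.gp j (γ j).N ω x ≠ some c)) ≤
                  ∑ c, (h ω (S ω ℓ y) -
                  h ω ((S ω ℓ y).filter fun x => A.gp j (γ j).N ω x ≠ some c)) :=
                sum_le_sum_of_subset_of_nonneg (subset_univ _) fun c _ _ =>
                  sub_nonneg.2 ((hh ω).mono _ _ (filter_subset _ _))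
              have d3 := mul_le_of_le_one_right (by linarith : 0 ≤ A.L) (ind1 ω y)
              linarith
            simpa using this
        _ = _ := by rw [← sum_mul, A.hP1, one_mul]
    simp only [B]
    rw [sum_add_distrib, ← mul_sum, ← mul_sum, sum_add_distrib, ← mul_sum, ← mul_sum]
    have b4 := mul_le_mul_of_nonneg_left b3 hη
    rw [← mul_assoc, A.eta_hi] at b4
    have b5 : 8 * A.L * ∑ c ∈ (γ j).N.toFinset, ∑ ω, A.P ω * ind c ω y ≤ 8 * A.L * 1 := by
      gcongr
    nlinarith
  have h1 := card_nsmul_le_sum _ _ _ key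
  rw [sum_comm, List.toFinset_card_of_nodup (γ j).nodup, nsmul_eq_mul] at h1
  have h2 : ∑ y, ∑ c ∈ (γ j).N.toFinset, m y * B c y ≤ ∑ y, m y * (26 * A.r j * A.L) :=
    sum_le_sum fun y _ => by
      rw [← mul_sum]; exact mul_le_mul_of_nonneg_left (hsum y) (hm y)
  rw [← sum_mul] at h2
  have h3 : (∑ y, m y) * (26 * A.r j * A.L) ≤ M * (26 * A.r j * A.L) := by gcongr
  have h4 : ((γ j).N.length : ℝ) * A.r j ≤ 52 * M * A.L * A.r j := by linarith
  exact le_of_mul_le_mul_right h4 hr

end Par

end Vale.Agent.P304
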