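import Vale.Agent.P304.Geom3

namespace Vale.Agent.P304

open Finset

universe u

set_option linter.unusedSectionVars false

theorem tele_shift (F : ℕ → ℝ) (B : ℝ) (hB : 0 ≤ B) (w n : ℕ)
    (h1 : ∀ ℓ < n, F ℓ ≤ B) :
    ∑ ℓ ∈ range n, (F ℓ - if w ≤ ℓ then F (ℓ - w) else 0) ≤ w * B := by
  rcases le_total n w with h | h
  · have := sum_le_card_nsmul (range n) (fun ℓ => F ℓ - if w ≤ ℓ then F (ℓ - w) else 0) B
      fun ℓ hl => by
        have hl := mem_range.1 hl
        rw [if_neg (by omega), sub_zero]; exact h1 ℓ hl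
    rw [card_range, nsmul_eq_mul] at this
    have : (n : ℝ) ≤ w := by exact_mod_cast h
    nlinarith
  · obtain ⟨n', rfl⟩ := Nat.exists_eq_add_of_le h
    rw [sum_sub_distrib, sum_range_add (fun ℓ => if w ≤ ℓ then F (ℓ - w) else 0)]
    have e1 : ∑ ℓ ∈ range w, (if w ≤ ℓ then F (ℓ - w) else 0) = 0 :=
      sum_eq_zero fun ℓ hl => if_neg (by have := mem_range.1 hl; omega)
    have e2 : ∑ ℓ ∈ range n', (if w ≤ w + ℓ then F (w + ℓ - w) else 0) = ∑ ℓ ∈ range n', F ℓ :=
      sum_congr rfl fun ℓ _ => by simp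
    rw [e1, e2, add_comm w n', sum_range_add]
    have := sum_le_card_nsmul (range w) (fun ℓ => F (n' + ℓ)) B
      fun ℓ hl => h1 _ (by have := mem_range.1 hl; omega)
    rw [card_range, nsmul_eq_mul] at this
    linarith

namespace Par

variable {X Ω : Type u} [Fintype X] [DecidableEq X] [MetricSpace X] [Fintype Ω] (A : Par X Ω)
  (m : X → ℝ) (h : Ω → Finset X → ℝ)

noncomputable def Mb (a : X) (j : ℕ) : ℝ := ∑ y, if dist a y ≤ A.r j then m y else 0

noncomputable def cell (γ : A.St) (ω : Ω) (ℓ : ℕ) (y : X) : Finset X :=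
  univ.filter fun x => A.lab γ ω ℓ x = A.lab γ ω ℓ y

noncomputable def Eh (γ : A.St) (y : X) (n : ℕ) : ℝ :=
  ∑ ω, A.P ω * h ω (A.cell γ ω (8 ^ n * A.G) y)

variable {A m h} {ε : ℝ} {γ : A.St}

theorem cell_mono (γ : A.St) (ω : Ω) {ℓ ℓ' : ℕ} (hl : ℓ ≤ ℓ') (y : X) :
    A.cell γ ω ℓ y ⊆ A.cell γ ω ℓ' y := fun _ hx =>
  mem_filter.2 ⟨mem_univ _, A.nested γ ω hl (mem_filter.1 hx).2⟩

theorem r_add_three (j : ℕ) : A.r (j + 3) = 512 * A.r j := by unfold r; ring

theorem sum_three (a : X) (j : ℕ) (B₁ : X → ℝ) (B₂ : ℝ) :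
    ∑ y, m y * (if dist a y ≤ A.r j then B₁ y else if dist a y ≤ 512 * A.r j then B₂ else 0) =
      ∑ y, (if dist a y ≤ A.r j then m y * B₁ y else 0) +
        B₂ * (A.Mb m a (j + 3) - A.Mb m a j) := by
  unfold Mb
  rw [r_add_three, ← sum_sub_distrib, mul_sum, ← sum_add_distrib]
  refine sum_congr rfl fun y _ => ?_
  have := A.r_pos j
  by_cases h1 : dist a y ≤ A.r j
  · have h2 : dist a y ≤ 512 * A.r j := by linarith
    simp [h1, h2]
  · by_cases h2 : dist a y ≤ 512 * A.r j
    · simp [h1, h2, mul_comm]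
    · simp [h1, h2]

theorem one_le_Mb (hm : ∀ y, 0 ≤ m y) {a : X} (ha : 1 ≤ m a) (j : ℕ) : 1 ≤ A.Mb m a j := by
  have := single_le_sum (f := fun y => if dist a y ≤ A.r j then m y else 0) (s := univ)
    (fun y _ => by have := hm y; split_ifs <;> linarith) (mem_univ a)
  simp only [dist_self, (A.r_pos j).le, if_true] at this
  exact ha.trans this

/-- Test: inserting a heavy slot. -/
theorem test_heavy (ho : A.Opt m h ε γ) (hm : ∀ y, 0 ≤ m y) (hh : ∀ ω, HFun A.L (h ω))
    (hε : ε < A.r₀) (j : Fin (A.J + 1)) {a : X} (ha : 1 ≤ m a)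
    (hv : A.Mb m a (j + 3) ≤ 33 / 32 * A.Mb m a j) : ∃ c, (γ j).f c a ≤ 4 * A.r j := by
  classical
  by_contra hne
  push Not at hne
  have hr := A.r_pos j
  have hL := A.hL
  obtain ⟨c₀, hc₀⟩ := exists_free (γ j)
  let f' : Option X → X → ℝ := fun c x => if c = c₀ then dist a x else
    if (γ j).f c a < 30 * A.r j then (γ j).f c x + 30 * A.r j else (γ j).f c x
  have hge : ∀ c x, c ≠ c₀ → (γ j).f c x ≤ f' c x := fun c x hc => by
    simp only [f', if_neg hc]; split_ifs <;> linarith
  have hfar : ∀ c x, c ≠ c₀ → 30 * A.r j ≤ f' c x + dist a x := fun c x hc => by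
    simp only [f', if_neg hc]
    have := (γ j).nonneg c x
    have := (γ j).lip c a x
    have := dist_nonneg (x := a) (y := x)
    split_ifs <;> linarith
  let s : Lv X (A.r j) := ⟨(γ j).N, (γ j).nodup, f', fun c x y => by
      simp only [f']
      have := (γ j).lip c x y
      have := dist_triangle_right a x y
      split_ifs <;> linarith, fun c x y => by
      simp only [f']
      have := (γ j).kat c x y
      have := dist_triangle_left x y a
      split_ifs <;> linarith, fun c c' x hc => by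
      by_cases h1 : c = c₀
      · have := hfar c' x (fun e => hc (h1.trans e.symm))
        have e : f' c x = dist a x := by simp [f', h1]
        linarith
      · by_cases h2 : c' = c₀
        · have := hfar c x h1
          have e : f' c' x = dist a x := by simp [f', h2]
          linarith
        · have := hge c x h1
          have := hge c' x h2
          have := (γ j).far c c' x hc
          linarith⟩
  have hU : ∀ x, 48 * A.r j < dist a x → Unaff (γ j) s x := by
    intro x hx c
    by_cases h1 : c = c₀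
    · right
      have := hc₀ x
      have e : s.f c x = dist a x := by simp [s, f', h1]
      rw [e, h1]; constructor <;> linarith
    · by_cases h2 : (γ j).f c a < 30 * A.r j
      · right
        have := (γ j).kat c a x
        have : (γ j).f c x ≤ s.f c x := hge c x h1
        constructor <;> linarith
      · left; funext x; simp [s, f', h1, h2]
  have hJ : ∀ y, A.JT h γ j s y ≤ 8 * A.r j * A.L := fun y =>
    JT_le_const _ fun ω ℓ _ => jterm_le (hh ω) _ _ y
  have key := test ho hm hh j s (fun y => if dist a y ≤ A.r j then -12 * A.r j * A.L else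
    if dist a y ≤ 512 * A.r j then 338 * A.r j * A.L else 0) fun y => by
    have := hJ y
    split_ifs with h1 h2
    · have e1 : mf s y / A.r j ≤ 2 := by
        have := mf_le s c₀ y
        have e : s.f c₀ y = dist a y := by simp [s, f']
        rw [div_le_iff₀ hr]; linarith
      have e2 : A.phiL j s y = 0 := by
        unfold phiL gF
        rw [tt_zero e1, chi_zero (by linarith)]; ring
      have e3 : 3 ≤ mf (γ j) y / A.r j := by
        obtain ⟨c, e⟩ := exists_mf (γ j) y
        have := (γ j).lip c a y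
        have := hne c
        rw [le_div_iff₀ hr]; linarith
      have e4 : 20 * A.L ≤ A.phiL j (γ j) y := by
        have := tt_ge e3
        have h3 : 1 / 16 ≤ gF (mf (γ j) y / A.r j) := by unfold gF; nlinarith
        have := mul_nonneg (chi_nonneg (mf (γ j) y / A.r j)) (A.V_bounds j (γ j).N y).1
        unfold phiL; nlinarith
      have := mul_le_mul_of_nonneg_left e4 hr.le
      rw [e2]; linarith
    · have k1 := mul_le_mul_of_nonneg_left (A.phiL_le j s y) hr.le
      have k2 := mul_nonneg hr.le (A.phiL_nonneg j (γ j) y)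
      linarith
    · exact far_zero (γ := γ) (j := j) (s := s) hh rfl hU (not_le.1 h2)
  rw [sum_three] at key
  have e : ∑ y, (if dist a y ≤ A.r j then m y * (-12 * A.r j * A.L) else 0) =
      A.Mb m a j * (-12 * A.r j * A.L) := by
    unfold Mb
    rw [sum_mul]
    exact sum_congr rfl fun y _ => by split_ifs <;> simp
  rw [e] at key
  have h1 := one_le_Mb (A := A) hm ha j
  have h2 := A.r₀_le j
  have h3 : A.r j ≤ A.r j * A.L := by nlinarith
  have h4 : A.r j * A.L ≤ A.r j * A.L * A.Mb m a j := by nlinarith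
  have h5 : 338 * A.r j * A.L * (A.Mb m a (j + 3) - A.Mb m a j) ≤
      338 * A.r j * A.L * (1 / 32 * A.Mb m a j) := by gcongr; linarith
  change A.r j * ((γ j).N.length : ℝ) ≤ A.r j * ((γ j).N.length : ℝ) + _ + _ at key
  nlinarith

theorem chg_small {r t δ : ℝ} (hr : 0 < r) (ht : t ≤ 10 * r) (hδ : 0 ≤ δ) (s s' : Lv X r)
    (h1 : ∀ c x, s'.f c x ≤ s.f c x + δ) (h2 : ∀ c x, s.f c x ≤ s'.f c x + δ) {κ : X ⊕ X}
    (hne : baseK r t s'.f κ ≠ baseK r t s.f κ) :
    (∃ c, evk r (s.f c) κ ≤ t ∨ evk r (s'.f c) κ ≤ t) ∧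
      ¬ ∃ c, evk r (s.f c) κ ≤ t - δ ∨ evk r (s'.f c) κ ≤ t - δ := by
  have hex : ∃ c, ¬ (evk r (s'.f c) κ ≤ t ↔ evk r (s.f c) κ ≤ t) := by
    by_contra hc
    push Not at hc
    exact hne (baseK_congr hr ht s s' hc)
  obtain ⟨c, hc⟩ := hex
  refine ⟨⟨c, by tauto⟩, ?_⟩
  rintro ⟨c', hc'⟩
  have a1 := evk_le_add (r := r) (h1 c') κ
  have a2 := evk_le_add (r := r) (h2 c') κ
  have b1 : evk r (s.f c') κ ≤ t := by rcases hc' with e | e <;> linarith
  have b2 : evk r (s'.f c') κ ≤ t := by rcases hc' with e | e <;> linarith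
  by_cases e : c = c'
  · subst e; tauto
  · have := evk_far hr s e κ
    have := evk_far hr s' e κ
    have : evk r (s.f c) κ ≤ t ∨ evk r (s'.f c) κ ≤ t := by tauto
    rcases this with e | e <;> linarith

section small
variable {j : Fin (A.J + 1)} {s : Lv X (A.r j)} (hN : s.N = (γ j).N)
  (h1 : ∀ c x, s.f c x ≤ (γ j).f c x + A.r j / (8 * A.G))
  (h2 : ∀ c x, (γ j).f c x ≤ s.f c x + A.r j / (8 * A.G))
include hN h1 h2

theorem chg_base {ω : Ω} {ℓ : ℕ} (hl : ℓ < A.hi j) {x : X}
    (hne : A.base j s ω ℓ x ≠ A.base j (γ j) ω ℓ x) :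
    (∃ c, evk (A.r j) ((γ j).f c) (A.ky j (γ j).N ω x) ≤ A.thr j ℓ ∨
      evk (A.r j) (s.f c) (A.ky j (γ j).N ω x) ≤ A.thr j ℓ) ∧ (8 ^ (j : ℕ) ≤ ℓ →
      ¬ ∃ c, evk (A.r j) ((γ j).f c) (A.ky j (γ j).N ω x) ≤ A.thr j (ℓ - 8 ^ (j : ℕ)) ∨
      evk (A.r j) (s.f c) (A.ky j (γ j).N ω x) ≤ A.thr j (ℓ - 8 ^ (j : ℕ))) := by
  have hr := A.r_pos j
  have hG := A.G_pos
  unfold base at hne
  rw [hN] at hne
  have := chg_small hr (A.thr_le hl) (by positivity) (γ j) s h1 h2 hne
  refine ⟨this.1, fun hw => ?_⟩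
  have e := A.thr_add j (ℓ - 8 ^ (j : ℕ))
  rw [Nat.sub_add_cancel hw] at e
  rw [show A.thr j (ℓ - 8 ^ (j : ℕ)) = A.thr j ℓ - A.r j / (8 * A.G) by linarith]
  exact this.2

theorem jt_kept (hh : ∀ ω, HFun A.L (h ω)) {ω : Ω} {ℓ : ℕ} (hl : ℓ < A.hi j)
    (hw : 8 ^ (j : ℕ) ≤ ℓ) {y : X} (hy : A.base j s ω ℓ y = A.base j (γ j) ω ℓ y) :
    A.jt h γ j s ω ℓ y ≤ h ω (A.cell γ ω ℓ y) - h ω (A.cell γ ω (ℓ - 8 ^ (j : ℕ)) y) := by
  have hr := A.r_pos j
  refine jterm_le_sub (hh ω) ((A.lab_update_iff γ j s ω hl y).2 hy) _ fun x hx => ?_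
  have hx := (mem_filter.1 hx).2
  refine ⟨A.nested γ ω (Nat.sub_le _ _) hx, (A.lab_update_iff γ j s ω hl x).2 ?_⟩
  by_contra hne
  have hl' : ℓ - 8 ^ (j : ℕ) < A.hi j := lt_of_le_of_lt (Nat.sub_le _ _) hl
  have h3 := (chg_base hN h1 h2 hl hne).2 hw
  push Not at h3
  have h4 := A.base_eq_of_lab hx j hl'
  unfold base at h4
  rw [baseK_inr fun c => (h3 c).1] at h4
  have h5 : A.ky j (γ j).N ω x = A.ky j (γ j).N ω y := by
    rcases baseK_cases hr (A.thr_le hl') (γ j) (A.ky j (γ j).N ω y) with ⟨c', _, e⟩ | ⟨_, e⟩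
    · rw [e] at h4; cases h4
    · rw [e] at h4; exact Sum.inr_injective h4
  apply hne
  unfold base at hy ⊢
  rw [hN] at hy ⊢
  rw [h5, hy]

theorem JT_small (hh : ∀ ω, HFun A.L (h ω)) (y : X) :
    A.JT h γ j s y ≤ A.r j / A.G * (2 * A.L) := by
  classical
  have hL := A.hL
  refine (JT_le (fun _ => ((8 ^ (j : ℕ) : ℕ) : ℝ) * (2 * A.L)) fun ω => ?_).trans (le_of_eq ?_)
  · let p : ℕ → Prop := fun ℓ => ∃ c, evk (A.r j) ((γ j).f c) (A.ky j (γ j).N ω y) ≤ A.thr j ℓ ∨
      evk (A.r j) (s.f c) (A.ky j (γ j).N ω y) ≤ A.thr j ℓ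
    let F : ℕ → ℝ := fun ℓ => (if p ℓ then A.L else 0) + h ω (A.cell γ ω ℓ y)
    refine le_trans (sum_le_sum fun ℓ hl => ?_) (tele_shift F (2 * A.L) (by linarith)
      (8 ^ (j : ℕ)) (A.hi j) fun ℓ _ => ?_)
    · have hl := mem_range.1 hl
      have m1 := (hh ω).mono _ _ (cell_mono γ ω (Nat.sub_le ℓ (8 ^ (j : ℕ))) y)
      have m2 := (hh ω).nonneg (A.cell γ ω ℓ y)
      by_cases hy : A.base j s ω ℓ y = A.base j (γ j) ω ℓ y
      · by_cases hw : 8 ^ (j : ℕ) ≤ ℓ
        · have := jt_kept hN h1 h2 hh hl hw hy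
          rw [if_pos hw]
          have : (if p (ℓ - 8 ^ (j : ℕ)) then A.L else 0) ≤ (if p ℓ then A.L else 0) := by
            by_cases hp : p (ℓ - 8 ^ (j : ℕ))
            · have hp' : p ℓ := by
                obtain ⟨c, hc⟩ := hp
                have := A.thr_mono j (Nat.sub_le ℓ (8 ^ (j : ℕ)))
                exact ⟨c, hc.imp (fun e => e.trans this) fun e => e.trans this⟩
              rw [if_pos hp, if_pos hp']
            · rw [if_neg hp]; split_ifs <;> linarith
          simp only [F]; linarith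
        · rw [if_neg hw]
          have := jterm_le_sub (hh ω) ((A.lab_update_iff γ j s ω hl y).2 hy) ∅ (by simp)
          have := (hh ω).nonneg ∅
          have : 0 ≤ (if p ℓ then A.L else 0) := by split_ifs <;> linarith
          simp only [F, jt, cell] at *; linarith
      · obtain ⟨c1, c2⟩ := chg_base hN h1 h2 hl hy
        have := jterm_le (hh ω) (A.lab γ ω ℓ) (A.lab (Function.update γ j s) ω ℓ) y
        have e1 : (if p ℓ then A.L else 0) = A.L := if_pos c1
        by_cases hw : 8 ^ (j : ℕ) ≤ ℓ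
        · have e2 : (if p (ℓ - 8 ^ (j : ℕ)) then A.L else 0) = 0 := if_neg (c2 hw)
          rw [if_pos hw]
          simp only [F, jt, e1, e2]; linarith
        · rw [if_neg hw]
          simp only [F, jt, e1]; linarith
    · have := (hh ω).le (A.cell γ ω ℓ y)
      simp only [F]; split_ifs <;> linarith
  · rw [← sum_mul, A.hP1]
    unfold r; push_cast; ring

theorem JT_core (hh : ∀ ω, HFun A.L (h ω)) {i : ℕ} (hi : (j : ℕ) = i + 2) {c : Option X} {y : X}
    (hy : (γ j).f c y ≤ 5 * A.r j) :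
    A.JT h γ j s y ≤ A.r j / A.G * (A.Eh h γ y (i + 3) - A.Eh h γ y i) := by
  have hr := A.r_pos j
  have hG : (10 : ℝ) ≤ A.G := by exact_mod_cast A.hG
  have hδ : A.r j / (8 * A.G) ≤ A.r j := by
    rw [div_le_iff₀ (by positivity)]; nlinarith
  have hun : ∀ ω ℓ x, ℓ < A.hi j → (γ j).f c x ≤ 6 * A.r j →
      A.base j s ω ℓ x = A.base j (γ j) ω ℓ x := fun ω ℓ x hl hx => by
    unfold base ky
    rw [baseK_core hr (A.thr_ge j ℓ) (A.thr_le hl) s (c := c) (by have := h1 c x; linarith),
      baseK_core hr (A.thr_ge j ℓ) (A.thr_le hl) (γ j) (c := c) (by linarith)]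
  refine (JT_le (fun ω => ((8 ^ (j : ℕ) : ℕ) : ℝ) * (h ω (A.cell γ ω (8 ^ (i + 3) * A.G) y) -
    h ω (A.cell γ ω (8 ^ i * A.G) y))) fun ω => ?_).trans (le_of_eq ?_)
  · let F : ℕ → ℝ := fun ℓ => max 0 (h ω (A.cell γ ω ℓ y) - h ω (A.cell γ ω (8 ^ i * A.G) y))
    have hF : ∀ ℓ ℓ', ℓ ≤ ℓ' → F ℓ ≤ F ℓ' := fun ℓ ℓ' hl =>
      max_le_max le_rfl (sub_le_sub_right ((hh ω).mono _ _ (cell_mono γ ω hl y)) _)
    have hB : 0 ≤ h ω (A.cell γ ω (8 ^ (i + 3) * A.G) y) - h ω (A.cell γ ω (8 ^ i * A.G) y) :=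
      sub_nonneg.2 ((hh ω).mono _ _ (cell_mono γ ω (Nat.mul_le_mul_right _
        (Nat.pow_le_pow_right (by norm_num) (by omega))) y))
    refine le_trans (sum_le_sum fun ℓ hl => ?_) (tele_shift F _ hB
      (8 ^ (j : ℕ)) (A.hi j) fun ℓ hl => ?_)
    · have hl := mem_range.1 hl
      by_cases hlo : ℓ < A.hi i
      · have hiJ : i < A.J + 1 := by have := j.isLt; omega
        have : A.jt h γ j s ω ℓ y ≤ 0 := jterm_zero (hh ω) fun x hx => by
          rw [A.lab_update_iff γ j s ω hl]
          refine hun ω ℓ x hl ?_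
          have d1 := A.diam hx ⟨i, hiJ⟩ hlo
          have d2 : A.r j = 64 * A.r i := by rw [hi]; unfold r; ring
          have := (γ j).lip c x y
          simp only at d1
          linarith
        have f0 : 0 ≤ F ℓ := le_max_left _ _
        have f1 := hF _ _ (Nat.sub_le ℓ (8 ^ (j : ℕ)))
        split_ifs <;> linarith
      · have hG' := A.hG
        have e1 : 8 ^ i * A.G + 8 ^ (j : ℕ) ≤ ℓ := by
          rw [hi]
          unfold Par.hi at hlo
          have : 8 ^ i * 10 ≤ 8 ^ i * A.G := Nat.mul_le_mul_left _ hG'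
          have e2 : 8 ^ (i + 1) * A.G = 8 * (8 ^ i * A.G) := by ring
          have e3 : 8 ^ (i + 2) = 64 * 8 ^ i := by ring
          omega
        have hw : 8 ^ (j : ℕ) ≤ ℓ := by omega
        rw [if_pos hw]
        have := jt_kept hN h1 h2 hh hl hw (hun ω ℓ y hl (by linarith))
        have m1 := (hh ω).mono _ _ (cell_mono γ ω
          (show 8 ^ i * A.G ≤ ℓ - 8 ^ (j : ℕ) by omega) y)
        have m2 := (hh ω).mono _ _ (cell_mono γ ω (Nat.sub_le ℓ (8 ^ (j : ℕ))) y)
        simp only [F]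
        rw [max_eq_right (by linarith), max_eq_right (by linarith)]
        linarith
    · refine max_le hB (sub_le_sub_right ((hh ω).mono _ _ (cell_mono γ ω ?_ y)) _)
      unfold Par.hi at hl
      rw [hi] at hl
      exact hl.le
  · unfold Eh
    rw [← sum_sub_distrib, mul_sum, mul_sum]
    refine sum_congr rfl fun ω _ => ?_
    unfold r; push_cast; ring

end small

/-- Test: drifting a slot towards `a`. -/
theorem test_drift (ho : A.Opt m h ε γ) (hm : ∀ y, 0 ≤ m y) (hh : ∀ ω, HFun A.L (h ω))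
    (j : Fin (A.J + 1)) {i : ℕ} (hi : (j : ℕ) = i + 2) {a : X} {c : Option X}
    (hc : (γ j).f c a ≤ 4 * A.r j) :
    40 * A.L * tt (mf (γ j) a / A.r j) * A.Mb m a j ≤ 32 * A.G * ε / A.r j +
      A.L / A.G * A.Mb m a j + 744 * A.L * (A.Mb m a (j + 3) - A.Mb m a j) +
      ∑ y, (if dist a y ≤ A.r j then m y * (40 * A.L * (dist a y / A.r j) +
        32 * (A.Eh h γ y (i + 3) - A.Eh h γ y i)) else 0) := by
  classical
  have hr := A.r_pos j
  have hL := A.hL
  have hG : (10 : ℝ) ≤ A.G := by exact_mod_cast A.hG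
  obtain ⟨θ, hθ⟩ : ∃ θ : ℝ, θ = 1 / (32 * A.G) := ⟨_, rfl⟩
  have θ0 : 0 < θ := by rw [hθ]; positivity
  have θ1 : θ ≤ 1 / 32 := by
    rw [hθ]; apply one_div_le_one_div_of_le (by norm_num); linarith
  have hδ : A.r j / (8 * A.G) = 4 * θ * A.r j := by rw [hθ]; field_simp; ring
  have hδ' : A.r j / A.G = 32 * θ * A.r j := by rw [hθ]; field_simp
  have rθ : 0 < θ * A.r j := by positivity
  let f' : Option X → X → ℝ := fun c' x => if c' = c then (1 - θ) * (γ j).f c x + θ * dist a x
    else if (γ j).f c' a < 35 * A.r j then (γ j).f c' x + 4 * θ * A.r j else (γ j).f c' x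
  have fc : ∀ x, f' c x = (1 - θ) * (γ j).f c x + θ * dist a x := fun x => by simp [f']
  have h1 : ∀ c' x, f' c' x ≤ (γ j).f c' x + 4 * θ * A.r j := fun c' x => by
    by_cases e : c' = c
    · rw [e, fc]
      have := (γ j).kat c a x
      nlinarith
    · simp only [f', if_neg e]; split_ifs <;> linarith
  have h2 : ∀ c' x, (γ j).f c' x ≤ f' c' x + 4 * θ * A.r j := fun c' x => by
    by_cases e : c' = c
    · rw [e, fc]
      have := (γ j).lip c x a
      rw [dist_comm] at this
      nlinarith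
    · simp only [f', if_neg e]; split_ifs <;> linarith
  have hge : ∀ c' x, c' ≠ c → (γ j).f c' x ≤ f' c' x := fun c' x e => by
    simp only [f', if_neg e]; split_ifs <;> linarith
  have hlow : ∀ x, dist a x - 4 * A.r j ≤ f' c x := fun x => by
    rw [fc]
    have := (γ j).kat c a x
    nlinarith
  have hfar : ∀ c' x, c' ≠ c → 30 * A.r j ≤ f' c' x + f' c x := fun c' x e => by
    have := h2 c x
    have := hlow x
    have := (γ j).far c' c x e
    have := (γ j).lip c' a x
    have e' : f' c' x = if (γ j).f c' a < 35 * A.r j then (γ j).f c' x + 4 * θ * A.r j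
        else (γ j).f c' x := by simp only [f', if_neg e]
    rw [e']
    split_ifs <;> linarith
  let s : Lv X (A.r j) := ⟨(γ j).N, (γ j).nodup, f', fun c' x y => by
      have := (γ j).lip c' x y
      by_cases e : c' = c
      · rw [e, fc, fc]
        have := dist_triangle_right a x y
        have := (γ j).lip c x y
        nlinarith
      · simp only [f', if_neg e]; split_ifs <;> linarith, fun c' x y => by
      have := (γ j).kat c' x y
      by_cases e : c' = c
      · rw [e, fc, fc]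
        have := dist_triangle_left x y a
        have := (γ j).kat c x y
        nlinarith
      · have := hge c' x e
        have := hge c' y e
        linarith, fun c₁ c₂ x hne => by
      by_cases e1 : c₁ = c
      · have := hfar c₂ x (fun e => hne (e1.trans e.symm))
        rw [e1]; linarith
      · by_cases e2 : c₂ = c
        · rw [e2]; exact hfar c₁ x e1
        · have := hge c₁ x e1
          have := hge c₂ x e2
          have := (γ j).far c₁ c₂ x hne
          linarith⟩
  have hU : ∀ x, 48 * A.r j < dist a x → Unaff (γ j) s x := by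
    intro x hx c'
    by_cases e : c' = c
    · right
      have := (γ j).kat c a x
      have : dist a x - 4 * A.r j ≤ s.f c x := hlow x
      rw [e]; constructor <;> linarith
    · by_cases h2 : (γ j).f c' a < 35 * A.r j
      · right
        have := (γ j).kat c' a x
        have : (γ j).f c' x ≤ s.f c' x := hge c' x e
        constructor <;> linarith
      · left; funext x; simp [s, f', e, h2]
  have h1' : ∀ c x, s.f c x ≤ (γ j).f c x + A.r j / (8 * A.G) := by rw [hδ]; exact h1
  have h2' : ∀ c x, (γ j).f c x ≤ s.f c x + A.r j / (8 * A.G) := by rw [hδ]; exact h2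
  have key := test ho hm hh j s (fun y => if dist a y ≤ A.r j then
    θ * A.r j * (40 * A.L * (dist a y / A.r j) + 32 * (A.Eh h γ y (i + 3) - A.Eh h γ y i) +
      (A.L / A.G - 40 * A.L * tt (mf (γ j) a / A.r j))) else
    if dist a y ≤ 512 * A.r j then θ * A.r j * (744 * A.L) else 0) fun y => by
    split_ifs with d1 d2
    · have y1 : (γ j).f c y ≤ 5 * A.r j := by
        have := (γ j).lip c y a
        rw [dist_comm] at this; linarith
      have hJ := JT_core (s := s) rfl h1' h2' hh hi y1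
      have y2 : s.f c y ≤ 5 * A.r j := by
        change f' c y ≤ _
        rw [fc]; nlinarith
      have e1 := mf_eq hr (γ j) (c := c) (y := y) (by linarith)
      have e2 := mf_eq hr s (c := c) (y := y) (by linarith)
      have e3 : mf (γ j) y / A.r j ≤ 5 := by rw [div_le_iff₀ hr]; linarith
      have e4 : mf s y / A.r j ≤ 5 := by rw [div_le_iff₀ hr]; linarith
      have e5 : dist a y / A.r j ≤ 1 := (div_le_one hr).2 d1
      have e6 := gF_drift (s := mf (γ j) y / A.r j) (s' := mf s y / A.r j) θ0.le (by linarith) e5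
        (by linarith) (le_of_eq (by
          rw [e1, e2]; change f' c y / _ = _
          rw [fc]; ring))
      have e7 : tt (mf (γ j) a / A.r j) ≤ tt (mf (γ j) y / A.r j) + dist a y / A.r j := by
        refine tt_lip (by positivity) ?_
        rw [← add_div]
        have := mf_lip (γ j) y a
        rw [dist_comm] at this
        gcongr
      have e8 : 20 * θ ≤ 1 / A.G := by
        rw [hθ, mul_one_div, div_le_div_iff₀ (by positivity) (by positivity)]; linarith
      unfold phiL
      rw [chi_zero e3, chi_zero e4]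
      rw [hδ'] at hJ
      have e9 : A.L * (gF (mf s y / A.r j) - gF (mf (γ j) y / A.r j)) ≤
          A.L * (-(θ * (2 * (tt (mf (γ j) a / A.r j) - dist a y / A.r j) - θ) / 16)) := by
        gcongr; nlinarith
      have e10 : A.L * (20 * θ) ≤ A.L / A.G := by rw [div_eq_mul_one_div]; gcongr
      have e11 := mul_le_mul_of_nonneg_left e9 hr.le
      have e12 := mul_le_mul_of_nonneg_left e10 rθ.le
      nlinarith
    · have hJ := JT_small (s := s) rfl h1' h2' hh y
      rw [hδ'] at hJ
      have e1 : mf s y / A.r j ≤ mf (γ j) y / A.r j + 4 * θ := by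
        have := mf_le_add (s := γ j) (s' := s) (y := y) fun c' => h1 c' y
        rw [div_add' _ _ _ hr.ne']
        gcongr
      have e2 := gF_lip (by positivity) e1
      have e3 := chi_lip (by positivity) e1
      have e4 := A.V_bounds j (γ j).N y
      have e5 : A.phiL j s y - A.phiL j (γ j) y ≤ 680 * θ * A.L := by
        unfold phiL
        change _ + _ * (2 * mar (A.r j) y (γ j).N + 8 * A.L * A.unc j (γ j).N y) - _ ≤ _
        have := mul_le_mul_of_nonneg_right e3 e4.1
        have := mul_le_mul_of_nonneg_left e4.2 θ0.le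
        have := mul_le_mul_of_nonneg_left e2 (by linarith : 0 ≤ A.L)
        nlinarith
      nlinarith
    · exact far_zero (γ := γ) (j := j) (s := s) hh rfl hU (not_le.1 d2)
  rw [sum_three] at key
  have e : ∑ y, (if dist a y ≤ A.r j then m y * (θ * A.r j * (40 * A.L * (dist a y / A.r j) +
      32 * (A.Eh h γ y (i + 3) - A.Eh h γ y i) +
      (A.L / A.G - 40 * A.L * tt (mf (γ j) a / A.r j)))) else 0) =
      θ * A.r j * (∑ y, (if dist a y ≤ A.r j then m y * (40 * A.L * (dist a y / A.r j) +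
        32 * (A.Eh h γ y (i + 3) - A.Eh h γ y i)) else 0) +
        (A.L / A.G - 40 * A.L * tt (mf (γ j) a / A.r j)) * A.Mb m a j) := by
    unfold Mb
    rw [mul_sum, ← sum_add_distrib, mul_sum]
    exact sum_congr rfl fun y _ => by split_ifs <;> ring
  rw [e] at key
  change A.r j * ((γ j).N.length : ℝ) ≤ A.r j * ((γ j).N.length : ℝ) + _ + _ at key
  have e2 : ε = θ * A.r j * (32 * A.G * ε / A.r j) := by rw [hθ]; field_simp
  refine le_of_mul_le_mul_left ?_ rθ
  linarith

end Par

end Vale.Agent.P304
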