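import Vale.Agent.P304.Geom4

namespace Vale.Agent.P304

open Finset

universe u

set_option linter.unusedSectionVars false

theorem tele_three (a : ℕ → ℝ) (B : ℝ) (h0 : ∀ j, 0 ≤ a j) (h1 : ∀ j, a j ≤ B) (n : ℕ) :
    ∑ j ∈ range n, (a (j + 3) - a j) ≤ 3 * B := by
  have : ∑ j ∈ range n, (a (j + 3) - a j) = a n + a (n + 1) + a (n + 2) - a 0 - a 1 - a 2 := by
    induction n with
    | zero => simp only [sum_range_zero, zero_add]; ring
    | succ n ih => rw [sum_range_succ, ih]; ring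
  rw [this]
  linarith [h0 0, h0 1, h0 2, h1 n, h1 (n + 1), h1 (n + 2)]

theorem harm_weights {X : Type*} [Fintype X] [DecidableEq X] (m D : X → ℝ) (hm : ∀ y, 0 ≤ m y)
    (a : X) (ha : 1 ≤ m a) (hD : ∀ y, D a ≤ D y) :
    ∑ y, m y / (∑ x, if D x ≤ D y then m x else 0) ≤ 1 + Real.log (∑ y, m y) := by
  have key : ∀ T : Finset X,
      ∑ y ∈ T, m y / (m a + ∑ x ∈ T, if D x ≤ D y then m x else 0) ≤
        Real.log (m a + ∑ y ∈ T, m y) := by
    intro T
    induction T using Finset.induction_on_max_value D with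
    | empty => simpa using Real.log_nonneg ha
    | insert z T hz hmax ih =>
      have hT : 0 ≤ ∑ y ∈ T, m y := sum_nonneg fun y _ => hm y
      have e1 : ∑ x ∈ insert z T, (if D x ≤ D z then m x else 0) = m z + ∑ x ∈ T, m x := by
        rw [sum_insert hz, if_pos le_rfl]
        congr 1
        exact sum_congr rfl fun x hx => if_pos (hmax x hx)
      rw [sum_insert hz, sum_insert hz (f := m), e1]
      have h1 : ∑ y ∈ T, m y / (m a + ∑ x ∈ insert z T, if D x ≤ D y then m x else 0) ≤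
          ∑ y ∈ T, m y / (m a + ∑ x ∈ T, if D x ≤ D y then m x else 0) := by
        refine sum_le_sum fun y _ => div_le_div_of_nonneg_left (hm y) ?_ ?_
        · have : 0 ≤ ∑ x ∈ T, if D x ≤ D y then m x else 0 :=
            sum_nonneg fun x _ => by have := hm x; split_ifs <;> linarith
          linarith
        · rw [sum_insert hz]
          have := hm z
          split_ifs <;> linarith
      have hz0 := hm z
      have p1 : 0 < m a + ∑ y ∈ T, m y := by linarith
      have p2 : 0 < m a + (m z + ∑ y ∈ T, m y) := by linarith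
      have h2 := Real.log_le_sub_one_of_pos (div_pos p1 p2)
      rw [Real.log_div p1.ne' p2.ne'] at h2
      have h3 : (m a + ∑ y ∈ T, m y) / (m a + (m z + ∑ y ∈ T, m y)) - 1 =
          -(m z / (m a + (m z + ∑ y ∈ T, m y))) := by field_simp; ring
      linarith
  have h1 := key (univ.erase a)
  rw [add_sum_erase _ _ (mem_univ a)] at h1
  rw [← add_sum_erase _ _ (mem_univ a)]
  have e : ∀ y, (∑ x, if D x ≤ D y then m x else 0) =
      m a + ∑ x ∈ univ.erase a, if D x ≤ D y then m x else 0 := fun y => by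
    rw [← add_sum_erase _ _ (mem_univ a), if_pos (hD y)]
  simp only [e]
  have : m a / (m a + ∑ x ∈ univ.erase a, if D x ≤ D a then m x else 0) ≤ 1 := by
    have : 0 ≤ ∑ x ∈ univ.erase a, if D x ≤ D a then m x else 0 :=
      sum_nonneg fun x _ => by have := hm x; split_ifs <;> linarith
    rw [div_le_one (by linarith)]; linarith
  linarith

namespace Par

variable {X Ω : Type u} [Fintype X] [DecidableEq X] [MetricSpace X] [Fintype Ω] (A : Par X Ω)

theorem r_succ (j : ℕ) : A.r (j + 1) = 8 * A.r j := by unfold r; ring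

theorem r_mono {i j : ℕ} (h : i ≤ j) : A.r i ≤ A.r j := by
  have := A.hr
  unfold r; gcongr; norm_num

theorem geo_low (x : ℝ) (hx : 0 ≤ x) (n : ℕ) :
    ∑ j ∈ range n, (if A.r j < x then A.r j else 0) ≤ 8 / 7 * x := by
  have : ∑ j ∈ range n, (if A.r j < x then A.r j else 0) ≤ 8 / 7 * x ∧
      ∑ j ∈ range n, (if A.r j < x then A.r j else 0) ≤ A.r n / 7 := by
    induction n with
    | zero => have := A.r_pos 0; simp only [sum_range_zero]; constructor <;> positivity
    | succ n ih =>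
      rw [sum_range_succ, r_succ]
      have := A.r_pos n
      split_ifs <;> constructor <;> linarith [ih.1, ih.2]
  exact this.1

theorem geo_high (x : ℝ) (hx : 0 ≤ x) (n : ℕ) :
    ∑ j ∈ range n, (if x ≤ A.r j then x / A.r j else 0) ≤ 8 / 7 := by
  have : ∑ j ∈ range n, (if x ≤ A.r j then x / A.r j else 0) + 8 / 7 * min 1 (x / A.r n)
      ≤ 8 / 7 := by
    induction n with
    | zero => have := min_le_left 1 (x / A.r 0); simp only [sum_range_zero]; linarith
    | succ n ih =>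
      rw [sum_range_succ, r_succ]
      have hr := A.r_pos n
      split_ifs with h
      · rw [min_eq_right ((div_le_one hr).2 h)] at ih
        have := min_le_right 1 (x / (8 * A.r n))
        have e : x / (8 * A.r n) = x / A.r n / 8 := by field_simp
        linarith
      · rw [min_eq_left ((one_le_div hr).2 (not_le.1 h).le)] at ih
        have := min_le_left 1 (x / (8 * A.r n))
        linarith
  have hr := A.r_pos n
  have : 0 ≤ min 1 (x / A.r n) := le_min zero_le_one (by positivity)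
  linarith

noncomputable def sepL (γ : A.St) (j : Fin (A.J + 1)) (a b : X) : ℝ :=
  A.r₀ / A.G * ∑ ω, A.P ω * ∑ ℓ ∈ range (A.hi j),
    (if A.base j (γ j) ω ℓ a = A.base j (γ j) ω ℓ b then (0 : ℝ) else 1)

noncomputable def contr (γ : A.St) (j : Fin (A.J + 1)) (a b : X) : ℝ :=
  A.L * A.sepL γ j a b + A.r j * (A.phiL j (γ j) b - A.phiL j (γ j) a)

noncomputable def cut (j : Fin (A.J + 1)) (N : List X) (a b : X) : ℝ :=
  ∑ ω, A.P ω * (if A.gp j N ω a = A.gp j N ω b then (0 : ℝ) else 1)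

theorem stretch_le (γ : A.St) (a b : X) :
    stretchF A.P (A.r₀ / A.G) (8 ^ (A.J + 1) * A.G) (A.lab γ) a b ≤ ∑ j, A.sepL γ j a b := by
  have hη : 0 ≤ A.r₀ / A.G := by have := A.hr; positivity
  unfold stretchF sepL
  rw [← mul_sum, sum_comm]
  refine mul_le_mul_of_nonneg_left (sum_le_sum fun ω _ => ?_) hη
  rw [← mul_sum]
  refine mul_le_mul_of_nonneg_left ?_ (A.hP ω)
  have e : ∀ j : Fin (A.J + 1), ∑ ℓ ∈ range (A.hi j),
      (if A.base j (γ j) ω ℓ a = A.base j (γ j) ω ℓ b then (0 : ℝ) else 1) =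
      ∑ ℓ ∈ range (8 ^ (A.J + 1) * A.G), if ℓ < A.hi j then
        (if A.base j (γ j) ω ℓ a = A.base j (γ j) ω ℓ b then (0 : ℝ) else 1) else 0 := by
    intro j
    rw [← sum_filter]
    congr 1
    ext ℓ
    have : A.hi j ≤ 8 ^ (A.J + 1) * A.G := A.hi_mono (Nat.lt_succ_iff.1 j.isLt)
    simp only [mem_range, mem_filter]; omega
  simp only [e]
  rw [sum_comm]
  refine sum_le_sum fun ℓ _ => ?_
  have h0 : ∀ j : Fin (A.J + 1), 0 ≤ (if ℓ < A.hi j then
      (if A.base j (γ j) ω ℓ a = A.base j (γ j) ω ℓ b then (0 : ℝ) else 1) else 0) := fun j => by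
    split_ifs <;> norm_num
  split_ifs with hab
  · exact sum_nonneg fun j _ => h0 j
  · obtain ⟨j, hj⟩ := Function.ne_iff.1 hab
    refine le_trans ?_ (single_le_sum (fun j _ => h0 j) (mem_univ j))
    unfold lab at hj
    by_cases hl : ℓ < A.hi j
    · simp only [if_pos hl, ne_eq, Option.some.injEq] at hj
      rw [if_pos hl, if_neg hj]
    · simp [hl] at hj

variable {A}

theorem sepL_le {γ : A.St} {j : Fin (A.J + 1)} {a b : X} (T : Ω → ℝ) (hT0 : ∀ ω, 0 ≤ T ω)
    (hT : ∀ ω ℓ, ℓ < A.hi j → A.base j (γ j) ω ℓ a ≠ A.base j (γ j) ω ℓ b → 1 ≤ T ω) :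
    A.sepL γ j a b ≤ 8 * A.r j * ∑ ω, A.P ω * T ω := by
  have hη : 0 ≤ A.r₀ / A.G := by have := A.hr; positivity
  rw [← A.eta_hi, mul_assoc, mul_sum _ _ (A.hi j : ℝ)]
  refine mul_le_mul_of_nonneg_left (sum_le_sum fun ω _ => ?_) hη
  have := sum_le_card_nsmul (range (A.hi j))
    (fun ℓ => if A.base j (γ j) ω ℓ a = A.base j (γ j) ω ℓ b then (0 : ℝ) else 1) (T ω)
    fun ℓ hl => by
      split_ifs with h
      · exact hT0 ω
      · exact hT ω ℓ (mem_range.1 hl) h
  rw [card_range, nsmul_eq_mul] at this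
  have := mul_le_mul_of_nonneg_left this (A.hP ω)
  linarith

theorem sepL_core {γ : A.St} {j : Fin (A.J + 1)} {a b : X} {c : Option X}
    (hc : (γ j).f c a ≤ 6 * A.r j) (hd : 2 * dist a b ≤ A.r j) : A.sepL γ j a b ≤ 0 := by
  have hr := A.r_pos j
  have := sepL_le (γ := γ) (j := j) (a := a) (b := b) (fun _ => 0) (fun _ => le_rfl)
    fun ω ℓ hl hne => (hne (by
      have := (γ j).lip c b a
      rw [dist_comm] at this
      unfold base ky
      rw [baseK_core hr (A.thr_ge j ℓ) (A.thr_le hl) (γ j) (c := c) (by linarith),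
        baseK_core hr (A.thr_ge j ℓ) (A.thr_le hl) (γ j) (c := c) (by linarith)])).elim
  simpa using this

theorem contr_crude (γ : A.St) (j : Fin (A.J + 1)) (a b : X) :
    A.contr γ j a b ≤ 338 * A.L * A.r j := by
  have hr := A.r_pos j
  have hL := A.hL
  have h1 := sepL_le (γ := γ) (j := j) (a := a) (b := b) (fun _ => 1) (fun _ => zero_le_one)
    fun _ _ _ _ => le_rfl
  rw [← sum_mul, A.hP1] at h1
  have k1 := mul_le_mul_of_nonneg_left (A.phiL_le j (γ j) b) hr.le
  have k2 := mul_nonneg hr.le (A.phiL_nonneg j (γ j) a)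
  have k3 := mul_le_mul_of_nonneg_left h1 (by linarith : 0 ≤ A.L)
  unfold contr
  linarith

theorem mf_div_lip (j : Fin (A.J + 1)) (s : Lv X (A.r j)) (a b : X) :
    mf s b / A.r j ≤ mf s a / A.r j + dist a b / A.r j := by
  have hr := A.r_pos j
  rw [← add_div]
  have := mf_lip s a b
  gcongr

theorem contr_good {γ : A.St} {j : Fin (A.J + 1)} {a b : X} {c : Option X}
    (hc : (γ j).f c a ≤ 4 * A.r j) (hd : 2 * dist a b ≤ A.r j) :
    A.contr γ j a b ≤ dist a b * (40 * A.L * tt (mf (γ j) a / A.r j) +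
      20 * A.L * (dist a b / A.r j)) := by
  have hr := A.r_pos j
  have hL := A.hL
  have h1 := sepL_core (γ := γ) (c := c) (by linarith) hd
  have h2 := mf_div_lip j (γ j) a b
  have h3 : dist a b / A.r j ≤ 1 / 2 := by rw [div_le_iff₀ hr]; linarith
  have h4 : mf (γ j) a / A.r j ≤ 4 := by
    have := mf_le (γ j) c a
    rw [div_le_iff₀ hr]; linarith
  have h5 := gF_sub (by positivity) h2
  have k3 := mul_le_mul_of_nonneg_left h1 (by linarith : 0 ≤ A.L)
  have k4 := mul_le_mul_of_nonneg_left h5 (by positivity : 0 ≤ A.r j * A.L)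
  have e : dist a b = A.r j * (dist a b / A.r j) := by field_simp
  unfold contr phiL
  rw [chi_zero (s := mf (γ j) a / A.r j) (by linarith),
    chi_zero (s := mf (γ j) b / A.r j) (by linarith)]
  generalize dist a b / A.r j = δ at *
  rw [e]
  linarith

theorem contr_rest {γ : A.St} {j : Fin (A.J + 1)} {a b : X} {lam : ℝ} (hlam : 0 ≤ lam)
    (hcut : A.cut j (γ j).N a b ≤ 4 * lam * (dist a b / A.r j)) (hd : 2 * dist a b ≤ A.r j)
    (hT : (∀ c, 6 * A.r j < (γ j).f c a) → ∃ c ∈ (γ j).N, dist c a ≤ A.r j / 2) :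
    A.contr γ j a b ≤ dist a b * (A.L * (64 * lam + 178)) := by
  have hr := A.r_pos j
  have hL := A.hL
  have hδ : 0 ≤ dist a b / A.r j := by positivity
  have h1 : A.sepL γ j a b ≤ 8 * A.r j * (4 * lam * (dist a b / A.r j)) := by
    by_cases hf : ∀ c, 6 * A.r j < (γ j).f c a
    · obtain ⟨c, hc, hca⟩ := hT hf
      refine (sepL_le (fun ω => if A.gp j (γ j).N ω a = A.gp j (γ j).N ω b then (0 : ℝ) else 1)
        (fun ω => by split_ifs <;> norm_num) fun ω ℓ hl hne => ?_).trans
        (mul_le_mul_of_nonneg_left hcut (by positivity))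
      rw [if_neg]
      intro e
      apply hne
      obtain ⟨p, hp⟩ := Option.ne_none_iff_exists'.1
        (grp_ne_none hr (A.ρ j ω) hc (by linarith : dist c a ≤ A.r j))
      unfold base ky
      unfold gp at e
      rw [key_of_some hp, key_of_some (e.symm.trans hp)]
    · push Not at hf
      obtain ⟨c, hc⟩ := hf
      exact (sepL_core hc hd).trans (by positivity)
  have h2 := mf_div_lip j (γ j) a b
  have h3 := gF_lip hδ h2
  have h4 := chi_lip hδ h2
  have h5 := mar_lip hr a b (γ j).N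
  have h6 : A.unc j (γ j).N b ≤ A.unc j (γ j).N a + A.cut j (γ j).N a b := by
    unfold unc cut
    rw [← sum_add_distrib]
    refine sum_le_sum fun ω _ => ?_
    rw [← mul_add]
    refine mul_le_mul_of_nonneg_left ?_ (A.hP ω)
    by_cases e : A.gp j (γ j).N ω a = A.gp j (γ j).N ω b
    · rw [e]; simp
    · rw [if_neg e]; split_ifs <;> norm_num
  have h7 := A.V_bounds j (γ j).N b
  have c0 := chi_nonneg (mf (γ j) a / A.r j)
  have c1 := chi_le (mf (γ j) a / A.r j)
  have e : dist a b = A.r j * (dist a b / A.r j) := by field_simp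
  have h8 : A.phiL j (γ j) b - A.phiL j (γ j) a ≤
      dist a b / A.r j * (A.L * (32 * lam + 178)) := by
    unfold phiL
    generalize dist a b / A.r j = δ at *
    have k1 := mul_le_mul_of_nonneg_left h3 (by linarith : 0 ≤ A.L)
    have k2 := mul_le_mul_of_nonneg_right h4 h7.1
    have k3 := mul_le_mul_of_nonneg_left h7.2 hδ
    have k4 : 8 * A.L * A.unc j (γ j).N b ≤ 8 * A.L * (A.unc j (γ j).N a + 4 * lam * δ) := by
      gcongr; linarith
    have k5 : 2 * mar (A.r j) b (γ j).N + 8 * A.L * A.unc j (γ j).N b ≤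
        2 * mar (A.r j) a (γ j).N + 8 * A.L * A.unc j (γ j).N a +
          (8 * δ + 32 * A.L * lam * δ) := by linarith
    have k6 := mul_le_mul_of_nonneg_left k5 c0
    have k7 := mul_le_mul_of_nonneg_right c1
      (by positivity : 0 ≤ 8 * δ + 32 * A.L * lam * δ)
    have k8 := mul_le_mul_of_nonneg_left hL hδ
    linarith
  have k3 := mul_le_mul_of_nonneg_left h1 (by linarith : 0 ≤ A.L)
  have k4 := mul_le_mul_of_nonneg_left h8 hr.le
  unfold contr
  generalize dist a b / A.r j = δ at *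
  rw [e]
  linarith

variable {m : X → ℝ} {h : Ω → Finset X → ℝ} {ε : ℝ} {γ : A.St}

theorem Mb_mono (hm : ∀ y, 0 ≤ m y) (a : X) {i j : ℕ} (hij : i ≤ j) :
    A.Mb m a i ≤ A.Mb m a j := by
  refine sum_le_sum fun y _ => ?_
  have := A.r_mono hij
  have := hm y
  split_ifs <;> linarith

theorem Mb_le (hm : ∀ y, 0 ≤ m y) (a : X) (j : ℕ) : A.Mb m a j ≤ ∑ y, m y :=
  sum_le_sum fun y _ => by have := hm y; split_ifs <;> linarith

theorem Eh_nonneg (hh : ∀ ω, HFun A.L (h ω)) (y : X) (n : ℕ) : 0 ≤ A.Eh h γ y n :=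
  sum_nonneg fun ω _ => mul_nonneg (A.hP ω) ((hh ω).nonneg _)

theorem Eh_le (hh : ∀ ω, HFun A.L (h ω)) (y : X) (n : ℕ) : A.Eh h γ y n ≤ A.L := by
  calc _ ≤ ∑ ω, A.P ω * A.L := sum_le_sum fun ω _ =>
        mul_le_mul_of_nonneg_left ((hh ω).le _) (A.hP ω)
    _ = _ := by rw [← sum_mul, A.hP1, one_mul]

theorem Eh_mono (hh : ∀ ω, HFun A.L (h ω)) (y : X) {i j : ℕ} (hij : i ≤ j) :
    A.Eh h γ y i ≤ A.Eh h γ y j :=
  sum_le_sum fun ω _ => mul_le_mul_of_nonneg_left ((hh ω).mono _ _ (cell_mono γ ω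
    (Nat.mul_le_mul_right _ (Nat.pow_le_pow_right (by norm_num) hij)) y)) (A.hP ω)

variable (A m h γ) in
noncomputable def dl (a y : X) (j : ℕ) : ℝ :=
  if dist a y ≤ A.r j then 40 * A.L * (dist a y / A.r j) +
    32 * (A.Eh h γ y (j + 3 - 2) - A.Eh h γ y (j - 2)) else 0

theorem dl_nonneg (hh : ∀ ω, HFun A.L (h ω)) (a y : X) (j : ℕ) : 0 ≤ A.dl h γ a y j := by
  have hr := A.r_pos j
  have hL := A.hL
  have := Eh_mono (γ := γ) hh y (show j - 2 ≤ j + 3 - 2 by omega)
  have : 0 ≤ 40 * A.L * (dist a y / A.r j) := by positivity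
  unfold dl
  split_ifs <;> linarith

theorem sum_dl (hh : ∀ ω, HFun A.L (h ω)) (a y : X) (n : ℕ) :
    ∑ j ∈ range n, A.dl h γ a y j ≤ 142 * A.L := by
  have hL := A.hL
  have h1 := A.geo_high (dist a y) dist_nonneg n
  have h2 := tele_three (fun j => A.Eh h γ y (j - 2)) A.L (fun j => Eh_nonneg hh y _)
    (fun j => Eh_le hh y _) n
  have h3 : ∑ j ∈ range n, A.dl h γ a y j ≤ ∑ j ∈ range n,
      (40 * A.L * (if dist a y ≤ A.r j then dist a y / A.r j else 0) +
        32 * (A.Eh h γ y (j + 3 - 2) - A.Eh h γ y (j - 2))) := by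
    refine sum_le_sum fun j _ => ?_
    have := Eh_mono (γ := γ) hh y (show j - 2 ≤ j + 3 - 2 by omega)
    unfold dl
    split_ifs <;> linarith
  rw [sum_add_distrib, ← mul_sum, ← mul_sum] at h3
  have := mul_le_mul_of_nonneg_left h1 (by linarith : 0 ≤ 40 * A.L)
  linarith

theorem sum_Q (hm : ∀ y, 0 ≤ m y) (hh : ∀ ω, HFun A.L (h ω)) {a : X} (ha : 1 ≤ m a) (n : ℕ) :
    ∑ j ∈ range n, (∑ y, m y * A.dl h γ a y j) / A.Mb m a j ≤
      142 * A.L * (1 + Real.log (∑ y, m y)) := by
  have hL := A.hL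
  have h1 := harm_weights m (fun y => dist a y) hm a ha (by simp)
  have hμ : ∀ y, 1 ≤ ∑ x, if dist a x ≤ dist a y then m x else 0 := fun y => by
    have := single_le_sum (f := fun x => if dist a x ≤ dist a y then m x else 0) (s := univ)
      (fun y _ => by have := hm y; split_ifs <;> linarith) (mem_univ a)
    simp only [dist_self, dist_nonneg, if_true] at this
    exact ha.trans this
  calc _ ≤ ∑ j ∈ range n, ∑ y, m y / (∑ x, if dist a x ≤ dist a y then m x else 0) *
        A.dl h γ a y j := by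
        refine sum_le_sum fun j _ => ?_
        rw [sum_div]
        refine sum_le_sum fun y _ => ?_
        by_cases hy : dist a y ≤ A.r j
        · rw [mul_div_right_comm]
          refine mul_le_mul_of_nonneg_right (div_le_div_of_nonneg_left (hm y)
            (by linarith [hμ y]) (sum_le_sum fun x _ => ?_)) (dl_nonneg hh a y j)
          have := hm x
          split_ifs <;> linarith
        · simp [dl, hy]
    _ ≤ ∑ y, m y / (∑ x, if dist a x ≤ dist a y then m x else 0) * (142 * A.L) := by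
        rw [sum_comm]
        refine sum_le_sum fun y _ => ?_
        rw [← mul_sum]
        exact mul_le_mul_of_nonneg_left (sum_dl hh a y n) (div_nonneg (hm y) (by linarith [hμ y]))
    _ ≤ _ := by
        rw [← sum_mul, mul_comm]
        gcongr

theorem contr_le (ho : A.Opt m h ε γ) (hm : ∀ y, 0 ≤ m y) (hh : ∀ ω, HFun A.L (h ω))
    (hε0 : 0 ≤ ε) (hε : ε < A.r₀) {lam : ℝ} (hlam : 0 ≤ lam) {a b : X} (ha : 1 ≤ m a)
    (hab : 24 * A.r₀ < dist a b) (j : Fin (A.J + 1))
    (hcut : A.cut j (γ j).N a b ≤ 4 * lam * (dist a b / A.r j)) :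
    A.contr γ j a b ≤ 338 * A.L * (if A.r j < 2 * dist a b then A.r j else 0) +
      dist a b * (10 * A.L * (if 2 * dist a b ≤ A.r j then 2 * dist a b / A.r j else 0) +
        (32 * A.G * ε / A.r₀ + A.L / A.G) + 33 * (A.L * (64 * lam + 178)) *
          (Real.log (A.Mb m a (j + 3)) - Real.log (A.Mb m a j)) +
        (∑ y, m y * A.dl h γ a y j) / A.Mb m a j) := by
  have hr := A.r_pos j
  have hr0 := A.hr
  have hL := A.hL
  have hG := A.G_pos
  have M1 := one_le_Mb (A := A) hm ha j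
  have M3 := Mb_mono (A := A) hm a (show (j : ℕ) ≤ j + 3 by omega)
  have d0 : 0 ≤ dist a b := dist_nonneg
  have q0 : 0 ≤ (∑ y, m y * A.dl h γ a y j) / A.Mb m a j :=
    div_nonneg (sum_nonneg fun y _ => mul_nonneg (hm y) (dl_nonneg hh a y j)) (by linarith)
  have l1 : 1 - A.Mb m a j / A.Mb m a (j + 3) ≤
      Real.log (A.Mb m a (j + 3)) - Real.log (A.Mb m a j) := by
    have := Real.log_le_sub_one_of_pos (div_pos (by linarith : 0 < A.Mb m a j)
      (by linarith : 0 < A.Mb m a (j + 3)))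
    rw [Real.log_div (by linarith) (by linarith)] at this
    linarith
  have l0 : 0 ≤ Real.log (A.Mb m a (j + 3)) - Real.log (A.Mb m a j) :=
    sub_nonneg.2 (Real.log_le_log (by linarith) M3)
  have c0 : 0 ≤ 32 * A.G * ε / A.r₀ + A.L / A.G := by positivity
  have c1 : A.L * 178 ≤ A.L * (64 * lam + 178) := by gcongr; linarith
  generalize Real.log (A.Mb m a (j + 3)) - Real.log (A.Mb m a j) = lj at *
  have c2 : 0 ≤ 33 * (A.L * (64 * lam + 178)) * lj := by positivity
  by_cases hd : A.r j < 2 * dist a b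
  · rw [if_pos hd, if_neg (not_le.2 hd)]
    have := contr_crude γ j a b
    have := mul_nonneg d0 (add_nonneg (add_nonneg c0 c2) q0)
    linarith
  rw [if_neg hd]
  have hd := not_lt.1 hd
  rw [if_pos hd, mul_zero, zero_add]
  have δ0 : 0 ≤ 10 * A.L * (2 * dist a b / A.r j) := by positivity
  have hnh : ¬ A.Mb m a (j + 3) ≤ 33 / 32 * A.Mb m a j → 1 ≤ 33 * lj := fun hv => by
    have : A.Mb m a j / A.Mb m a (j + 3) ≤ 32 / 33 := by
      rw [div_le_iff₀ (by linarith)]; linarith [not_le.1 hv]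
    linarith
  by_cases hg : ∃ c, (γ j).f c a ≤ 4 * A.r j
  · obtain ⟨c, hc⟩ := hg
    refine (contr_good hc hd).trans (mul_le_mul_of_nonneg_left ?_ d0)
    have e : 20 * A.L * (dist a b / A.r j) = 10 * A.L * (2 * dist a b / A.r j) := by ring
    rw [e]
    by_cases hv : A.Mb m a (j + 3) ≤ 33 / 32 * A.Mb m a j
    · have hj : 2 ≤ (j : ℕ) := by
        by_contra hj
        have := A.r_mono (show (j : ℕ) ≤ 1 by omega)
        have e1 : A.r 1 = 8 * A.r₀ := by unfold r; ring
        linarith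
      obtain ⟨i, hi⟩ : ∃ i, (j : ℕ) = i + 2 := ⟨j - 2, by omega⟩
      have h1 := test_drift ho hm hh j hi hc
      have e2 : ∑ y, (if dist a y ≤ A.r j then m y * (40 * A.L * (dist a y / A.r j) +
          32 * (A.Eh h γ y (i + 3) - A.Eh h γ y i)) else 0) = ∑ y, m y * A.dl h γ a y j := by
        refine sum_congr rfl fun y _ => ?_
        unfold dl
        rw [show (j : ℕ) + 3 - 2 = i + 3 by omega, show (j : ℕ) - 2 = i by omega]
        split_ifs <;> simp
      rw [e2] at h1
      have h2 : 32 * A.G * ε / A.r j ≤ 32 * A.G * ε / A.r₀ * A.Mb m a j := by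
        have : 32 * A.G * ε / A.r j ≤ 32 * A.G * ε / A.r₀ :=
          div_le_div_of_nonneg_left (by positivity) hr0 (A.r₀_le j)
        have h0 : 0 ≤ 32 * A.G * ε / A.r₀ := by positivity
        nlinarith
      have h3 : A.Mb m a (j + 3) - A.Mb m a j ≤ 2 * lj * A.Mb m a j := by
        have k1 := mul_le_mul_of_nonneg_right l1 (by linarith : 0 ≤ A.Mb m a (j + 3))
        rw [sub_mul, div_mul_cancel₀ _ (by linarith)] at k1
        nlinarith
      have h4 : 744 * A.L * (A.Mb m a (j + 3) - A.Mb m a j) ≤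
          33 * (A.L * (64 * lam + 178)) * lj * A.Mb m a j := by
        have k1 := mul_le_mul_of_nonneg_left h3 (by linarith : 0 ≤ 744 * A.L)
        have k2 := mul_le_mul_of_nonneg_right c1
          (mul_nonneg l0 (by linarith : 0 ≤ A.Mb m a j))
        have k3 : 0 ≤ A.L * (lj * A.Mb m a j) := by positivity
        linarith
      have h5 : 40 * A.L * tt (mf (γ j) a / A.r j) ≤ (32 * A.G * ε / A.r₀ + A.L / A.G) +
          33 * (A.L * (64 * lam + 178)) * lj + (∑ y, m y * A.dl h γ a y j) / A.Mb m a j := by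
        refine le_of_mul_le_mul_right ?_ (by linarith : 0 < A.Mb m a j)
        rw [add_mul, div_mul_cancel₀ _ (by linarith)]
        linarith
      linarith
    · have h1 := hnh hv
      have h4 : mf (γ j) a / A.r j ≤ 4 := by
        have := mf_le (γ j) c a
        rw [div_le_iff₀ hr]; linarith
      have h2 := mul_le_mul_of_nonneg_left (tt_le_two h4) (by linarith : 0 ≤ 40 * A.L)
      have h3 := mul_le_mul_of_nonneg_left h1 (by linarith : 0 ≤ A.L * (64 * lam + 178))
      linarith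
  · have h1 := hnh fun hv => hg (test_heavy ho hm hh hε j ha hv)
    refine (contr_rest hlam hcut hd (test_append ho hm hh hε j ha)).trans
      (mul_le_mul_of_nonneg_left ?_ d0)
    have h3 := mul_le_mul_of_nonneg_left h1 (by linarith : 0 ≤ A.L * (64 * lam + 178))
    linarith

theorem lip_main (ho : A.Opt m h ε γ) (hm : ∀ y, 0 ≤ m y) (hh : ∀ ω, HFun A.L (h ω))
    (hε0 : 0 ≤ ε) (hε : ε * (32 * A.G * A.G) ≤ A.r₀) (hJ : A.J + 1 ≤ A.G) {lam M : ℝ}
    (hM : ∑ y, m y ≤ M) (hlam : 1 ≤ lam) (hlM : Real.log M ≤ lam)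
    (hsep : ∀ x y : X, dist x y ≤ 24 * A.r₀ → x = y)
    (hcut : ∀ (j : Fin (A.J + 1)) (N : List X), N.Nodup → (N.length : ℝ) ≤ 52 * M * A.L →
      ∀ a b, a ≠ b → A.cut j N a b ≤ 4 * lam * (dist a b / A.r j))
    (a b : X) (ha : 1 ≤ m a) :
    A.L * stretchF A.P (A.r₀ / A.G) (8 ^ (A.J + 1) * A.G) (A.lab γ) a b + A.phi γ b - A.phi γ a
      ≤ 30000 * A.L * lam ^ 2 * dist a b := by
  by_cases hab : a = b
  · subst hab; simp [stretchF]
  have hL := A.hL
  have hr0 := A.hr
  have hG : (10 : ℝ) ≤ A.G := by exact_mod_cast A.hG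
  have d0 : 0 ≤ dist a b := dist_nonneg
  have hε2 : ε ≤ A.r₀ / 2 := by nlinarith [mul_le_mul hG hG (by norm_num) (by linarith)]
  have h1 : A.L * stretchF A.P (A.r₀ / A.G) (8 ^ (A.J + 1) * A.G) (A.lab γ) a b + A.phi γ b -
      A.phi γ a ≤ ∑ j, A.contr γ j a b := by
    have := mul_le_mul_of_nonneg_left (A.stretch_le γ a b) (by linarith : 0 ≤ A.L)
    unfold contr phi
    simp only [mul_sub]
    rw [sum_add_distrib, sum_sub_distrib, ← mul_sum]
    linarith
  have h2 := sum_le_sum fun j (_ : j ∈ univ) => contr_le ho hm hh hε0 (by linarith)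
    (by linarith : 0 ≤ lam) ha (lt_of_not_ge fun e => hab (hsep a b e)) j
    (hcut j _ (γ j).nodup (test_delete ho hm hh hε2 hM j) a b hab)
  rw [Fin.sum_univ_eq_sum_range (fun j : ℕ => 338 * A.L * (if A.r j < 2 * dist a b then A.r j else 0) +
      dist a b * (10 * A.L * (if 2 * dist a b ≤ A.r j then 2 * dist a b / A.r j else 0) +
        (32 * A.G * ε / A.r₀ + A.L / A.G) + 33 * (A.L * (64 * lam + 178)) *
          (Real.log (A.Mb m a (j + 3)) - Real.log (A.Mb m a j)) +
        (∑ y, m y * A.dl h γ a y j) / A.Mb m a j)), sum_add_distrib, ← mul_sum, ← mul_sum,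
    sum_add_distrib, sum_add_distrib, sum_add_distrib, ← mul_sum, ← mul_sum, sum_const, card_range,
    nsmul_eq_mul] at h2
  have g1 := A.geo_low (2 * dist a b) (by linarith) (A.J + 1)
  have g2 := A.geo_high (2 * dist a b) (by linarith) (A.J + 1)
  have m1 : 1 ≤ ∑ y, m y := (one_le_Mb (A := A) hm ha 0).trans (Mb_le hm a 0)
  have lm : Real.log (∑ y, m y) ≤ lam := (Real.log_le_log (by linarith) hM).trans hlM
  have g3 := tele_three (fun j => Real.log (A.Mb m a j)) lam
    (fun j => Real.log_nonneg (one_le_Mb hm ha j))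
    (fun j => (Real.log_le_log (by linarith [one_le_Mb (A := A) hm ha j]) (Mb_le hm a j)).trans lm)
    (A.J + 1)
  have g4 := sum_Q (γ := γ) hm hh ha (A.J + 1)
  have g5 : ((A.J + 1 : ℕ) : ℝ) * (32 * A.G * ε / A.r₀ + A.L / A.G) ≤ 1 + A.L := by
    have hJ' : ((A.J + 1 : ℕ) : ℝ) ≤ A.G := by exact_mod_cast hJ
    have e1 : (A.G : ℝ) * (32 * A.G * ε / A.r₀) ≤ 1 := by
      rw [← mul_div_assoc, div_le_one hr0]; linarith
    have e2 : (A.G : ℝ) * (A.L / A.G) = A.L := by field_simp
    have : 0 ≤ 32 * A.G * ε / A.r₀ + A.L / A.G := by positivity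
    nlinarith
  have k1 := mul_le_mul_of_nonneg_left g1 (by linarith : 0 ≤ 338 * A.L)
  have k2 := mul_le_mul_of_nonneg_left g2 (by linarith : 0 ≤ 10 * A.L)
  have k3 := mul_le_mul_of_nonneg_left g3 (by positivity : 0 ≤ 33 * (A.L * (64 * lam + 178)))
  have k4 : 142 * A.L * (1 + Real.log (∑ y, m y)) ≤ 142 * A.L * (1 + lam) := by gcongr
  have l1 : A.L ≤ A.L * lam := by nlinarith
  have l2 : A.L * lam ≤ A.L * lam ^ 2 := by nlinarith
  have k5 := mul_le_mul_of_nonneg_left (show
    10 * A.L * ∑ j ∈ range (A.J + 1), (if 2 * dist a b ≤ A.r j then 2 * dist a b / A.r j else 0) +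
    ((A.J + 1 : ℕ) : ℝ) * (32 * A.G * ε / A.r₀ + A.L / A.G) +
    33 * (A.L * (64 * lam + 178)) * ∑ j ∈ range (A.J + 1),
      (Real.log (A.Mb m a (j + 3)) - Real.log (A.Mb m a j)) +
    ∑ j ∈ range (A.J + 1), (∑ y, m y * A.dl h γ a y j) / A.Mb m a j ≤
      29000 * (A.L * lam ^ 2) by nlinarith) d0
  have k6 := mul_le_mul_of_nonneg_right (l1.trans l2) d0
  have k7 : 0 ≤ A.L * dist a b := by positivity
  linarith

end Par

end Vale.Agent.P304
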