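import Vale.Agent.P304.Geom5

namespace Vale.Agent.P304

open Finset

universe u

theorem exists_geoSys (X : Type u) [Fintype X] [DecidableEq X] [MetricSpace X] (x₀ : X)
    {L M : ℝ} (hL : 1 ≤ L) (hM : 1 ≤ M) :
    Nonempty (GeoSys X x₀ L M (30000 * L * Real.log (104 * M * L) ^ 2)) := by
  classical
  obtain ⟨r₀, hr, hsep⟩ : ∃ r₀ : ℝ, 0 < r₀ ∧ ∀ x y : X, dist x y ≤ 24 * r₀ → x = y := by
    have : Nonempty (X × X) := ⟨(x₀, x₀)⟩
    obtain ⟨p, hp⟩ := Finite.exists_min fun p : X × X => if p.1 = p.2 then 1 else dist p.1 p.2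
    have h0 : 0 < (if p.1 = p.2 then 1 else dist p.1 p.2) := by
      split_ifs with h
      · exact one_pos
      · exact dist_pos.2 h
    refine ⟨(if p.1 = p.2 then 1 else dist p.1 p.2) / 48, by positivity, fun x y hxy => ?_⟩
    by_contra hne
    have := hp (x, y)
    simp only [if_neg hne] at this
    linarith
  obtain ⟨J, hJ⟩ : ∃ J : ℕ, ∀ x y : X, dist x y ≤ 24 * (8 ^ (J + 1) * r₀) := by
    have : Nonempty (X × X) := ⟨(x₀, x₀)⟩
    obtain ⟨p, hp⟩ := Finite.exists_max fun p : X × X => dist p.1 p.2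
    obtain ⟨J, hJ⟩ := pow_unbounded_of_one_lt (dist p.1 p.2 / r₀) (by norm_num : (1 : ℝ) < 8)
    refine ⟨J, fun x y => (hp (x, y)).trans ?_⟩
    rw [div_lt_iff₀ hr] at hJ
    have : 0 < (8 : ℝ) ^ J * r₀ := by positivity
    rw [pow_succ]; nlinarith
  obtain ⟨lam, hlam⟩ : ∃ lam, lam = Real.log (104 * M * L) := ⟨_, rfl⟩
  have hML : 1 ≤ M * L := by nlinarith
  have hl1 : 1 ≤ lam := by
    rw [hlam, Real.le_log_iff_exp_le (by nlinarith)]
    have := Real.exp_one_lt_d9
    nlinarith
  have hlM : Real.log M ≤ lam := by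
    rw [hlam]; exact Real.log_le_log (by linarith) (by nlinarith)
  obtain ⟨G, hG⟩ : ∃ G : ℕ, G = 8 ^ J + J + 10 + ⌈lam⌉₊ := ⟨_, rfl⟩
  have h8J : 0 < 8 ^ J := by positivity
  have hG10 : 10 ≤ G := by omega
  have hGl : lam < G := by
    have := Nat.le_ceil lam
    have h2 : ⌈lam⌉₊ + 1 ≤ G := by omega
    have h3 : ((⌈lam⌉₊ + 1 : ℕ) : ℝ) ≤ G := by exact_mod_cast h2
    push_cast at h3; linarith
  obtain ⟨p, hp0, hp1, hp⟩ := exists_dist G lam (52 * M * L) (by nlinarith) (by linarith) hGl (by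
    rw [hlam, Real.exp_log (by nlinarith)]; linarith)
  let A : Par X (Fin (J + 1) × X → Fin G) :=
    { J := J, G := G, r₀ := r₀, L := L, P := fun ω => ∏ t, p (ω t)
      ρ := fun j ω c => ω (j, c), hG := hG10, hr := hr, hL := hL
      hP := fun ω => prod_nonneg fun t _ => (hp0 _).le
      hP1 := sum_prod_one p hp1 }
  have hGp : (0 : ℝ) < G := A.G_pos
  let γ₀ : A.St := fun j =>
    { N := [], nodup := List.nodup_nil
      f := fun c x => dist x₀ x + (if c = none then 0 else 30 * A.r j)
      lip := fun c x y => by have := dist_triangle_right x₀ x y; linarith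
      kat := fun c x y => by
        have := dist_triangle_left x y x₀
        have := A.r_pos j
        split_ifs <;> linarith
      far := fun c c' x hc => by
        have := dist_nonneg (x := x₀) (y := x)
        have := A.r_pos j
        split_ifs with h1 h2
        · exact absurd (h1.trans h2.symm) hc
        all_goals linarith }
  rw [← hlam]
  refine ⟨{
    St := A.St, Ω := Fin (J + 1) × X → Fin G, Lab := A.Lab, P := A.P
    P_pos := fun ω => prod_pos fun t _ => hp0 _
    P_sum := A.hP1, J := J, G := G, G_pos := by omega, r₀ := r₀, r₀_pos := hr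
    lab := A.lab
    nested := fun γ ω ℓ ℓ' x y hl h => A.nested γ ω hl h
    diam := fun γ ω j ℓ x y hj hl h => A.diam h ⟨j, Nat.lt_succ_of_le hj⟩ hl
    sep := hsep, top := hJ, ν := A.nu, φ := A.phi
    ν_nonneg := fun γ => sum_nonneg fun j _ => mul_nonneg (A.r_pos j).le (Nat.cast_nonneg _)
    φ_nonneg := fun γ x => sum_nonneg fun j _ => mul_nonneg (A.r_pos j).le (A.phiL_nonneg j _ x)
    γ₀ := γ₀
    ν_init := by simp [Par.nu, γ₀]
    φ_init := ?_
    ε := r₀ / (32 * G * G)
    ε_pos := by positivity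
    lip := fun m h γ hm hmM hh ho a b ha => ?_ }⟩
  · refine sum_eq_zero fun j _ => ?_
    have h1 : mf (γ₀ j) x₀ / A.r j ≤ 0 := by
      have := mf_le (γ₀ j) none x₀
      refine div_nonpos_of_nonpos_of_nonneg ?_ (A.r_pos j).le
      simpa [γ₀] using this
    unfold Par.phiL gF
    rw [tt_zero (by linarith), chi_zero (by linarith)]
    ring
  · refine Par.lip_main (A := A) ho hm hh (by positivity) (le_of_eq ?_) (by change J + 1 ≤ G; omega)
      hmM hl1 hlM hsep (fun j N hN hlen a b hab => ?_) a b ha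
    · change r₀ / (32 * G * G) * (32 * G * G) = r₀
      field_simp
    · have hrj := A.r_pos j
      have hd : 24 * r₀ < dist a b := lt_of_not_ge fun e => hab (hsep a b e)
      have h8 : (8 : ℝ) ^ (j : ℕ) ≤ G := by
        have : 8 ^ (j : ℕ) ≤ 8 ^ J := Nat.pow_le_pow_right (by norm_num) (Nat.lt_succ_iff.1 j.isLt)
        have : 8 ^ (j : ℕ) ≤ G := by omega
        exact_mod_cast this
      have := cut_bound (fun c : X => (j, c)) (fun c c' e => (Prod.ext_iff.1 e).2) p lam
        (52 * M * L) (A.r j) (by nlinarith) (by linarith) hrj (fun i => (hp0 i).le) hp1 hp a b (by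
          change 8 ^ (j : ℕ) * r₀ ≤ _
          nlinarith) N hN
      refine le_trans this ?_
      have h1 : (N.length : ℝ) / (52 * M * L) ≤ 1 := (div_le_one (by nlinarith)).2 hlen
      have h2 : 0 ≤ 2 * lam * dist a b / A.r j := by positivity
      have e : 4 * lam * (dist a b / A.r j) = 2 * lam * dist a b / A.r j * 2 := by ring
      rw [e]
      gcongr; linarith

end Vale.Agent.P304
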