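import Vale.Agent.P304.Feas

namespace Vale.Agent.P304

open Finset

universe u

section eager

variable {X : Type*} [MetricSpace X] {k : ℕ}

/-- Each server waits at the next request that it will serve. -/
def eagerL1 : (Fin k → X) → List (X × Fin k) → Fin k → X
  | s, [] => s
  | s, a :: l => Function.update (eagerL1 (Function.update s a.2 a.1) l) a.2 a.1

/-- The movement of the eager service after its initial placement. -/
noncomputable def movesL1 : (Fin k → X) → List (X × Fin k) → ℝ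
  | _, [] => 0
  | s, a :: l => dist a.1 (eagerL1 (Function.update s a.2 a.1) l a.2) +
      movesL1 (Function.update s a.2 a.1) l

/-- The lazy configuration after the first request. -/
def advL1 : (Fin k → X) → List (X × Fin k) → Fin k → X
  | s, [] => s
  | s, a :: _ => Function.update s a.2 a.1

theorem movesL1_nonneg (l : List (X × Fin k)) : ∀ s, 0 ≤ movesL1 s l := by
  induction l with
  | nil => exact fun _ => le_rfl
  | cons a l ih => exact fun s => add_nonneg dist_nonneg (ih _)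

theorem mv_update_L1 {P : Type*} [Fintype P] [DecidableEq P] (s E : P → X) (i : P) (r : X) :
    mv s (Function.update E i r) + dist r (E i) =
      dist (s i) r + mv (Function.update s i r) E := by
  unfold mv
  rw [← add_sum_erase _ _ (mem_univ i), ← add_sum_erase _ (fun p => dist (Function.update s i r p)
    (E p)) (mem_univ i), Function.update_self, Function.update_self,
    sum_congr rfl fun p hp => by rw [Function.update_of_ne (ne_of_mem_erase hp)],
    sum_congr rfl fun p (hp : p ∈ univ.erase i) =>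
      show dist (Function.update s i r p) (E p) = dist (s p) (E p) by
        rw [Function.update_of_ne (ne_of_mem_erase hp)]]
  ring

theorem exists_eagerL1 (hk : 0 < k) (σ : List X) : ∀ s : Fin k → X, ∃ l : List (X × Fin k),
    l.map Prod.fst = σ ∧ mv s (eagerL1 s l) + movesL1 s l = opt s σ := by
  induction σ with
  | nil => exact fun s => ⟨[], rfl, by simp [eagerL1, movesL1, opt, mv_self]⟩
  | cons r σ ih =>
    intro s
    have : Nonempty (Fin k) := ⟨⟨0, hk⟩⟩
    obtain ⟨i, hi⟩ := Finite.exists_min fun i => dist (s i) r + opt (Function.update s i r) σ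
    obtain ⟨l, h1, h2⟩ := ih (Function.update s i r)
    refine ⟨(r, i) :: l, by simp [h1], ?_⟩
    have e : opt s (r :: σ) = dist (s i) r + opt (Function.update s i r) σ :=
      le_antisymm (ciInf_le (Finite.bddBelow_range _) i) (le_ciInf hi)
    have := mv_update_L1 s (eagerL1 (Function.update s i r) l) i r
    simp only [eagerL1, movesL1]
    linarith

end eager

theorem pD_pos_L1 (k : ℕ) : 0 < pD k := by unfold pD; omega

theorem pc_pos_L1 (k : ℕ) : 0 < pc k := by
  have : (0 : ℝ) < pD k := by exact_mod_cast pD_pos_L1 k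
  unfold pc; positivity

section main

variable {X : Type u} [Fintype X] [DecidableEq X] [MetricSpace X] {x₀ : X} {k : ℕ} {L K : ℝ}
  (S : GeoSys X x₀ L k K) {P : Type} [Fintype P] {ι : Type u} [Fintype ι]

/-- The tree part of the potential in the sample `ω`. -/
noncomputable def slabL1 (g : S.St) (ω : S.Ω) (y : P → X) (w : ι → ℝ) (C : ι → Fin k → X) : ℝ :=
  S.r₀ / S.G * ∑ ℓ ∈ range (8 ^ (S.J + 1) * S.G), slabI k (pQ k) (pD k) w C y (S.lab g ω ℓ)

/-- The potential. -/
noncomputable def potL1 (g : S.St) (z : S.Ω → P → X) (w : ι → ℝ) (C : ι → Fin k → X) : ℝ :=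
  ∑ ω, S.P ω * slabL1 S g ω (z ω) w C + (∑ s, w s) * S.ν g + ∑ s, w s * ∑ i, S.φ g (C s i)

theorem eta_pos_L1 : 0 < S.r₀ / S.G := div_pos S.r₀_pos (by exact_mod_cast S.G_pos)

theorem potL1_nonneg (hP : Fintype.card P = k * pQ k) {w : ι → ℝ} (hw : ∀ s, 0 ≤ w s)
    (g : S.St) (z : S.Ω → P → X) (C : ι → Fin k → X) : 0 ≤ potL1 S g z w C :=
  add_nonneg (add_nonneg (sum_nonneg fun ω _ => mul_nonneg (S.P_pos ω).le (mul_nonneg
    (eta_pos_L1 S).le (sum_nonneg fun _ _ => slabI_nonneg (pD_pos_L1 k) hP hw _ _ _)))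
    (mul_nonneg (sum_nonneg fun s _ => hw s) (S.ν_nonneg g)))
    (sum_nonneg fun s _ => mul_nonneg (hw s) (sum_nonneg fun _ _ => S.φ_nonneg g _))

theorem potL1_init (hP : Fintype.card P = k * pQ k) {w : ι → ℝ} (hw : ∀ s, 0 ≤ w s) :
    potL1 S S.γ₀ (fun _ (_ : P) => x₀) w (fun _ _ => x₀) ≤ 0 := by
  simp only [potL1, S.ν_init, S.φ_init, mul_zero, add_zero, sum_const_zero]
  exact sum_nonpos fun ω _ => mul_nonpos_of_nonneg_of_nonpos (S.P_pos ω).le
    (mul_nonpos_of_nonneg_of_nonpos (eta_pos_L1 S).le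
      (sum_nonpos fun _ _ => slabI_init (pD_pos_L1 k) hP hw _ _))

theorem potL1_split {T : Type*} [Fintype T] (w : T → ι → ℝ) (g : S.St) (z : S.Ω → P → X)
    (C : ι → Fin k → X) : ∑ t, potL1 S g z (w t) C ≤ potL1 S g z (fun s => ∑ t, w t s) C := by
  simp only [potL1, sum_add_distrib]
  refine add_le_add (add_le_add ?_ (le_of_eq ?_)) (le_of_eq ?_)
  · rw [sum_comm]
    refine sum_le_sum fun ω _ => ?_
    simp only [slabL1, ← mul_sum]
    refine mul_le_mul_of_nonneg_left (mul_le_mul_of_nonneg_left ?_ (eta_pos_L1 S).le)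
      (S.P_pos ω).le
    rw [sum_comm]
    exact sum_le_sum fun _ _ => slabI_split w C _ _
  · rw [← sum_mul, sum_comm]
  · rw [sum_comm]
    exact sum_congr rfl fun s _ => (sum_mul _ _ _).symm

theorem potL1_move (hP : Fintype.card P = k * pQ k) (hk : 2 ≤ k) (hL : harm (k * pQ k) ≤ L)
    {w : ι → ℝ} (hw : ∀ s, 0 ≤ w s) (hW : 0 < ∑ s, w s) {g : S.St} {z : S.Ω → P → X}
    {C C' : ι → Fin k → X} {e : ℝ} (he : e ≤ S.ε)
    (hg : ∀ g', potL1 S g z w C ≤ potL1 S g' z w C + e * ∑ s, w s)
    (hC : ∀ s, w s ≠ 0 → ∀ i, C' s i = C s i ∨ ∀ s', w s' ≠ 0 → ∃ i', C s' i' = C s i) :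
    potL1 S g z w C' ≤ potL1 S g z w C + K * ∑ s, w s * mv (C s) (C' s) := by
  have hL' : harm (pQ k) ≤ L := (harm_mono (Nat.le_mul_of_pos_left _ (by omega))).trans hL
  have hη := eta_pos_L1 S
  have hm : ∀ f : X → ℝ, ∑ y, massI w C y / (∑ s, w s) * f y =
      (∑ y, massI w C y * f y) / ∑ s, w s := fun f => by
    rw [sum_div]; exact sum_congr rfl fun y _ => by ring
  have lip := S.lip (fun y => massI w C y / ∑ s, w s) (fun ω T => harm (cnt (z ω) T)) g
    (fun y => div_nonneg (sum_nonneg fun s _ => mul_nonneg (hw s) (Nat.cast_nonneg _)) hW.le)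
    (by
      have := hm fun _ => 1
      rw [sum_massI] at this
      simp only [mul_one, sum_const, card_univ, Fintype.card_fin, nsmul_eq_mul, ← sum_mul] at this
      rw [this, mul_div_cancel_left₀ _ hW.ne'])
    (fun ω => hfun_harm (hP ▸ hL) (z ω))
    (fun g' => by
      have a1 := hg g'
      have a2 : ∑ ω, S.P ω * slabL1 S g' ω (z ω) w C ≤ ∑ ω, S.P ω * slabL1 S g ω (z ω) w C +
          jumpF S.P (S.r₀ / S.G) (8 ^ (S.J + 1) * S.G) L (fun y => massI w C y / ∑ s, w s)
            (fun ω T => harm (cnt (z ω) T)) (S.lab g) (S.lab g') * ∑ s, w s := by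
        simp only [jumpF, hm, ← sum_div]
        rw [mul_sum _ _ (S.r₀ / S.G), sum_mul, ← sum_add_distrib]
        refine sum_le_sum fun ω _ => ?_
        have := mul_le_mul_of_nonneg_left (sum_le_sum fun ℓ (_ : ℓ ∈ range (8 ^ (S.J + 1) * S.G)) =>
          slabI_jump (pD_pos_L1 k) hL' hw C (z ω) (S.lab g ω ℓ) (S.lab g' ω ℓ))
          (mul_pos (S.P_pos ω) hη).le
        rw [sum_add_distrib] at this
        rw [mul_assoc, mul_assoc, div_mul_cancel₀ _ hW.ne']
        simp only [slabL1]
        linarith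
      have a3 := mul_le_mul_of_nonneg_right he hW.le
      simp only [potL1] at a1
      simp only [hm, sum_massI]
      refine le_of_mul_le_mul_right ?_ hW
      simp only [add_mul, div_mul_cancel₀ _ hW.ne']
      linarith)
  have key : ∀ s, w s * ∑ i, (L * stretchF S.P (S.r₀ / S.G) (8 ^ (S.J + 1) * S.G) (S.lab g)
      (C s i) (C' s i) + S.φ g (C' s i) - S.φ g (C s i)) ≤ K * (w s * mv (C s) (C' s)) := by
    intro s
    by_cases h0 : w s = 0
    · simp [h0]
    rw [mul_left_comm, mv, mul_sum _ _ K]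
    refine mul_le_mul_of_nonneg_left (sum_le_sum fun i _ => ?_) (hw s)
    rcases hC s h0 i with h | h
    · simp [h, stretchF]
    · refine lip _ _ ((one_le_div hW).2 (sum_le_sum fun s' _ => ?_))
      by_cases h1 : w s' = 0
      · simp [h1]
      · obtain ⟨i', hi'⟩ := h s' h1
        refine le_mul_of_one_le_right (hw s') ?_
        have : 0 < cnt (C s') {C s i} := card_pos.2 ⟨i', by simp [hi']⟩
        exact_mod_cast this
  have a4 : ∑ ω, S.P ω * slabL1 S g ω (z ω) w C' ≤ ∑ ω, S.P ω * slabL1 S g ω (z ω) w C +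
      ∑ s, w s * ∑ i, L * stretchF S.P (S.r₀ / S.G) (8 ^ (S.J + 1) * S.G) (S.lab g)
        (C s i) (C' s i) := by
    have e : ∑ s, w s * ∑ i, L * stretchF S.P (S.r₀ / S.G) (8 ^ (S.J + 1) * S.G) (S.lab g)
        (C s i) (C' s i) = ∑ ω, S.P ω * (S.r₀ / S.G * ∑ ℓ ∈ range (8 ^ (S.J + 1) * S.G),
          L * ∑ s, w s * ∑ i,
            (if S.lab g ω ℓ (C s i) = S.lab g ω ℓ (C' s i) then (0 : ℝ) else 1)) := by
      simp only [stretchF, mul_sum]
      rw [sum_congr rfl fun s _ => sum_comm, sum_comm]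
      refine sum_congr rfl fun ω _ => ?_
      rw [sum_congr rfl fun s _ => sum_comm, sum_comm]
      exact sum_congr rfl fun ℓ _ => sum_congr rfl fun s _ => sum_congr rfl fun i _ => by ring
    rw [e, ← sum_add_distrib]
    refine sum_le_sum fun ω _ => ?_
    rw [← mul_add, slabL1, slabL1, ← mul_add, ← sum_add_distrib]
    exact mul_le_mul_of_nonneg_left (mul_le_mul_of_nonneg_left (sum_le_sum fun ℓ _ =>
      slabI_move (pD_pos_L1 k) hL' hw C C' _ _) hη.le) (S.P_pos ω).le
  have a5 := sum_le_sum fun s (_ : s ∈ univ) => key s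
  simp only [sum_sub_distrib, sum_add_distrib, mul_sub, mul_add, ← mul_sum _ _ K] at a5
  simp only [potL1]
  linarith

theorem prox_L1 [DecidableEq P] (hP : Fintype.card P = k * pQ k) (hk : 2 ≤ k)
    {w : ι → ℝ} (hw : ∀ s, 0 ≤ w s) (hW : 0 < ∑ s, w s) (g : S.St) (z : S.Ω → P → X)
    (C : ι → Fin k → X) {e : ℝ} (he : 0 < e) {r : X} (hr : ∀ s, w s ≠ 0 → ∃ i, C s i = r) :
    ∃ (g' : S.St) (z' : S.Ω → P → X), (∀ ω, pQ1 k ≤ cnt (z' ω) {r}) ∧
      (∀ g'', potL1 S g' z' w C ≤ potL1 S g'' z' w C + e * ∑ s, w s) ∧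
      pc k * potL1 S g' z' w C + (∑ s, w s) * ∑ ω, S.P ω * mv (z ω) (z' ω) ≤
        pc k * (potL1 S g z w C + e * ∑ s, w s) := by
  have hc := pc_pos_L1 k
  obtain ⟨g', z', h1, h2⟩ := exists_prox (fun (g' : S.St) (z' : S.Ω → P → X) =>
    potL1 S g' z' w C + (∑ s, w s) * (∑ ω, S.P ω * mv (z ω) (z' ω)) / pc k)
    (fun g' z' => add_nonneg (potL1_nonneg S hP hw _ _ _) (div_nonneg (mul_nonneg hW.le
      (sum_nonneg fun ω _ => mul_nonneg (S.P_pos ω).le (mv_nonneg _ _))) hc.le)) g z
    (mul_pos he hW)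
  refine ⟨g', z', fun ω => ?_, fun g'' => by linarith [h1 g'' z'], ?_⟩
  · refine feasible hk hP hw hW C r hr (8 ^ (S.J + 1) * S.G) (Nat.mul_pos (by positivity) S.G_pos)
      _ (eta_pos_L1 S) (S.lab g' ω) (S.nested g' ω) (fun ℓ x y hℓ h => S.dist_le_slab g' ω hℓ h)
      S.dist_le_top (z' ω) fun p => ?_
    have a1 := h2 (Function.update z' ω (Function.update (z' ω) p r))
    have up : ∀ F : S.Ω → (P → X) → ℝ,
        ∑ ω', S.P ω' * F ω' (Function.update z' ω (Function.update (z' ω) p r) ω') =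
        ∑ ω', S.P ω' * F ω' (z' ω') +
          S.P ω * (F ω (Function.update (z' ω) p r) - F ω (z' ω)) := fun F => by
      rw [← add_sum_erase _ _ (mem_univ ω), ← add_sum_erase _ (fun ω' => S.P ω' * F ω' (z' ω'))
        (mem_univ ω), Function.update_self,
        sum_congr rfl fun ω' h => by rw [Function.update_of_ne (ne_of_mem_erase h)]]
      ring
    simp only [potL1] at a1
    rw [up fun ω' y => slabL1 S g' ω' y w C, up fun ω' y => mv (z ω') y] at a1
    have a2 := mv_update_L1 (z' ω) (z' ω) p r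
    have a3 := mv_update_L1 (z' ω) (Function.update (z' ω) p r) p r
    have a4 := mv_triangle (z ω) (z' ω) (Function.update (z' ω) p r)
    simp only [Function.update_idem, Function.update_self, dist_self, mv_self, add_zero] at a3
    have a5 : (∑ s, w s) * (mv (z ω) (Function.update (z' ω) p r) - mv (z ω) (z' ω)) / pc k ≤
        (∑ s, w s) * dist (z' ω p) r / pc k :=
      div_le_div_of_nonneg_right (mul_le_mul_of_nonneg_left (by linarith) hW.le) hc.le
    have a6 := mul_le_mul_of_nonneg_left a5 (S.P_pos ω).le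
    refine le_of_mul_le_mul_left ?_ (S.P_pos ω)
    change S.P ω * slabL1 S g' ω (z' ω) w C ≤
      S.P ω * (slabL1 S g' ω (Function.update (z' ω) p r) w C + _)
    simp only [div_eq_mul_inv] at a1 a6 ⊢
    linarith
  · have := mul_le_mul_of_nonneg_left (h1 g z) hc.le
    simp only [mv_self, mul_zero, sum_const_zero, zero_div, add_zero] at this
    rw [mul_add, mul_div_cancel₀ _ hc.ne'] at this
    exact this

theorem main_L1 [DecidableEq P] (hP : Fintype.card P = k * pQ k) (hk : 2 ≤ k) (hK : 0 ≤ K)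
    (hL : harm (k * pQ k) ≤ L) {e : ℝ} (he : 0 < e) (he' : e ≤ S.ε) (n : ℕ) :
    ∀ (w : ι → ℝ) (s₀ : ι → Fin k → X) (l : ι → List (X × Fin k)) (g : S.St) (z : S.Ω → P → X),
      (∀ s, 0 ≤ w s) → (∀ s, w s ≠ 0 → (l s).length ≤ n) →
      ∃ V : List X → S.Ω → P → X, V [] = z ∧ (∀ τ r ω, pQ1 k ≤ cnt (V (τ ++ [r]) ω) {r}) ∧
        ∑ ω, S.P ω * ∑ s, w s * tcost (fun τ => V τ ω) (z ω) ((l s).map Prod.fst) ≤
          pc k * (potL1 S g z w (fun s => eagerL1 (s₀ s) (l s)) +
            K * ∑ s, w s * movesL1 (s₀ s) (l s) + n * e * ∑ s, w s) := by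
  have hc := pc_pos_L1 k
  have hcnt : ∀ r : X, pQ1 k ≤ cnt (fun _ : P => r) {r} := fun r => by
    have : pQ k ≤ k * pQ k := Nat.le_mul_of_pos_left _ (by omega)
    simp only [cnt, mem_singleton, filter_true, card_univ, hP]
    unfold pQ at this ⊢
    omega
  have hpos : ∀ (m : ℕ) (w : ι → ℝ) (s₀ : ι → Fin k → X) (l : ι → List (X × Fin k)) (g : S.St)
      (z : S.Ω → P → X), (∀ s, 0 ≤ w s) → 0 ≤ pc k * (potL1 S g z w (fun s => eagerL1 (s₀ s) (l s)) +
        K * ∑ s, w s * movesL1 (s₀ s) (l s) + m * e * ∑ s, w s) := fun m w s₀ l g z hw =>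
    mul_nonneg hc.le (add_nonneg (add_nonneg (potL1_nonneg S hP hw _ _ _) (mul_nonneg hK
      (sum_nonneg fun s _ => mul_nonneg (hw s) (movesL1_nonneg _ _))))
      (mul_nonneg (by positivity) (sum_nonneg fun s _ => hw s)))
  induction n with
  | zero =>
    intro w s₀ l g z hw hl
    refine ⟨fun τ => τ.getLast?.elim z fun r _ _ => r, rfl, fun τ r ω => by simpa using hcnt r,
      le_of_eq_of_le ?_ (hpos 0 w s₀ l g z hw)⟩
    refine sum_eq_zero fun ω _ => mul_eq_zero_of_right _ (sum_eq_zero fun s _ => ?_)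
    by_cases h0 : w s = 0
    · simp [h0]
    · simp [List.length_eq_zero_iff.1 (Nat.le_zero.1 (hl s h0)), tcost]
  | succ n ih =>
    intro w s₀ l g z hw hl
    let v : Option X → ι → ℝ := fun t s => if ((l s).map Prod.fst).head? = t then w s else 0
    have hv : ∀ t s, 0 ≤ v t s := fun t s => by
      simp only [v]; split_ifs; exacts [hw s, le_rfl]
    have hv1 : ∀ s, ∑ t, v t s = w s := fun s => by simp [v]
    have hv2 : ∀ r s, v (some r) s ≠ 0 → w s ≠ 0 ∧ ∃ i l', l s = (r, i) :: l' := by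
      intro r s h
      simp only [v, ne_eq, ite_eq_right_iff, Classical.not_imp] at h
      refine ⟨h.2, ?_⟩
      rcases hs : l s with _ | ⟨⟨r', i⟩, l'⟩
      · simp [hs] at h
      · obtain rfl : r' = r := by simpa [hs] using h.1
        exact ⟨i, l', rfl⟩
    have hlen : ∀ r s, v (some r) s ≠ 0 → (l s).tail.length ≤ n := fun r s h => by
      have := hl s (hv2 r s h).1
      rw [List.length_tail]; omega
    have step : ∀ r : X, ∃ V : List X → S.Ω → P → X, (∀ ω, pQ1 k ≤ cnt (V [] ω) {r}) ∧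
        (∀ τ r ω, pQ1 k ≤ cnt (V (τ ++ [r]) ω) {r}) ∧
        ∑ ω, S.P ω * ∑ s, v (some r) s * (mv (z ω) (V [] ω) +
          tcost (fun τ => V τ ω) (V [] ω) ((l s).tail.map Prod.fst)) ≤
          pc k * (potL1 S g z (v (some r)) (fun s => eagerL1 (s₀ s) (l s)) +
            K * ∑ s, v (some r) s * movesL1 (s₀ s) (l s) +
            (n + 1 : ℕ) * e * ∑ s, v (some r) s) := by
      intro r
      rcases (sum_nonneg fun s (_ : s ∈ univ) => hv (some r) s).eq_or_lt with hW | hW
      · obtain ⟨V, h1, h2, -⟩ := ih (v (some r)) s₀ (fun s => (l s).tail) g (fun _ _ => r)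
          (hv _) (hlen r)
        refine ⟨V, fun ω => by rw [h1]; exact hcnt r, h2,
          le_of_eq_of_le ?_ (hpos _ _ s₀ l g z (hv _))⟩
        have := (sum_eq_zero_iff_of_nonneg fun s _ => hv (some r) s).1 hW.symm
        exact sum_eq_zero fun ω _ => mul_eq_zero_of_right _
          (sum_eq_zero fun s hs => by rw [this s hs, zero_mul])
      · have hr : ∀ s, v (some r) s ≠ 0 → ∃ i, eagerL1 (s₀ s) (l s) i = r := fun s h => by
          obtain ⟨-, i, l', e⟩ := hv2 r s h
          exact ⟨i, by simp [e, eagerL1]⟩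
        obtain ⟨g', z', h1, h2, h3⟩ := prox_L1 S hP hk (hv _) hW g z _ he hr
        obtain ⟨V, rfl, h5, h6⟩ := ih (v (some r)) (fun s => advL1 (s₀ s) (l s))
          (fun s => (l s).tail) g' z' (hv _) (hlen r)
        have h7 := potL1_move S hP hk hL (hv _) hW
          (C' := fun s => eagerL1 (advL1 (s₀ s) (l s)) (l s).tail) he' h2 fun s h j => by
            obtain ⟨-, i, l', e⟩ := hv2 r s h
            by_cases hj : j = i
            · refine Or.inr fun s' h' => ?_
              simpa [e, eagerL1, hj] using hr s' h'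
            · exact Or.inl (by simp [e, eagerL1, advL1, hj])
        have h8 : ∑ s, v (some r) s * movesL1 (s₀ s) (l s) = ∑ s, v (some r) s *
            mv (eagerL1 (s₀ s) (l s)) (eagerL1 (advL1 (s₀ s) (l s)) (l s).tail) +
            ∑ s, v (some r) s * movesL1 (advL1 (s₀ s) (l s)) (l s).tail := by
          rw [← sum_add_distrib]
          refine sum_congr rfl fun s _ => ?_
          by_cases h0 : v (some r) s = 0
          · simp [h0]
          obtain ⟨-, i, l', e⟩ := hv2 r s h0
          have := mv_update_L1 (Function.update (eagerL1 (Function.update (s₀ s) i r) l') i r)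
            (eagerL1 (Function.update (s₀ s) i r) l') i r
          simp only [Function.update_idem, Function.update_self, dist_self, mv_self,
            zero_add] at this
          simp only [e, eagerL1, movesL1, advL1, List.tail_cons, ← this]
          ring
        refine ⟨V, h1, h5, ?_⟩
        have h9 := mul_le_mul_of_nonneg_left h7 hc.le
        have h10 : ∑ ω, S.P ω * ∑ s, v (some r) s * mv (z ω) (V [] ω) =
            (∑ s, v (some r) s) * ∑ ω, S.P ω * mv (z ω) (V [] ω) := by
          rw [mul_sum]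
          exact sum_congr rfl fun ω _ => by rw [← sum_mul]; ring
        simp only [mul_add, sum_add_distrib, h10, h8] at h3 h6 h9 ⊢
        push_cast
        linarith
    choose V h1 h2 h3 using step
    refine ⟨fun τ => List.casesOn τ z fun r τ' => V r τ', rfl, fun τ r ω => ?_, ?_⟩
    · rcases τ with _ | ⟨r', τ'⟩
      exacts [h1 r ω, h2 r' τ' r ω]
    have a1 : ∀ t, ∑ ω, S.P ω * ∑ s, v t s * tcost (fun τ =>
        (List.casesOn τ z fun r τ' => V r τ' : S.Ω → P → X) ω) (z ω) ((l s).map Prod.fst) ≤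
        pc k * (potL1 S g z (v t) (fun s => eagerL1 (s₀ s) (l s)) +
          K * ∑ s, v t s * movesL1 (s₀ s) (l s) + (n + 1 : ℕ) * e * ∑ s, v t s) := by
      rintro (_ | r)
      · refine le_of_eq_of_le ?_ (hpos _ _ s₀ l g z (hv _))
        refine sum_eq_zero fun ω _ => mul_eq_zero_of_right _ (sum_eq_zero fun s _ => ?_)
        rcases hs : l s with _ | ⟨a, l'⟩ <;> simp [v, hs, tcost]
      · refine le_of_eq_of_le (sum_congr rfl fun ω _ => congrArg _ (sum_congr rfl fun s _ => ?_))
          (h3 r)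
        by_cases h0 : v (some r) s = 0
        · simp [h0]
        obtain ⟨-, i, l', e⟩ := hv2 r s h0
        simp only [e, List.map_cons, tcost, List.tail_cons]
    have a2 := sum_le_sum fun t (_ : t ∈ univ) => a1 t
    have a3 := mul_le_mul_of_nonneg_left
      (potL1_split S v g z fun s => eagerL1 (s₀ s) (l s)) hc.le
    have a4 : ∀ f : ι → ℝ, ∑ t, ∑ s, v t s * f s = ∑ s, w s * f s := fun f => by
      rw [sum_comm]; exact sum_congr rfl fun s _ => by rw [← sum_mul, hv1]
    have a5 : ∑ t, ∑ s, v t s = ∑ s, w s := by simpa using a4 fun _ => 1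
    rw [sum_comm] at a2
    simp only [← mul_sum, sum_add_distrib, a4, a5, hv1] at a2 a3
    linarith

end main

theorem layerI {X : Type u} [Fintype X] [DecidableEq X] [MetricSpace X] {x₀ : X} {k : ℕ}
    (hk : 2 ≤ k) {L K : ℝ} (S : GeoSys X x₀ L k K) (hK : 0 ≤ K)
    (P : Type) [Fintype P] [DecidableEq P] (hP : Fintype.card P = k * pQ k)
    (hL : harm (k * pQ k) ≤ L)
    (ι : Type u) [Fintype ι] (w : ι → ℝ) (σ : ι → List X) (hw : ∀ s, 0 ≤ w s)
    (hw1 : ∑ s, w s = 1) {δ : ℝ} (hδ : 0 < δ) :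
    ∃ Z : List X → P → X, (∀ (τ : List X) (r : X), pQ1 k ≤ cnt (Z (τ ++ [r])) {r}) ∧
      ∑ s, w s * tcost Z (fun _ => x₀) (σ s) ≤
        pc k * K * ∑ s, w s * opt (fun _ : Fin k => x₀) (σ s) + δ := by
  have hc := pc_pos_L1 k
  choose l h1 h2 using fun s => exists_eagerL1 (k := k) (by omega) (σ s) fun _ => x₀
  obtain ⟨n, hn⟩ : ∃ n, ∀ s, (l s).length ≤ n :=
    ⟨univ.sup fun s => (l s).length, fun s => le_sup (f := fun s => (l s).length) (mem_univ s)⟩
  have he : 0 < min S.ε (δ / (pc k * (n + 1))) := lt_min S.ε_pos (by positivity)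
  obtain ⟨V, -, h3, h4⟩ := main_L1 S hP hk hK hL he (min_le_left _ _) n w (fun _ _ => x₀) l S.γ₀
    (fun _ _ => x₀) hw fun s _ => hn s
  have h5 := potL1_init S hP hw
  have h6 := potL1_move S hP hk hL hw (by rw [hw1]; exact one_pos) (g := S.γ₀)
    (z := fun _ _ => x₀) (C := fun _ _ => x₀) (C' := fun s => eagerL1 (fun _ => x₀) (l s))
    S.ε_pos.le (fun g' => by
      have := potL1_nonneg S hP hw g' (fun _ _ => x₀) fun _ _ => x₀
      linarith) fun s _ i => Or.inr fun _ _ => ⟨i, rfl⟩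
  have h7 : pc k * (n * min S.ε (δ / (pc k * (n + 1)))) ≤ δ := by
    have a1 := (le_div_iff₀ (by positivity)).1 (min_le_right S.ε (δ / (pc k * (n + 1))))
    have a2 := mul_pos he hc
    linarith
  have h8 := mul_le_mul_of_nonneg_left (h6.trans (add_le_add h5 le_rfl)) hc.le
  have hΩ : (univ : Finset S.Ω).Nonempty := by
    by_contra h
    have := S.P_sum
    rw [not_nonempty_iff_eq_empty.1 h] at this
    simp at this
  obtain ⟨ω, -, hω⟩ := exists_le_of_sum_le hΩ
    (f := fun ω => S.P ω * ∑ s, w s * tcost (fun τ => V τ ω) (fun _ => x₀) (σ s))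
    (g := fun ω => S.P ω * (pc k * K * ∑ s, w s * opt (fun _ : Fin k => x₀) (σ s) + δ)) (by
      rw [← sum_mul, S.P_sum]
      simp only [h1, hw1] at h4
      simp only [← h2, mul_add, sum_add_distrib]
      linarith)
  exact ⟨fun τ => V τ ω, fun τ r => h3 τ r ω, le_of_mul_le_mul_left hω (S.P_pos ω)⟩

end Vale.Agent.P304
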