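import Vale.Agent.P304.Round

namespace Vale.Agent.P304

open Finset

universe u

namespace L2

/-- The slab used at level `j` for the offset `θ`. -/
def slab (G j θ : ℕ) : ℕ := 8 ^ j * G + θ % (8 ^ j * G)

theorem slab_lt {G : ℕ} (hG : 0 < G) (j θ : ℕ) : slab G j θ < 8 ^ (j + 1) * G := by
  have := Nat.mod_lt θ (show 0 < 8 ^ j * G by positivity)
  rw [slab, pow_succ, mul_right_comm]
  omega

theorem slab_mono {G : ℕ} (hG : 0 < G) (θ : ℕ) : Monotone fun j => slab G j θ :=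
  monotone_nat_of_le_succ fun j => (slab_lt hG j θ).le.trans (Nat.le_add_right _ _)

theorem sum_mod (F : ℕ → ℝ) (b m : ℕ) :
    ∑ θ ∈ range (m * b), F (θ % b) = m * ∑ i ∈ range b, F i := by
  induction m with
  | zero => simp
  | succ m ih =>
    rw [add_mul, one_mul, sum_range_add, ih]
    have : ∑ x ∈ range b, F ((m * b + x) % b) = ∑ i ∈ range b, F i :=
      sum_congr rfl fun i hi => by
        rw [Nat.mul_add_mod_of_lt (mem_range.1 hi)]
    rw [this]
    push_cast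
    ring

theorem sum_blocks {F : ℕ → ℝ} (hF : ∀ l, 0 ≤ F l) (G m : ℕ) :
    ∑ j ∈ range m, ∑ i ∈ range (8 ^ j * G), F (8 ^ j * G + i) ≤ ∑ l ∈ range (8 ^ m * G), F l := by
  induction m with
  | zero => simpa using sum_nonneg fun l _ => hF l
  | succ m ih =>
    rw [sum_range_succ]
    refine (add_le_add ih le_rfl).trans ?_
    rw [← sum_range_add]
    refine sum_le_sum_of_subset_of_nonneg (range_mono ?_) fun l _ _ => hF l
    rw [pow_succ]
    nlinarith [Nat.zero_le (8 ^ m * G)]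

theorem avg {F : ℕ → ℝ} (hF : ∀ l, 0 ≤ F l) {G : ℕ} (hG : 0 < G) (J : ℕ) {r : ℝ} (hr : 0 ≤ r) :
    ∑ θ : Fin (8 ^ J * G), (1 / ((8 ^ J * G : ℕ) : ℝ)) *
      ∑ j ∈ range (J + 1), 8 ^ j * r * F (slab G j θ)
      ≤ r / G * ∑ l ∈ range (8 ^ (J + 1) * G), F l := by
  have hG' : (0 : ℝ) < G := by exact_mod_cast hG
  refine le_trans (le_of_eq ?_) (mul_le_mul_of_nonneg_left (sum_blocks hF G (J + 1))
    (by positivity))
  rw [← mul_sum, Fin.sum_univ_eq_sum_range
    (fun θ => ∑ j ∈ range (J + 1), 8 ^ j * r * F (slab G j θ)), sum_comm, mul_sum, mul_sum]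
  refine sum_congr rfl fun j hj => ?_
  obtain ⟨d, rfl⟩ := Nat.exists_eq_add_of_le (Nat.lt_succ_iff.1 (mem_range.1 hj))
  have h := sum_mod (fun i => F (8 ^ j * G + i)) (8 ^ j * G) (8 ^ d)
  rw [← mul_sum, show 8 ^ (j + d) * G = 8 ^ d * (8 ^ j * G) by ring]
  simp only [slab]
  rw [h]
  push_cast
  field_simp

theorem sum_cnt {X R : Type*} [Fintype X] [DecidableEq X] [Fintype R] (z : R → X) (F : X → ℝ) :
    ∑ y, (cnt z {y} : ℝ) * F y = ∑ p, F (z p) := by
  simp only [cnt, mem_singleton]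
  rw [← sum_fiberwise univ z]
  refine sum_congr rfl fun y _ => ?_
  rw [sum_congr rfl (g := fun _ => F y) fun p hp => by rw [(mem_filter.1 hp).2]]
  simp

theorem mv_perm {X R : Type*} [MetricSpace X] [Fintype R] (z z' : R → X) (π : Equiv.Perm R) :
    mv (z ∘ π) (z' ∘ π) = mv z z' :=
  Equiv.sum_comp π fun p => dist (z p) (z' p)

variable {X : Type u} [Fintype X] [DecidableEq X] [MetricSpace X] {x₀ : X} {M K : ℝ}
  (S : GeoSys X x₀ 3 M K) {R : Type} [Fintype R] [DecidableEq R] {q : ℕ}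
  (col : R → Option (Fin q))

/-- The index set of the randomness. -/
abbrev T := S.Ω × Fin (8 ^ S.J * S.G)

/-- The weights. -/
noncomputable def wt (t : T S) : ℝ := S.P t.1 * (1 / ((8 ^ S.J * S.G : ℕ) : ℝ))

theorem wt_pos (t : T S) : 0 < wt S t := by
  have := S.G_pos
  have := S.P_pos t.1
  unfold wt
  positivity

theorem wt_sum : ∑ t, wt S t = 1 := by
  have := S.G_pos
  have h : (0 : ℝ) < ((8 ^ S.J * S.G : ℕ) : ℝ) := by positivity
  simp only [wt, Fintype.sum_prod_type, sum_const, card_univ, Fintype.card_fin, nsmul_eq_mul]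
  refine Eq.trans (sum_congr rfl fun ω _ => ?_) S.P_sum
  field_simp

/-- The colour potential of one sample. -/
noncomputable def lev (γ : S.St) (t : T S) (y : R → X) : ℝ :=
  ∑ j ∈ range (S.J + 1), 8 ^ j * S.r₀ * slabII col fun ρ => S.lab γ t.1 (slab S.G j t.2) (y ρ)

/-- The potential. -/
noncomputable def Pi (γ : S.St) (π : T S → Equiv.Perm R) (z : R → X) : ℝ :=
  ∑ t, wt S t * lev S col γ t (z ∘ π t) + S.ν γ + ∑ p, S.φ γ (z p)

theorem Pi_nonneg (γ : S.St) (π : T S → Equiv.Perm R) (z : R → X) : 0 ≤ Pi S col γ π z := by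
  have := S.r₀_pos
  refine add_nonneg (add_nonneg (sum_nonneg fun t _ => mul_nonneg (wt_pos S t).le
    (sum_nonneg fun j _ => mul_nonneg (by positivity) ?_)) (S.ν_nonneg _))
    (sum_nonneg fun p _ => S.φ_nonneg _ _)
  exact sum_nonneg fun a _ => cellD_nonneg _ _ _

theorem lip (hq : 0 < q) (γ γ' : S.St) (π : T S → Equiv.Perm R) (z z' : R → X) :
    ∑ t, wt S t * lev S col γ' t (z' ∘ π t) ≤ ∑ t, wt S t * lev S col γ t (z ∘ π t)
      + S.r₀ / S.G * ∑ ω, S.P ω * ∑ l ∈ range (8 ^ (S.J + 1) * S.G),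
        ∑ p, 3 * (if S.lab γ ω l (z p) = S.lab γ' ω l (z' p) then (0 : ℝ) else 1) := by
  have hr := S.r₀_pos
  set F : S.Ω → ℕ → ℝ := fun ω l =>
    ∑ p, 3 * (if S.lab γ ω l (z p) = S.lab γ' ω l (z' p) then (0 : ℝ) else 1) with hF
  have hF0 : ∀ ω l, 0 ≤ F ω l := fun ω l => sum_nonneg fun p _ => by split_ifs <;> norm_num
  have h1 : ∀ t : T S, lev S col γ' t (z' ∘ π t) ≤ lev S col γ t (z ∘ π t)
      + ∑ j ∈ range (S.J + 1), 8 ^ j * S.r₀ * F t.1 (slab S.G j t.2) := by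
    intro t
    rw [lev, lev, ← sum_add_distrib]
    refine sum_le_sum fun j _ => ?_
    rw [← mul_add]
    refine mul_le_mul_of_nonneg_left ((slabII_lip hq col
      (fun ρ => S.lab γ t.1 (slab S.G j t.2) ((z ∘ π t) ρ)) _).trans (le_of_eq ?_)) (by positivity)
    rw [hF, mul_sum]
    congr 1
    exact Equiv.sum_comp (π t) fun p => 3 * (if S.lab γ t.1 (slab S.G j t.2) (z p)
      = S.lab γ' t.1 (slab S.G j t.2) (z' p) then (0 : ℝ) else 1)
  refine (sum_le_sum fun t _ => mul_le_mul_of_nonneg_left (h1 t) (wt_pos S t).le).trans ?_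
  simp only [mul_add, sum_add_distrib]
  refine add_le_add le_rfl ?_
  rw [Fintype.sum_prod_type, mul_sum]
  refine sum_le_sum fun ω _ => ?_
  simp only [wt, mul_assoc (S.P ω)]
  rw [← mul_sum, mul_left_comm]
  exact mul_le_mul_of_nonneg_left (avg (hF0 ω) S.G_pos S.J hr.le) (S.P_pos ω).le

theorem move (hq : 0 < q) (hM : (Fintype.card R : ℝ) ≤ M) {ε : ℝ} (hε : ε ≤ S.ε) {γ : S.St}
    {π : T S → Equiv.Perm R} {z : R → X}
    (hg : ∀ γ', Pi S col γ π z ≤ Pi S col γ' π z + ε) (z' : R → X) :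
    Pi S col γ π z' ≤ Pi S col γ π z + K * mv z z' := by
  have hH : HFun (X := X) 3 fun _ => 0 :=
    ⟨fun _ _ _ => le_rfl, fun _ => le_rfl, fun _ => by norm_num, fun _ _ => by simp⟩
  have h := S.lip (fun y => cnt z {y}) (fun _ _ => 0) γ (fun y => Nat.cast_nonneg _)
    (by
      have := sum_cnt z fun _ => 1
      simp only [mul_one, sum_const, card_univ, nsmul_eq_mul] at this
      rw [this]
      exact hM) (fun _ => hH) (fun γ' => by
      have h1 := hg γ'
      have h2 := lip S col hq γ γ' π z z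
      have h3 : jumpF S.P (S.r₀ / S.G) (8 ^ (S.J + 1) * S.G) 3 (fun y => cnt z {y})
          (fun _ _ => 0) (S.lab γ) (S.lab γ')
          = S.r₀ / S.G * ∑ ω, S.P ω * ∑ l ∈ range (8 ^ (S.J + 1) * S.G),
            ∑ p, 3 * (if S.lab γ ω l (z p) = S.lab γ' ω l (z p) then (0 : ℝ) else 1) := by
        simp only [jumpF, sum_cnt, jterm, sub_self]
        congr 1
        refine sum_congr rfl fun ω _ => ?_
        congr 1
        refine sum_congr rfl fun l _ => sum_congr rfl fun p _ => ?_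
        simp only [eq_comm (a := S.lab γ' ω l (z p))]
        split_ifs <;> norm_num
      rw [h3, sum_cnt, sum_cnt]
      simp only [Pi] at h1
      linarith)
  have h4 : ∑ p, (3 * stretchF S.P (S.r₀ / S.G) (8 ^ (S.J + 1) * S.G) (S.lab γ) (z p) (z' p)
      + S.φ γ (z' p) - S.φ γ (z p)) ≤ ∑ p, K * dist (z p) (z' p) :=
    sum_le_sum fun p _ => h _ _ (by
      have : 0 < cnt z {z p} := card_pos.2 ⟨p, by simp⟩
      exact_mod_cast this)
  have h5 := lip S col hq γ γ π z z'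
  have h6 : S.r₀ / S.G * ∑ ω, S.P ω * ∑ l ∈ range (8 ^ (S.J + 1) * S.G),
      ∑ p, 3 * (if S.lab γ ω l (z p) = S.lab γ ω l (z' p) then (0 : ℝ) else 1)
      = ∑ p, 3 * stretchF S.P (S.r₀ / S.G) (8 ^ (S.J + 1) * S.G) (S.lab γ) (z p) (z' p) := by
    simp only [stretchF, mul_sum]
    symm
    rw [sum_comm]
    refine sum_congr rfl fun ω _ => ?_
    rw [sum_comm]
    exact sum_congr rfl fun l _ => sum_congr rfl fun p _ => by ring
  rw [sum_sub_distrib, sum_add_distrib, ← mul_sum _ _ K] at h4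
  simp only [Pi, mv]
  linarith

theorem geom (r : ℝ) (hr : 0 ≤ r) (j : ℕ) : ∑ i ∈ range j, 8 ^ i * r * 3 ≤ 8 ^ j * r * (3 / 7) := by
  induction j with
  | zero => simpa using by positivity
  | succ j ih =>
    rw [sum_range_succ, pow_succ]
    linarith

theorem improve (hq : 0 < q) (γ : S.St) (t : T S) (y : R → X) {j : ℕ} (hj : j ≤ S.J)
    (σ : Equiv.Perm R)
    (h1 : ∀ i, j < i → i ≤ S.J → ∀ ρ, S.lab γ t.1 (slab S.G i t.2) (y (σ ρ))
      = S.lab γ t.1 (slab S.G i t.2) (y ρ))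
    (h2 : ∀ ρ, σ ρ ≠ ρ → dist (y ρ) (y (σ ρ)) ≤ 24 * (8 ^ (j + 1) * S.r₀))
    (h3 : ∑ ρ, (if σ ρ = ρ then (0 : ℝ) else 1) ≤ 3)
    (h4 : slabII col ((fun ρ => S.lab γ t.1 (slab S.G j t.2) (y ρ)) ∘ σ) + 1
      ≤ slabII col fun ρ => S.lab γ t.1 (slab S.G j t.2) (y ρ)) :
    lev S col γ t (y ∘ σ) + mv y (y ∘ σ) / 1100 < lev S col γ t y := by
  have hr := S.r₀_pos
  have hm : mv y (y ∘ σ) ≤ 24 * (8 ^ (j + 1) * S.r₀) * 3 := by
    refine le_trans ?_ (mul_le_mul_of_nonneg_left h3 (by positivity))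
    rw [mv, mul_sum]
    refine sum_le_sum fun ρ _ => ?_
    split_ifs with h
    · simp [h]
    · simpa using h2 ρ h
  obtain ⟨d, hd⟩ := Nat.exists_eq_add_of_le hj
  have e : S.J + 1 = (j + 1) + d := by omega
  have hl : lev S col γ t (y ∘ σ) + 8 ^ j * S.r₀ ≤ lev S col γ t y + 8 ^ j * S.r₀ * (3 / 7) := by
    rw [lev, lev, e, sum_range_add _ (j + 1) d, sum_range_add _ (j + 1) d, sum_range_succ,
      sum_range_succ]
    have a1 : ∑ i ∈ range d, 8 ^ (j + 1 + i) * S.r₀ * slabII col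
        (fun ρ => S.lab γ t.1 (slab S.G (j + 1 + i) t.2) ((y ∘ σ) ρ))
        = ∑ i ∈ range d, 8 ^ (j + 1 + i) * S.r₀ * slabII col
        (fun ρ => S.lab γ t.1 (slab S.G (j + 1 + i) t.2) (y ρ)) := by
      refine sum_congr rfl fun i hi => ?_
      have := mem_range.1 hi
      congr 2
      funext ρ
      exact h1 _ (by omega) (by omega) ρ
    have a2 : ∑ i ∈ range j, 8 ^ i * S.r₀ * slabII col
        (fun ρ => S.lab γ t.1 (slab S.G i t.2) ((y ∘ σ) ρ))
        ≤ ∑ i ∈ range j, 8 ^ i * S.r₀ * slabII col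
        (fun ρ => S.lab γ t.1 (slab S.G i t.2) (y ρ)) + ∑ i ∈ range j, 8 ^ i * S.r₀ * 3 := by
      rw [← sum_add_distrib]
      refine sum_le_sum fun i _ => ?_
      rw [← mul_add]
      refine mul_le_mul_of_nonneg_left ?_ (by positivity)
      exact (slabII_perm hq col (fun ρ => S.lab γ t.1 (slab S.G i t.2) (y ρ)) σ).trans
        (add_le_add le_rfl h3)
    have a3 := mul_le_mul_of_nonneg_left h4 (show 0 ≤ 8 ^ j * S.r₀ by positivity)
    have a4 := geom S.r₀ hr.le j
    have a5 : (fun ρ => S.lab γ t.1 (slab S.G j t.2) ((y ∘ σ) ρ))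
        = (fun ρ => S.lab γ t.1 (slab S.G j t.2) (y ρ)) ∘ σ := rfl
    rw [a1, a5]
    linarith
  have : 0 < 8 ^ j * S.r₀ := by positivity
  rw [pow_succ] at hm
  linarith

theorem present (hq : 0 < q) (hroot : slabII col (fun _ => ()) = 0) (γ : S.St) (t : T S)
    (y : R → X) (r : X) (hr : q ≤ cnt y {r})
    (hmin : ∀ σ : Equiv.Perm R, lev S col γ t y ≤ lev S col γ t (y ∘ σ) + mv y (y ∘ σ) / 1100)
    (c : Fin q) : ∃ ρ, col ρ = some c ∧ y ρ = r := by
  by_contra hcon
  obtain ⟨ρ₀, hρ₀⟩ := card_pos.1 (hq.trans_le hr)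
  have hy0 : y ρ₀ = r := by simpa using hρ₀
  set A : ℕ → R → S.Lab := fun j ρ => S.lab γ t.1 (slab S.G j t.2) (y ρ) with hA
  have hA0 : ∀ ρ, A 0 ρ = A 0 ρ₀ ↔ y ρ = r := fun ρ =>
    ⟨fun h => (S.eq_of_lab_lt γ t.1 (by simpa using slab_lt S.G_pos 0 t.2) h).trans hy0,
      fun h => by simp only [hA, h, hy0]⟩
  have h0 : 0 < cellD col (A 0) (A 0 ρ₀) := by
    by_contra h
    obtain ⟨ρ, h1, h2⟩ := present_of_cellD hq col (A 0) (A 0 ρ₀)
      (by simpa only [hA0, cnt, mem_singleton] using hr) (not_lt.1 h) c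
    exact hcon ⟨ρ, h2, (hA0 ρ).1 h1⟩
  classical
  set j := Nat.findGreatest (fun j => 0 < cellD col (A j) (A j ρ₀)) S.J with hj
  have hjJ : j ≤ S.J := Nat.findGreatest_le _
  have hpos : 0 < cellD col (A j) (A j ρ₀) :=
    Nat.findGreatest_spec (P := fun j => 0 < cellD col (A j) (A j ρ₀)) (Nat.zero_le _) h0
  rcases hjJ.lt_or_eq with hlt | heq
  · have hpar : cellD col (A (j + 1)) (A (j + 1) ρ₀) ≤ 0 :=
      not_lt.1 (Nat.findGreatest_is_greatest (P := fun j => 0 < cellD col (A j) (A j ρ₀))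
        (Nat.lt_succ_self _) hlt)
    obtain ⟨σ, s1, s2, s3⟩ := exchange hq col (A j) (A (j + 1))
      (fun ρ ρ' h => S.nested γ t.1 _ _ _ _ (slab_mono S.G_pos t.2 (Nat.le_succ j)) h) ρ₀ hpos hpar
    refine absurd (hmin σ) (not_le.2 (improve S col hq γ t y hjJ σ ?_ ?_ s2 s3))
    · intro i hi _ ρ
      by_cases h : σ ρ = ρ
      · rw [h]
      · exact S.nested γ t.1 _ _ _ _ (slab_mono S.G_pos t.2 (Nat.succ_le_of_lt hi))
          ((s1 ρ h).2.trans (s1 ρ h).1.symm)
    · intro ρ h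
      exact S.diam γ t.1 (j + 1) _ _ _ hlt (slab_lt S.G_pos _ t.2)
        ((s1 ρ h).1.trans (s1 ρ h).2.symm)
  · obtain ⟨σ, -, s2, s3⟩ := exchange hq col (A j) (fun _ => ()) (fun _ _ _ => rfl) ρ₀ hpos
      (by simpa [slabII] using hroot.le)
    refine absurd (hmin σ) (not_le.2 (improve S col hq γ t y hjJ σ ?_ ?_ s2 s3))
    · intro i hi hi'
      omega
    · intro ρ _
      rw [heq]
      exact S.top _ _

theorem exists_step (hq : 0 < q) (hroot : slabII col (fun _ => ()) = 0) {ε : ℝ} (hε : 0 < ε)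
    (st : S.St × (T S → Equiv.Perm R)) (z : R → X) :
    ∃ st' : S.St × (T S → Equiv.Perm R),
      (∀ γ', Pi S col st'.1 st'.2 z ≤ Pi S col γ' st'.2 z + ε) ∧
      Pi S col st'.1 st'.2 z + (∑ t, wt S t * mv (z ∘ st.2 t) (z ∘ st'.2 t)) / 1100
        ≤ Pi S col st.1 st.2 z + ε ∧
      ∀ (t : T S) (r : X), q ≤ cnt z {r} → ∀ c, ∃ ρ, col ρ = some c ∧ z (st'.2 t ρ) = r := by
  obtain ⟨γ, π, h1, h2⟩ := exists_prox
    (fun (γ : S.St) (π : T S → Equiv.Perm R) =>
      Pi S col γ π z + (∑ t, wt S t * mv (z ∘ st.2 t) (z ∘ π t)) / 1100)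
    (fun γ π => add_nonneg (Pi_nonneg S col _ _ _) (div_nonneg
      (sum_nonneg fun t _ => mul_nonneg (wt_pos S t).le (mv_nonneg _ _)) (by norm_num)))
    st.1 st.2 hε
  refine ⟨(γ, π), fun γ' => by linarith [h1 γ' π], by simpa [mv_self] using h1 st.1 st.2, ?_⟩
  intro t r hr
  refine present S col hq hroot γ t (z ∘ π t) r ?_ fun σ => ?_
  · refine hr.trans (le_of_eq ?_)
    exact (card_bijective (π t) (π t).bijective (by simp)).symm
  · have h3 := h2 (Function.update π t (π t * σ))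
    simp only [Pi] at h3
    rw [← add_sum_erase _ _ (mem_univ t), ← add_sum_erase _ (fun t => wt S t * mv _ _) (mem_univ t),
      ← add_sum_erase _ (fun t => wt S t * lev S col γ t _) (mem_univ t),
      ← add_sum_erase _ (fun t => wt S t * mv _ _) (mem_univ t)] at h3
    have e1 : ∑ x ∈ univ.erase t, wt S x * lev S col γ x (z ∘ Function.update π t (π t * σ) x)
        = ∑ x ∈ univ.erase t, wt S x * lev S col γ x (z ∘ π x) :=
      sum_congr rfl fun x hx => by rw [Function.update_of_ne (ne_of_mem_erase hx)]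
    have e2 : ∑ x ∈ univ.erase t, wt S x * mv (z ∘ st.2 x) (z ∘ Function.update π t (π t * σ) x)
        = ∑ x ∈ univ.erase t, wt S x * mv (z ∘ st.2 x) (z ∘ π x) :=
      sum_congr rfl fun x hx => by rw [Function.update_of_ne (ne_of_mem_erase hx)]
    have e3 : z ∘ (π t * σ : Equiv.Perm R) = (z ∘ π t) ∘ σ := rfl
    rw [e1, e2, Function.update_self, e3] at h3
    have h4 := mul_le_mul_of_nonneg_left
      (mv_triangle (z ∘ st.2 t) (z ∘ π t) ((z ∘ π t) ∘ σ)) (wt_pos S t).le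
    refine le_of_mul_le_mul_left ?_ (wt_pos S t)
    linarith

/-- The state after a history. -/
def run {A Y : Type*} (step : A → Y → A) : (List X → Y) → A → List X → A
  | _, st, [] => st
  | Z, st, r :: τ => run step (fun τ' => Z (r :: τ')) (step st (Z [r])) τ

omit [Fintype X] [DecidableEq X] [MetricSpace X] in
theorem run_snoc {A Y : Type*} (step : A → Y → A) (r : X) (τ : List X) :
    ∀ (Z : List X → Y) (st : A), run step Z st (τ ++ [r]) = step (run step Z st τ) (Z (τ ++ [r])) := by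
  induction τ with
  | nil => intro Z st; rfl
  | cons a τ ih => intro Z st; exact ih _ _

omit [Fintype X] [DecidableEq X] in
theorem tcost_colours {k m : ℕ} (σ : List X) :
    ∀ (W : List X → (Fin q × Fin k) ⊕ Fin m → X) (v : (Fin q × Fin k) ⊕ Fin m → X),
      ∑ c : Fin q, tcost (fun τ i => W τ (Sum.inl (c, i))) (fun i => v (Sum.inl (c, i))) σ
        ≤ tcost W v σ := by
  induction σ with
  | nil => intro W v; simp [tcost]
  | cons r σ ih =>
    intro W v
    simp only [tcost, sum_add_distrib]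
    refine add_le_add ?_ (ih (fun τ => W (r :: τ)) (W [r]))
    simp only [mv, Fintype.sum_sum_type, Fintype.sum_prod_type]
    exact le_add_of_nonneg_right (sum_nonneg fun _ _ => dist_nonneg)

end L2

open L2 in
theorem layerII {X : Type u} [Fintype X] [DecidableEq X] [MetricSpace X] {x₀ : X} {k q g : ℕ}
    (hq : 0 < q) (hg : 2 * (k * g) ≤ q) {K : ℝ} (S : GeoSys X x₀ 3 ((k * (q + g) : ℕ) : ℝ) K)
    (hK : 0 ≤ K) (Z : List X → (Fin q × Fin k) ⊕ Fin (k * g) → X)
    (hZ : ∀ (τ : List X) (r : X), q ≤ cnt (Z (τ ++ [r])) {r}) (n : ℕ) {δ : ℝ} (hδ : 0 < δ) :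
    ∃ (Θ : Type u) (_ : Fintype Θ) (pr : Θ → ℝ) (V : Θ → List X → Fin k → X),
      (∀ θ, 0 ≤ pr θ) ∧ ∑ θ, pr θ = 1 ∧
      (∀ θ (τ : List X) (r : X), ∃ i, V θ (τ ++ [r]) i = r) ∧
      ∀ σ : List X, σ.length ≤ n → ∑ θ, pr θ * tcost (V θ) (fun _ => x₀) σ ≤
        (1 + 1100 * K) / q * tcost Z (fun _ => x₀) σ + δ := by
  set col : (Fin q × Fin k) ⊕ Fin (k * g) → Option (Fin q) :=
    Sum.elim (fun p => some p.1) fun _ => none with hcol
  have hR : Fintype.card ((Fin q × Fin k) ⊕ Fin (k * g)) = k * (q + g) := by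
    simp only [Fintype.card_sum, Fintype.card_prod, Fintype.card_fin]
    ring
  have hc : ∀ c, (univ.filter fun ρ => col ρ = some c).card = k := by
    intro c
    have : (univ.filter fun ρ => col ρ = some c)
        = univ.map ⟨fun i : Fin k => Sum.inl (c, i), fun i j h => by simpa using h⟩ := by
      ext ρ
      rcases ρ with ⟨c', i⟩ | ρ
      · simp only [hcol, mem_filter, mem_univ, Sum.elim_inl, Option.some.injEq, true_and, mem_map]
        constructor
        · rintro rfl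
          exact ⟨i, rfl⟩
        · rintro ⟨a, ha⟩
          exact (Prod.mk.inj (Sum.inl.inj ha)).1.symm
      · simp [hcol]
    rw [this, card_map, card_univ, Fintype.card_fin]
  have hroot : slabII col (fun _ => ()) = 0 := cellD_all hq hg col hR hc _ () fun _ => rfl
  set ε := min S.ε (δ / (1100 * (n + 1))) with hε
  have hε0 : 0 < ε := lt_min S.ε_pos (by positivity)
  choose step hs1 hs2 hs3 using exists_step S col hq hroot hε0
  have main : ∀ (σ : List X) (Z : List X → (Fin q × Fin k) ⊕ Fin (k * g) → X) st z,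
      (∀ γ', Pi S col st.1 st.2 z ≤ Pi S col γ' st.2 z + ε) →
      ∑ t, wt S t * tcost (fun τ => Z τ ∘ (run step Z st τ).2 t) (z ∘ st.2 t) σ
        ≤ (1 + 1100 * K) * tcost Z z σ + 1100 * Pi S col st.1 st.2 z + 1100 * σ.length * ε := by
    intro σ
    induction σ with
    | nil =>
      intro Z st z _
      simpa [tcost] using Pi_nonneg S col st.1 st.2 z
    | cons r σ ih =>
      intro Z st z hgood
      have h1 := ih (fun τ => Z (r :: τ)) (step st (Z [r])) (Z [r]) (hs1 _ _)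
      have h2 := hs2 st (Z [r])
      have h3 := move S col hq (by rw [hR]) (min_le_left _ _) hgood (Z [r])
      have h4 : ∑ t, wt S t * mv (z ∘ st.2 t) (Z [r] ∘ (step st (Z [r])).2 t)
          ≤ mv z (Z [r]) + ∑ t, wt S t * mv (Z [r] ∘ st.2 t) (Z [r] ∘ (step st (Z [r])).2 t) := by
        nth_rewrite 1 [← one_mul (mv z (Z [r])), ← wt_sum S, sum_mul, ← sum_add_distrib]
        refine sum_le_sum fun t _ => ?_
        rw [← mul_add, ← mv_perm z (Z [r]) (st.2 t)]
        exact mul_le_mul_of_nonneg_left (mv_triangle _ _ _) (wt_pos S t).le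
      simp only [tcost, run, mul_add, sum_add_distrib, List.length_cons] at h1 ⊢
      push_cast
      linarith
  have hPi : Pi S col S.γ₀ (fun _ => 1) (fun _ => x₀) = 0 := by
    simp only [Pi, S.ν_init, S.φ_init, sum_const_zero, add_zero]
    refine sum_eq_zero fun t _ => mul_eq_zero_of_right _ (sum_eq_zero fun j _ =>
      mul_eq_zero_of_right _ (cellD_all hq hg col hR hc _
        (S.lab S.γ₀ t.1 (slab S.G j t.2) x₀) fun _ => rfl))
  have hq' : (1 : ℝ) ≤ q := by exact_mod_cast hq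
  refine ⟨T S × Fin q, inferInstance, fun θ => wt S θ.1 / q,
    fun θ τ i => (Z τ ∘ (run step Z (S.γ₀, fun _ => 1) τ).2 θ.1) (Sum.inl (θ.2, i)),
    fun θ => div_nonneg (wt_pos S _).le (by positivity), ?_, ?_, ?_⟩
  · rw [Fintype.sum_prod_type, ← wt_sum S]
    refine sum_congr rfl fun t _ => ?_
    simp only [sum_const, card_univ, Fintype.card_fin, nsmul_eq_mul]
    field_simp
  · intro θ τ r
    obtain ⟨ρ, h1, h2⟩ := hs3 (run step Z (S.γ₀, fun _ => 1) τ) _ θ.1 r (hZ τ r) θ.2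
    rcases ρ with ⟨c, i⟩ | ρ
    · obtain rfl : c = θ.2 := by simpa [hcol] using h1
      exact ⟨i, by simp only [run_snoc]; exact h2⟩
    · simp [hcol] at h1
  · intro σ hσ
    have h1 := main σ Z (S.γ₀, fun _ => 1) (fun _ => x₀) (fun γ' => by
      rw [hPi]
      exact add_nonneg (Pi_nonneg S col _ _ _) hε0.le)
    rw [hPi] at h1
    have h2 : 1100 * σ.length * ε ≤ δ := by
      have a1 : ε * (1100 * (n + 1)) ≤ δ := (le_div_iff₀ (by positivity)).1 (min_le_right _ _)
      have a2 : (σ.length : ℝ) ≤ n := by exact_mod_cast hσ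
      nlinarith
    have h3 : ∑ θ : T S × Fin q, wt S θ.1 / q * tcost (fun τ i =>
        (Z τ ∘ (run step Z (S.γ₀, fun _ => 1) τ).2 θ.1) (Sum.inl (θ.2, i))) (fun _ => x₀) σ
        ≤ (∑ t, wt S t * tcost (fun τ => Z τ ∘ (run step Z (S.γ₀, fun _ => 1) τ).2 t)
          (fun _ => x₀) σ) / q := by
      rw [Fintype.sum_prod_type, sum_div]
      refine sum_le_sum fun t _ => ?_
      simp only
      rw [← mul_sum, mul_div_right_comm]
      exact mul_le_mul_of_nonneg_left (tcost_colours σ _ fun _ => x₀)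
        (div_nonneg (wt_pos S _).le (by positivity))
    refine h3.trans ?_
    rw [div_le_iff₀ (by linarith), add_mul, div_mul_eq_mul_div, div_mul_cancel₀ _ (by linarith)]
    refine le_trans h1 ?_
    nlinarith

end Vale.Agent.P304
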