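import Vale.Agent.P304.Geom6
import Vale.Agent.P304.LayerI
import Vale.Agent.P304.LayerII
import Vale.Agent.P304.Final

namespace Vale.Agent.P304

open Finset

universe u

theorem opt_nonneg_main {X : Type*} [MetricSpace X] {k : ℕ} (σ : List X) :
    ∀ s : Fin k → X, 0 ≤ opt s σ := by
  induction σ with
  | nil => intro s; simp [opt]
  | cons r σ ih => intro s; exact Real.iInf_nonneg fun i => add_nonneg dist_nonneg (ih _)

theorem harm_le_log (n : ℕ) : harm n ≤ 1 + Real.log n := by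
  have := harmonic_le_one_add_log n
  refine le_trans (le_of_eq ?_) this
  simp [harm, harmonic]

theorem finBound_raw {k : ℕ} (hk : 2 ≤ k) {L : ℝ} (hL1 : 1 ≤ L) (hL : harm (k * pQ k) ≤ L) :
    FinBound.{u} k ((1 + 1100 * (30000 * 3 *
      Real.log (104 * ((k * (pQ1 k + pg k) : ℕ) : ℝ) * 3) ^ 2)) / pQ1 k *
      (pc k * (30000 * L * Real.log (104 * k * L) ^ 2))) := by
  intro X _ _ _ x₀ ι _ w σ hw hw1
  have hD : 0 < pD k := by unfold pD; omega
  have hq : 0 < pQ1 k := by unfold pQ1; positivity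
  have hq' : (0 : ℝ) < pQ1 k := by exact_mod_cast hq
  have hk1 : (1 : ℝ) ≤ k := by exact_mod_cast (by omega : 1 ≤ k)
  obtain ⟨S₁⟩ := exists_geoSys X x₀ hL1 hk1
  obtain ⟨S₂⟩ := exists_geoSys X x₀ (L := 3) (M := ((k * (pQ1 k + pg k) : ℕ) : ℝ)) (by norm_num)
    (by exact_mod_cast Nat.mul_pos (by omega) (by omega))
  generalize hK₂ : 30000 * 3 * Real.log (104 * ((k * (pQ1 k + pg k) : ℕ) : ℝ) * 3) ^ 2 = K₂ at *
  generalize hK₁ : 30000 * L * Real.log (104 * k * L) ^ 2 = K₁ at *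
  have h₂ : 0 ≤ K₂ := by rw [← hK₂]; positivity
  have h₁ : 0 ≤ K₁ := by rw [← hK₁]; positivity
  obtain ⟨c, hc⟩ : ∃ c, c = (1 + 1100 * K₂) / pQ1 k := ⟨_, rfl⟩
  have c0 : 0 < c := by rw [hc]; positivity
  obtain ⟨Z, hZ, hZc⟩ := layerI hk S₁ h₁ ((Fin (pQ1 k) × Fin k) ⊕ Fin (k * pg k))
    (by simp [pQ]; ring) hL ι w σ hw hw1 (δ := 1 / (2 * c)) (by positivity)
  obtain ⟨n, hn⟩ := (Set.finite_range fun s => (σ s).length).bddAbove
  obtain ⟨Θ, _, pr, V, h0, h1, hV, hVc⟩ := layerII hq (by unfold pQ1 pg; nlinarith) S₂ h₂ Z hZ n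
    (δ := 1 / 2) (by norm_num)
  rw [← hc] at hVc ⊢
  have hne : Nonempty Θ := by
    by_contra hne
    rw [not_nonempty_iff] at hne
    simp at h1
  obtain ⟨θ, hθ⟩ := Finite.exists_min fun θ => ∑ s, w s * tcost (V θ) (fun _ => x₀) (σ s)
  refine ⟨V θ, hV θ, ?_⟩
  calc ∑ s, w s * tcost (V θ) (fun _ => x₀) (σ s)
      = ∑ θ', pr θ' * ∑ s, w s * tcost (V θ) (fun _ => x₀) (σ s) := by
        rw [← sum_mul, h1, one_mul]
    _ ≤ ∑ θ', pr θ' * ∑ s, w s * tcost (V θ') (fun _ => x₀) (σ s) :=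
        sum_le_sum fun θ' _ => mul_le_mul_of_nonneg_left (hθ θ') (h0 θ')
    _ = ∑ s, w s * ∑ θ', pr θ' * tcost (V θ') (fun _ => x₀) (σ s) := by
        simp only [mul_sum]
        rw [sum_comm]
        exact sum_congr rfl fun _ _ => sum_congr rfl fun _ _ => by ring
    _ ≤ ∑ s, w s * (c * tcost Z (fun _ => x₀) (σ s) + 1 / 2) :=
        sum_le_sum fun s _ => mul_le_mul_of_nonneg_left (hVc _ (hn ⟨s, rfl⟩)) (hw s)
    _ = c * ∑ s, w s * tcost Z (fun _ => x₀) (σ s) + 1 / 2 := by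
        simp only [mul_add]
        rw [sum_add_distrib, ← sum_mul, hw1, mul_sum]
        congr 1
        · exact sum_congr rfl fun _ _ => by ring
        · ring
    _ ≤ _ := by
        have := mul_le_mul_of_nonneg_left hZc c0.le
        have e : c * (1 / (2 * c)) = 1 / 2 := by field_simp
        nlinarith

theorem finBound_mono {k : ℕ} {c c' : ℝ} (h : FinBound.{u} k c) (hc : c ≤ c') :
    FinBound.{u} k c' := by
  intro X _ _ _ x₀ ι _ w σ hw hw1
  obtain ⟨V, hV, hb⟩ := h X x₀ ι w σ hw hw1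
  refine ⟨V, hV, hb.trans ?_⟩
  have : 0 ≤ ∑ s, w s * opt (fun _ : Fin k => x₀) (σ s) :=
    sum_nonneg fun s _ => mul_nonneg (hw s) (opt_nonneg_main _ _)
  gcongr

theorem log_le_of_le_pow {k : ℕ} {x : ℝ} (hx : 0 < x) (n : ℕ) (h : x ≤ (k : ℝ) ^ n) :
    Real.log x ≤ n * Real.log k := by
  rw [← Real.log_pow]; exact Real.log_le_log hx h

theorem finBound_main {k : ℕ} (hk : 2 ≤ k) : FinBound.{u} k (10 ^ 23 * Real.log k ^ 6) := by
  have hk2 : (2 : ℝ) ≤ k := by exact_mod_cast hk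
  have l2 := Real.log_two_gt_d9
  have l0 : Real.log 2 ≤ Real.log k := Real.log_le_log (by norm_num) hk2
  have lk : Real.log k ≤ k := by
    have := Real.log_le_sub_one_of_pos (by linarith : (0 : ℝ) < k); linarith
  have ht : (Nat.clog 2 k : ℝ) ≤ 3 * Real.log k := by
    have h1 := Nat.pow_pred_clog_lt_self (b := 2) (by norm_num) (by omega : 1 < k)
    have h2 : 0 < Nat.clog 2 k := Nat.clog_pos (by norm_num) (by omega)
    obtain ⟨t, ht⟩ : ∃ t, Nat.clog 2 k = t + 1 := ⟨Nat.clog 2 k - 1, by omega⟩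
    rw [ht] at h1 ⊢
    have h3 : (2 : ℝ) ^ t ≤ k := by exact_mod_cast h1.le
    have h4 := Real.log_le_log (by positivity) h3
    rw [Real.log_pow] at h4
    have : (0 : ℝ) ≤ t := Nat.cast_nonneg _
    push_cast
    nlinarith
  have hD : (pD k : ℝ) ≤ 128 * Real.log k := by
    unfold pD; push_cast; linarith
  have hD0 : (0 : ℝ) < pD k := by unfold pD; positivity
  have pw : ∀ n : ℕ, (2 : ℝ) ^ n ≤ (k : ℝ) ^ n := fun n => by gcongr
  have hQ1 : (pQ1 k : ℝ) = 8 * pD k * k ^ 2 := by unfold pQ1; push_cast; ring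
  have hg : (pg k : ℝ) = 4 * pD k * k := by unfold pg; push_cast; ring
  have hM : ((k * (pQ1 k + pg k) : ℕ) : ℝ) ≤ (k : ℝ) ^ 15 := by
    push_cast
    rw [hQ1, hg]
    have h1 : (pD k : ℝ) ≤ 128 * k := by linarith
    have h2 := pw 11
    have h3 : (8 * pD k * k ^ 2 + 4 * pD k * k : ℝ) ≤ 10 * pD k * k ^ 2 := by nlinarith
    calc _ ≤ (k : ℝ) * (10 * (128 * k) * k ^ 2) := by
          refine mul_le_mul_of_nonneg_left (h3.trans ?_) (by linarith)
          gcongr
      _ = 1280 * (k : ℝ) ^ 4 := by ring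
      _ ≤ (k : ℝ) ^ 11 * (k : ℝ) ^ 4 := by gcongr; linarith
      _ = _ := by ring
  have hM0 : (0 : ℝ) < ((k * (pQ1 k + pg k) : ℕ) : ℝ) := by
    push_cast; rw [hQ1, hg]; positivity
  have hL : harm (k * pQ k) ≤ 17 * Real.log k := by
    have := harm_le_log (k * pQ k)
    have h2 := log_le_of_le_pow hM0 15 hM
    unfold pQ at *
    push_cast at *
    linarith
  refine finBound_mono (finBound_raw hk (L := 17 * Real.log k) (by linarith) hL) ?_
  have a1 : Real.log (104 * ((k * (pQ1 k + pg k) : ℕ) : ℝ) * 3) ≤ 24 * Real.log k := by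
    have := log_le_of_le_pow (k := k) (x := 104 * ((k * (pQ1 k + pg k) : ℕ) : ℝ) * 3)
      (by positivity) 24 (by
        have h2 := pw 9
        calc _ ≤ 312 * (k : ℝ) ^ 15 := by linarith
          _ ≤ (k : ℝ) ^ 9 * (k : ℝ) ^ 15 := by gcongr; linarith
          _ = _ := by ring)
    exact_mod_cast this
  have a1' : 0 ≤ Real.log (104 * ((k * (pQ1 k + pg k) : ℕ) : ℝ) * 3) := by
    apply Real.log_nonneg
    have : (1 : ℝ) ≤ ((k * (pQ1 k + pg k) : ℕ) : ℝ) := by
      have : 0 < k * (pQ1 k + pg k) := by exact_mod_cast hM0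
      exact_mod_cast this
    linarith
  have a2 : Real.log (104 * k * (17 * Real.log k)) ≤ 13 * Real.log k := by
    have := log_le_of_le_pow (k := k) (x := 104 * k * (17 * Real.log k))
      (by have : 0 < Real.log k := by linarith
          positivity) 13 (by
        have h2 := pw 11
        calc _ ≤ 104 * k * (17 * (k : ℝ)) := by gcongr
          _ = 1768 * (k : ℝ) ^ 2 := by ring
          _ ≤ (k : ℝ) ^ 11 * (k : ℝ) ^ 2 := by gcongr; linarith
          _ = _ := by ring)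
    exact_mod_cast this
  have a2' : 0 ≤ Real.log (104 * k * (17 * Real.log k)) := by
    apply Real.log_nonneg; nlinarith
  have a3 : pc k / pQ1 k ≤ 6144 * Real.log k := by
    rw [div_le_iff₀ (by rw [hQ1]; positivity)]
    unfold pc pQ
    push_cast
    rw [hQ1, hg]
    have h3 : (8 * pD k * k ^ 2 + 4 * pD k * k + pD k : ℝ) ≤ 2 * (8 * pD k * k ^ 2) := by
      have : (4 * k + 1 : ℝ) ≤ 8 * k ^ 2 := by nlinarith
      nlinarith
    calc _ ≤ 24 * (2 * (8 * pD k * k ^ 2)) * (128 * Real.log k) := by gcongr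
      _ = _ := by ring
  have a3' : 0 ≤ pc k / pQ1 k := by unfold pc; positivity
  generalize Real.log (104 * ((k * (pQ1 k + pg k) : ℕ) : ℝ) * 3) = x at *
  generalize Real.log (104 * k * (17 * Real.log k)) = y at *
  generalize Real.log k = l at *
  have lp : 0 < l := by linarith
  have b1 : 1 + 1100 * (30000 * 3 * x ^ 2) ≤ 6 * 10 ^ 10 * l ^ 2 := by
    have : x ^ 2 ≤ (24 * l) ^ 2 := by gcongr
    nlinarith
  have b2 : 30000 * (17 * l) * y ^ 2 ≤ 30000 * (17 * l) * (13 * l) ^ 2 := by gcongr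
  calc _ = (1 + 1100 * (30000 * 3 * x ^ 2)) * (pc k / pQ1 k) * (30000 * (17 * l) * y ^ 2) := by
        ring
    _ ≤ (6 * 10 ^ 10 * l ^ 2) * (6144 * l) * (30000 * (17 * l) * (13 * l) ^ 2) := by gcongr
    _ = (6 * 10 ^ 10 * 6144 * 30000 * 17 * 169) * l ^ 6 := by ring
    _ ≤ _ := by gcongr; norm_num

end Vale.Agent.P304
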