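import Vale.Agent.P304.Base

namespace Vale.Agent.P304

open Finset

noncomputable def harm (n : ℕ) : ℝ := ∑ i ∈ range n, 1 / ((i : ℝ) + 1)

/-- Largest total of at most `u` entries of `μ`. -/
noncomputable def psi {I : Type*} [Fintype I] [DecidableEq I] (μ : I → ℝ) (u : ℕ) : ℝ :=
  ((univ : Finset (Finset I)).filter fun A => A.card ≤ u).sup' ⟨∅, by simp⟩
    fun A => ∑ i ∈ A, μ i

/-- Number of labelled points of `z` inside `S`. -/
def cnt {X P : Type*} [Fintype P] [DecidableEq X] (z : P → X) (S : Finset X) : ℕ :=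
  (univ.filter fun p => z p ∈ S).card

noncomputable def muF {X ι : Type*} [DecidableEq X] [Fintype ι] (k Q D : ℕ) (w : ι → ℝ)
    (C : ι → Fin k → X) (S : Finset X) : Fin k × Fin Q → ℝ :=
  fun ib => ∑ s, w s * (1 / ((Q : ℝ) + D) -
    (if cnt (C s) S ≤ (ib.1 : ℕ) then (1 : ℝ) else 0) / ((Q : ℝ) + D - (ib.2 : ℕ)))

/-- The potential of one slab with labels `l`. -/
noncomputable def slabI {X ι P Lab : Type*} [Fintype X] [DecidableEq X] [Fintype ι] [Fintype P]
    [Fintype Lab] [DecidableEq Lab] (k Q D : ℕ) (w : ι → ℝ) (C : ι → Fin k → X) (z : P → X)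
    (l : X → Lab) : ℝ :=
  ((k : ℝ) * Q) * (∑ s, w s) / ((Q : ℝ) + D) -
    ∑ a : Lab, psi (muF k Q D w C (univ.filter fun x => l x = a))
      (cnt z (univ.filter fun x => l x = a))

/-- Posterior mass of the offline servers at `y`. -/
noncomputable def massI {X ι : Type*} [DecidableEq X] [Fintype ι] {k : ℕ} (w : ι → ℝ)
    (C : ι → Fin k → X) (y : X) : ℝ :=
  ∑ s, w s * (cnt (C s) {y} : ℝ)

section psi
variable {I : Type*} [Fintype I] [DecidableEq I]

theorem le_psi (μ : I → ℝ) {u : ℕ} {A : Finset I} (hA : A.card ≤ u) :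
    ∑ i ∈ A, μ i ≤ psi μ u :=
  le_sup' (fun A : Finset I => ∑ i ∈ A, μ i) (mem_filter.2 ⟨mem_univ _, hA⟩)

theorem exists_psi (μ : I → ℝ) (u : ℕ) :
    ∃ A : Finset I, A.card ≤ u ∧ psi μ u = ∑ i ∈ A, μ i := by
  obtain ⟨A, hA, h⟩ := exists_mem_eq_sup' (s := (univ : Finset (Finset I)).filter
    fun A => A.card ≤ u) ⟨∅, by simp⟩ fun A => ∑ i ∈ A, μ i
  exact ⟨A, (mem_filter.1 hA).2, h⟩

theorem psi_nonneg (μ : I → ℝ) (u : ℕ) : 0 ≤ psi μ u := by
  simpa using le_psi μ (u := u) (A := ∅) (by simp)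

theorem psi_mono (μ : I → ℝ) {u v : ℕ} (h : u ≤ v) : psi μ u ≤ psi μ v := by
  obtain ⟨A, hA, e⟩ := exists_psi μ u
  rw [e]; exact le_psi μ (hA.trans h)

/-- Claim A: many entries at least `γ` give a marginal gain at least `γ`. -/
theorem psi_gain (μ : I → ℝ) (u : ℕ) (γ : ℝ)
    (h : u < (univ.filter fun i => γ ≤ μ i).card) : psi μ u + γ ≤ psi μ (u + 1) := by
  obtain ⟨A, hA, e⟩ := exists_psi μ u
  obtain ⟨i, hi, hiA⟩ := exists_mem_notMem_of_card_lt_card (hA.trans_lt h)
  have h1 := le_psi μ (u := u + 1) (A := insert i A) (by rw [card_insert_of_notMem hiA]; omega)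
  rw [sum_insert hiA] at h1
  have := (mem_filter.1 hi).2
  linarith

/-- Claim B: a marginal gain at least `γ > 0` forces many entries at least `γ`. -/
theorem psi_loss (μ : I → ℝ) (u : ℕ) (γ : ℝ) (hγ : 0 < γ)
    (h : psi μ u + γ ≤ psi μ (u + 1)) : u + 1 ≤ (univ.filter fun i => γ ≤ μ i).card := by
  obtain ⟨A, hA, e⟩ := exists_psi μ (u + 1)
  have hc : A.card = u + 1 := by
    by_contra hne
    have := le_psi μ (u := u) (A := A) (by omega)
    linarith
  rw [← hc]
  refine card_le_card fun i hi => mem_filter.2 ⟨mem_univ _, ?_⟩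
  have h1 := le_psi μ (u := u) (A := A.erase i) (by rw [card_erase_of_mem hi]; omega)
  have h2 := add_sum_erase A μ hi
  linarith

theorem psi_le_card_psi (μ : I → ℝ) (u : ℕ) {c : ℝ} (hc : 0 ≤ c) (h : ∀ i, μ i ≤ c) :
    psi μ u ≤ u * c := by
  obtain ⟨A, hA, e⟩ := exists_psi μ u
  rw [e]
  calc ∑ i ∈ A, μ i ≤ ∑ _i ∈ A, c := sum_le_sum fun i _ => h i
    _ = A.card * c := by rw [sum_const, nsmul_eq_mul]
    _ ≤ u * c := mul_le_mul_of_nonneg_right (by exact_mod_cast hA) hc

theorem psi_le_add_psi (μ μ' d : I → ℝ) (u : ℕ) (hd : ∀ i, 0 ≤ d i) (h : ∀ i, μ i ≤ μ' i + d i) :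
    psi μ u ≤ psi μ' u + ∑ i, d i := by
  obtain ⟨A, hA, e⟩ := exists_psi μ u
  rw [e]
  calc ∑ i ∈ A, μ i ≤ ∑ i ∈ A, (μ' i + d i) := sum_le_sum fun i _ => h i
    _ = ∑ i ∈ A, μ' i + ∑ i ∈ A, d i := sum_add_distrib
    _ ≤ _ := add_le_add (le_psi μ' hA)
        (sum_le_sum_of_subset_of_nonneg (subset_univ _) fun i _ _ => hd i)

theorem psi_le_sum_psi (μ d : I → ℝ) (u : ℕ) (hd : ∀ i, 0 ≤ d i) (h : ∀ i, μ i ≤ d i) :
    psi μ u ≤ ∑ i, d i := by
  obtain ⟨A, hA, e⟩ := exists_psi μ u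
  rw [e]
  exact (sum_le_sum fun i _ => h i).trans
    (sum_le_sum_of_subset_of_nonneg (subset_univ _) fun i _ _ => hd i)

theorem psi_succ_le_psi (μ : I → ℝ) (u : ℕ) :
    psi μ (u + 1) ≤ psi μ u + psi μ (u + 1) / ((u : ℝ) + 1) := by
  obtain ⟨A, hA, e⟩ := exists_psi μ (u + 1)
  have hu : (0 : ℝ) < u + 1 := by positivity
  by_cases hc : A.card ≤ u
  · have h1 := le_psi μ hc
    have h2 := div_nonneg (psi_nonneg μ (u + 1)) hu.le
    linarith
  · have hcard : A.card = u + 1 := by omega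
    have hne : A.Nonempty := card_pos.1 (by omega)
    obtain ⟨i, hi, hmin⟩ := exists_min_image A μ hne
    have h1 := le_psi μ (u := u) (A := A.erase i) (by rw [card_erase_of_mem hi]; omega)
    have h2 := add_sum_erase A μ hi
    have h3 : μ i ≤ psi μ (u + 1) / ((u : ℝ) + 1) := by
      rw [le_div_iff₀ hu, e]
      calc μ i * ((u : ℝ) + 1) = ∑ _j ∈ A, μ i := by
            rw [sum_const, nsmul_eq_mul, hcard]; push_cast; ring
        _ ≤ _ := sum_le_sum fun j hj => hmin j hj
    linarith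

theorem psi_harm_psi (μ : I → ℝ) {m : ℝ} (hm : ∀ u, psi μ u ≤ m) {u v : ℕ} (h : u ≤ v) :
    psi μ v ≤ psi μ u + m * (harm v - harm u) := by
  induction v, h using Nat.le_induction with
  | base => simp
  | succ v _ ih =>
    have h1 := psi_succ_le_psi μ v
    have h2 : psi μ (v + 1) / ((v : ℝ) + 1) ≤ m / ((v : ℝ) + 1) :=
      div_le_div_of_nonneg_right (hm _) (by positivity)
    have h3 : harm (v + 1) = harm v + 1 / ((v : ℝ) + 1) := by rw [harm, sum_range_succ, harm]
    rw [h3]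
    have h4 : m * (harm v + 1 / ((v : ℝ) + 1) - harm u) =
        m * (harm v - harm u) + m / ((v : ℝ) + 1) := by ring
    linarith

end psi

variable {X ι P Lab : Type*} [Fintype X] [DecidableEq X] [Fintype ι] [Fintype P]
    [Fintype Lab] [DecidableEq Lab] {k Q D : ℕ}

theorem harm_nonneg_psi (n : ℕ) : 0 ≤ harm n := sum_nonneg fun i _ => by positivity

theorem den_pos_psi (hD : 0 < D) (b : Fin Q) : (0 : ℝ) < (Q : ℝ) + D - (b : ℕ) := by
  have h1 : ((b : ℕ) : ℝ) < Q := by exact_mod_cast b.2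
  have h2 : (0 : ℝ) < D := by exact_mod_cast hD
  linarith

theorem sum_den_le_psi (hD : 0 < D) : ∑ b : Fin Q, 1 / ((Q : ℝ) + D - (b : ℕ)) ≤ harm Q := by
  rw [Fin.sum_univ_eq_sum_range (fun b => 1 / ((Q : ℝ) + D - (b : ℕ))) Q, harm,
    ← sum_range_reflect (fun i => 1 / ((i : ℝ) + 1)) Q]
  refine sum_le_sum fun b hb => ?_
  have hb' : b < Q := mem_range.1 hb
  have h1 : ((Q - 1 - b : ℕ) : ℝ) = Q - 1 - b := by
    rw [Nat.cast_sub (by omega), Nat.cast_sub (by omega), Nat.cast_one]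
  have h2 : (1 : ℝ) ≤ D := by exact_mod_cast hD
  have h3 : ((b : ℕ) : ℝ) < Q := by exact_mod_cast hb'
  rw [h1]
  exact one_div_le_one_div_of_le (by linarith) (by linarith)

omit [Fintype X] in
theorem cnt_mono_psi (z : P → X) {S T : Finset X} (h : S ⊆ T) : cnt z S ≤ cnt z T :=
  card_le_card fun _ hp => mem_filter.2 ⟨mem_univ _, h (mem_filter.1 hp).2⟩

omit [Fintype X] in
theorem cnt_le_psi (z : P → X) (S : Finset X) : cnt z S ≤ Fintype.card P :=
  card_le_univ _

theorem sum_cnt_psi (z : P → X) (l : X → Lab) :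
    ∑ a, cnt z (univ.filter fun x => l x = a) = Fintype.card P := by
  rw [← card_univ, card_eq_sum_card_fiberwise (f := fun p => l (z p)) (t := univ)
    (fun _ _ => mem_coe.2 (mem_univ _))]
  refine sum_congr rfl fun a _ => ?_
  simp [cnt]

theorem sum_window_psi (N N' o : ℕ) (h : N ≤ N' + o) :
    ∑ i : Fin k, (if N' ≤ (i : ℕ) ∧ (i : ℕ) < N then (1 : ℝ) else 0) ≤ o := by
  rw [sum_boole]
  have : (univ.filter fun i : Fin k => N' ≤ (i : ℕ) ∧ (i : ℕ) < N).card ≤ (Ico N' N).card :=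
    card_le_card_of_injOn (fun i => (i : ℕ))
      (fun i hi => mem_coe.2 (mem_Ico.2 (mem_filter.1 (mem_coe.1 hi)).2))
      (fun i _ j _ hij => Fin.ext hij)
  rw [Nat.card_Ico] at this
  exact_mod_cast this.trans (by omega)

omit [Fintype X] in
theorem psi_muF_le_psi {L : ℝ} (hD : 0 < D) (hL : harm Q ≤ L) {w : ι → ℝ} (hw : ∀ s, 0 ≤ w s)
    (C C' : ι → Fin k → X) (S S' : Finset X) (o : ι → ℕ)
    (ho : ∀ s, cnt (C s) S ≤ cnt (C' s) S' + o s) (u : ℕ) :
    psi (muF k Q D w C S) u ≤ psi (muF k Q D w C' S') u + L * ∑ s, w s * (o s : ℝ) := by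
  let d : Fin k × Fin Q → ℝ := fun ib => ∑ s, w s *
    ((if cnt (C' s) S' ≤ (ib.1 : ℕ) ∧ (ib.1 : ℕ) < cnt (C s) S then (1 : ℝ) else 0) *
      (1 / ((Q : ℝ) + D - (ib.2 : ℕ))))
  have hd : ∀ ib, 0 ≤ d ib := fun ib => sum_nonneg fun s _ => mul_nonneg (hw s)
    (mul_nonneg (by split_ifs <;> norm_num) (one_div_pos.2 (den_pos_psi hD _)).le)
  refine (psi_le_add_psi _ (muF k Q D w C' S') d u hd fun ib => ?_).trans
    (add_le_add_right ?_ _)
  · simp only [muF, d]
    rw [← sum_add_distrib]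
    refine sum_le_sum fun s _ => ?_
    rw [← mul_add]
    refine mul_le_mul_of_nonneg_left ?_ (hw s)
    have hp := (one_div_pos.2 (den_pos_psi hD ib.2)).le
    by_cases h1 : cnt (C s) S ≤ (ib.1 : ℕ) <;> by_cases h2 : cnt (C' s) S' ≤ (ib.1 : ℕ)
    · simp [h1, h2, not_lt.2 h1]
    · simp only [h1, h2, if_true, if_false, false_and, zero_div, zero_mul]
      linarith
    · simp [h1, h2, not_le.1 h1]
    · simp [h1, h2]
  · have e : ∑ ib, d ib = ∑ s, w s *
        ((∑ i : Fin k, if cnt (C' s) S' ≤ (i : ℕ) ∧ (i : ℕ) < cnt (C s) S then (1 : ℝ) else 0) *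
          ∑ b : Fin Q, 1 / ((Q : ℝ) + D - (b : ℕ))) := by
      simp only [d]
      rw [sum_comm]
      refine sum_congr rfl fun s _ => ?_
      rw [← mul_sum, sum_mul_sum, Fintype.sum_prod_type]
    rw [e, mul_sum]
    refine sum_le_sum fun s _ => ?_
    have h1 := sum_window_psi (k := k) _ _ _ (ho s)
    have h2 := (sum_den_le_psi (Q := Q) hD).trans hL
    have h3 : 0 ≤ ∑ b : Fin Q, 1 / ((Q : ℝ) + D - (b : ℕ)) :=
      sum_nonneg fun b _ => (one_div_pos.2 (den_pos_psi hD _)).le
    calc _ ≤ w s * ((o s : ℝ) * L) :=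
          mul_le_mul_of_nonneg_left (mul_le_mul h1 h2 h3 (Nat.cast_nonneg _)) (hw s)
      _ = _ := by ring

omit [Fintype X] in
theorem muF_le_psi (hD : 0 < D) {w : ι → ℝ} (hw : ∀ s, 0 ≤ w s) (C : ι → Fin k → X)
    (S : Finset X) (ib : Fin k × Fin Q) :
    muF k Q D w C S ib ≤
      ∑ s, w s * ((if (ib.1 : ℕ) < cnt (C s) S then (1 : ℝ) else 0) * (1 / ((Q : ℝ) + D))) := by
  refine sum_le_sum fun s _ => mul_le_mul_of_nonneg_left ?_ (hw s)
  by_cases h1 : cnt (C s) S ≤ (ib.1 : ℕ)
  · simp only [h1, not_lt.2 h1, if_true, if_false, zero_mul, sub_nonpos]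
    exact one_div_le_one_div_of_le (den_pos_psi hD _) (by
      have : (0 : ℝ) ≤ ((ib.2 : ℕ) : ℝ) := Nat.cast_nonneg _
      linarith)
  · simp [h1, not_le.1 h1]

omit [Fintype X] in
theorem psi_muF_mass_psi (hD : 0 < D) {w : ι → ℝ} (hw : ∀ s, 0 ≤ w s) (C : ι → Fin k → X)
    (S : Finset X) (u : ℕ) :
    psi (muF k Q D w C S) u ≤ ∑ s, w s * (cnt (C s) S : ℝ) := by
  have hD' : (0 : ℝ) < D := by exact_mod_cast hD
  have hQ : (0 : ℝ) < (Q : ℝ) + D := by positivity
  refine (psi_le_sum_psi _ _ u (fun ib => sum_nonneg fun s _ => mul_nonneg (hw s)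
    (mul_nonneg (by split_ifs <;> norm_num) (one_div_pos.2 hQ).le))
    (muF_le_psi hD hw C S)).trans ?_
  rw [sum_comm]
  refine sum_le_sum fun s _ => ?_
  rw [← mul_sum]
  refine mul_le_mul_of_nonneg_left ?_ (hw s)
  rw [Fintype.sum_prod_type]
  have h1 := sum_window_psi (k := k) (cnt (C s) S) 0 (cnt (C s) S) (by omega)
  simp only [zero_le, true_and] at h1
  have h2 : (Q : ℝ) * (1 / ((Q : ℝ) + D)) ≤ 1 := by
    rw [mul_one_div, div_le_one hQ]; linarith
  refine le_trans (sum_le_sum fun i _ => ?_) h1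
  split_ifs
  · simpa using h2
  · simp

theorem slabI_nonneg (hD : 0 < D) (hP : Fintype.card P = k * Q) {w : ι → ℝ} (hw : ∀ s, 0 ≤ w s)
    (C : ι → Fin k → X) (z : P → X) (l : X → Lab) : 0 ≤ slabI k Q D w C z l := by
  have hD' : (0 : ℝ) < D := by exact_mod_cast hD
  have hQ : (0 : ℝ) < (Q : ℝ) + D := by positivity
  have hW : 0 ≤ ∑ s, w s := sum_nonneg fun s _ => hw s
  have h1 : ∀ (S : Finset X) ib, muF k Q D w C S ib ≤ (∑ s, w s) / ((Q : ℝ) + D) := by
    intro S ib
    refine (muF_le_psi hD hw C S ib).trans ?_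
    rw [sum_div]
    refine sum_le_sum fun s _ => ?_
    rw [div_eq_mul_one_div (w s)]
    refine mul_le_mul_of_nonneg_left ?_ (hw s)
    split_ifs
    · simp
    · simpa using hQ.le
  unfold slabI
  rw [sub_nonneg]
  refine (sum_le_sum fun a _ => psi_le_card_psi _ _ (div_nonneg hW hQ.le) (h1 _)).trans ?_
  rw [← sum_mul, ← Nat.cast_sum, sum_cnt_psi, hP]
  push_cast
  rw [mul_div_assoc]

theorem slabI_init (hD : 0 < D) (hP : Fintype.card P = k * Q) {w : ι → ℝ} (hw : ∀ s, 0 ≤ w s)
    (x₀ : X) (l : X → Lab) :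
    slabI k Q D w (fun _ _ => x₀) (fun _ : P => x₀) l ≤ 0 := by
  unfold slabI
  rw [sub_nonpos]
  refine le_trans ?_ (single_le_sum (fun a _ => psi_nonneg _ _) (mem_univ (l x₀)))
  have h1 : cnt (fun _ : P => x₀) (univ.filter fun x => l x = l x₀) = k * Q := by
    simp [cnt, hP]
  have h2 : cnt (fun _ : Fin k => x₀) (univ.filter fun x => l x = l x₀) = k := by
    simp [cnt]
  rw [h1]
  refine le_trans (le_of_eq ?_) (le_psi _ (A := univ) (by simp))
  have h3 : ∀ ib : Fin k × Fin Q, muF k Q D w (fun _ _ => x₀)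
      (univ.filter fun x => l x = l x₀) ib = (∑ s, w s) / ((Q : ℝ) + D) := by
    intro ib
    simp only [muF, h2, not_le.2 ib.1.2, if_false, zero_div, sub_zero]
    rw [← sum_mul, mul_one_div]
  simp only [h3, sum_const, card_univ, Fintype.card_prod, Fintype.card_fin, nsmul_eq_mul]
  push_cast
  rw [mul_div_assoc]

theorem slabI_split {T : Type*} [Fintype T] (w : T → ι → ℝ)
    (C : ι → Fin k → X) (z : P → X) (l : X → Lab) :
    ∑ t, slabI k Q D (w t) C z l ≤ slabI k Q D (fun s => ∑ t, w t s) C z l := by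
  unfold slabI
  rw [sum_sub_distrib, ← sum_div, ← mul_sum, sum_comm (s := (univ : Finset ι)),
    sum_comm (s := (univ : Finset T)) (t := (univ : Finset Lab))]
  refine sub_le_sub_left (sum_le_sum fun a _ => ?_) _
  obtain ⟨A, hA, e⟩ := exists_psi (muF k Q D (fun s => ∑ t, w t s) C
    (univ.filter fun x => l x = a)) (cnt z (univ.filter fun x => l x = a))
  rw [e]
  refine le_trans (le_of_eq ?_) (sum_le_sum fun t _ => le_psi _ hA)
  rw [sum_comm]
  refine sum_congr rfl fun ib _ => ?_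
  simp only [muF, sum_mul]
  rw [sum_comm]

theorem slabI_congr {w : ι → ℝ} {C C' : ι → Fin k → X} (h : ∀ s, w s ≠ 0 → C s = C' s)
    (z : P → X) (l : X → Lab) : slabI k Q D w C z l = slabI k Q D w C' z l := by
  have : ∀ S, muF k Q D w C S = muF k Q D w C' S := by
    intro S
    funext ib
    refine sum_congr rfl fun s _ => ?_
    by_cases hs : w s = 0
    · simp [hs]
    · rw [h s hs]
  simp only [slabI, this]

theorem slabI_move {L : ℝ} (hD : 0 < D) (hL : harm Q ≤ L) {w : ι → ℝ} (hw : ∀ s, 0 ≤ w s)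
    (C C' : ι → Fin k → X) (z : P → X) (l : X → Lab) :
    slabI k Q D w C' z l ≤ slabI k Q D w C z l +
      L * ∑ s, w s * ∑ i, (if l (C s i) = l (C' s i) then (0 : ℝ) else 1) := by
  let o : Lab → ι → ℕ := fun a s =>
    (univ.filter fun i => l (C s i) = a ∧ ¬ l (C s i) = l (C' s i)).card
  have ho : ∀ a s, cnt (C s) (univ.filter fun x => l x = a) ≤
      cnt (C' s) (univ.filter fun x => l x = a) + o a s := by
    intro a s
    refine le_trans (card_le_card fun i hi => ?_) (card_union_le _ _)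
    have hi' : l (C s i) = a := by simpa using hi
    by_cases h : l (C s i) = l (C' s i)
    · exact mem_union_left _ (by simpa using h.symm.trans hi')
    · exact mem_union_right _ (mem_filter.2 ⟨mem_univ _, hi', h⟩)
  have h1 := sum_le_sum fun a (_ : a ∈ (univ : Finset Lab)) =>
    psi_muF_le_psi (Q := Q) hD hL hw C C' _ _ (o a) (ho a) (cnt z (univ.filter fun x => l x = a))
  have h2 : ∑ a, ∑ s, w s * (o a s : ℝ) =
      ∑ s, w s * ∑ i, (if l (C s i) = l (C' s i) then (0 : ℝ) else 1) := by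
    rw [sum_comm]
    refine sum_congr rfl fun s _ => ?_
    rw [← mul_sum]
    congr 1
    simp only [o, card_filter]
    push_cast
    rw [sum_comm]
    refine sum_congr rfl fun i _ => ?_
    by_cases h : l (C s i) = l (C' s i)
    · simp [h]
    · simp [h]
  rw [sum_add_distrib, ← mul_sum, h2] at h1
  unfold slabI
  linarith

theorem sum_massI (w : ι → ℝ) (C : ι → Fin k → X) (f : X → ℝ) :
    ∑ y, massI w C y * f y = ∑ s, w s * ∑ i, f (C s i) := by
  simp only [massI, sum_mul]
  rw [sum_comm]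
  refine sum_congr rfl fun s _ => ?_
  simp only [mul_assoc]
  rw [← mul_sum]
  congr 1
  simp only [cnt, card_filter, mem_singleton]
  push_cast
  simp only [sum_mul]
  rw [sum_comm]
  refine sum_congr rfl fun i _ => ?_
  simp

theorem mass_set_psi (w : ι → ℝ) (C : ι → Fin k → X) (S : Finset X) :
    ∑ s, w s * (cnt (C s) S : ℝ) = ∑ y ∈ S, massI w C y := by
  have h := sum_massI w C (fun y => if y ∈ S then (1 : ℝ) else 0)
  simp only [mul_ite, mul_one, mul_zero, sum_ite_mem, univ_inter] at h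
  rw [h]
  refine sum_congr rfl fun s _ => ?_
  rw [sum_boole, cnt]

theorem slabI_jump {L : ℝ} (hD : 0 < D) (hL : harm Q ≤ L) {w : ι → ℝ} (hw : ∀ s, 0 ≤ w s)
    (C : ι → Fin k → X) (z : P → X) (l l' : X → Lab) :
    slabI k Q D w C z l' ≤ slabI k Q D w C z l +
      ∑ y, massI w C y * jterm L (fun S => harm (cnt z S)) l l' y := by
  have key : ∀ a : Lab,
      psi (muF k Q D w C (univ.filter fun x => l x = a)) (cnt z (univ.filter fun x => l x = a)) ≤
      psi (muF k Q D w C (univ.filter fun x => l' x = a)) (cnt z (univ.filter fun x => l' x = a)) +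
        ∑ y ∈ univ.filter (fun y => l y = a),
          massI w C y * jterm L (fun S => harm (cnt z S)) l l' y := by
    intro a
    set S := univ.filter fun x => l x = a with hS
    set S' := univ.filter fun x => l' x = a with hS'
    set K := univ.filter fun x => l x = a ∧ l' x = l x with hK
    have hKS : K ⊆ S := fun x hx => mem_filter.2 ⟨mem_univ _, (mem_filter.1 hx).2.1⟩
    have hKS' : K ⊆ S' := fun x hx =>
      mem_filter.2 ⟨mem_univ _, (mem_filter.1 hx).2.2.trans (mem_filter.1 hx).2.1⟩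
    have h1 := psi_muF_le_psi (Q := Q) hD hL hw C C S K (fun s => cnt (C s) (S \ K)) (fun s => by
      refine le_trans (card_le_card fun i hi => ?_) (card_union_le _ _)
      have hi' := (mem_filter.1 hi).2
      by_cases h : C s i ∈ K
      · exact mem_union_left _ (mem_filter.2 ⟨mem_univ _, h⟩)
      · exact mem_union_right _ (mem_filter.2 ⟨mem_univ _, mem_sdiff.2 ⟨hi', h⟩⟩)) (cnt z S)
    have h2 := psi_harm_psi _ (psi_muF_mass_psi (Q := Q) hD hw C K) (cnt_mono_psi z hKS)
    have h3 := psi_muF_le_psi (Q := Q) hD hL hw C C K S' (fun _ => 0)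
      (fun s => cnt_mono_psi _ hKS') (cnt z K)
    have h4 := psi_mono (muF k Q D w C S') (cnt_mono_psi z hKS')
    simp only [Nat.cast_zero, mul_zero, sum_const_zero, add_zero] at h3
    rw [mass_set_psi] at h1 h2
    have h5 : ∑ y ∈ S, massI w C y * jterm L (fun S => harm (cnt z S)) l l' y =
        L * ∑ y ∈ S \ K, massI w C y +
          (∑ y ∈ K, massI w C y) * (harm (cnt z S) - harm (cnt z K)) := by
      rw [← sum_sdiff hKS, mul_sum, sum_mul]
      congr 1
      · refine sum_congr rfl fun y hy => ?_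
        have hy1 : l y = a := (mem_filter.1 (mem_sdiff.1 hy).1).2
        have hy2 : ¬ l' y = l y := fun h =>
          (mem_sdiff.1 hy).2 (mem_filter.2 ⟨mem_univ _, hy1, h⟩)
        rw [jterm, if_neg hy2, mul_comm]
      · refine sum_congr rfl fun y hy => ?_
        have hy1 := (mem_filter.1 hy).2
        rw [jterm, if_pos hy1.2, hy1.1]
    linarith
  have h1 := sum_le_sum fun a (_ : a ∈ (univ : Finset Lab)) => key a
  rw [sum_add_distrib, sum_fiberwise] at h1
  unfold slabI
  linarith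

theorem harm_mono {a b : ℕ} (h : a ≤ b) : harm a ≤ harm b :=
  sum_le_sum_of_subset_of_nonneg (range_mono h) fun i _ _ => by positivity

theorem harm_concave_psi {a u : ℕ} (h : a ≤ u) : a * harm u ≤ u * harm a := by
  induction u, h using Nat.le_induction with
  | base => exact le_rfl
  | succ u hu ih =>
    have h3 : harm (u + 1) = harm u + 1 / ((u : ℝ) + 1) := by rw [harm, sum_range_succ, harm]
    have h4 : a * (1 / ((u : ℝ) + 1)) ≤ harm a := by
      calc a * (1 / ((u : ℝ) + 1)) = ∑ _i ∈ range a, 1 / ((u : ℝ) + 1) := by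
            rw [sum_const, card_range, nsmul_eq_mul]
        _ ≤ _ := sum_le_sum fun i hi => one_div_le_one_div_of_le (by positivity) (by
            have : i ≤ u := (mem_range.1 hi).le.trans hu
            have : (i : ℝ) ≤ u := by exact_mod_cast this
            linarith)
    rw [h3]
    push_cast
    linarith

theorem hfun_harm {L : ℝ} (hL : harm (Fintype.card P) ≤ L) (z : P → X) :
    HFun L (fun S => harm (cnt z S)) := by
  refine ⟨fun S T h => harm_mono (cnt_mono_psi z h), fun S => harm_nonneg_psi _,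
    fun S => (harm_mono (cnt_le_psi z S)).trans hL, fun S κ => ?_⟩
  have hu : harm (cnt z S) ≤ L := (harm_mono (cnt_le_psi z S)).trans hL
  let v : X → ℕ := fun c => (univ.filter fun p => z p ∈ S ∧ κ (z p) = some c).card
  have hv : ∀ c, cnt z (S.filter fun x => κ x ≠ some c) + v c = cnt z S := by
    intro c
    have := card_filter_add_card_filter_not (s := univ.filter fun p => z p ∈ S)
      (fun p => κ (z p) = some c)
    simp only [filter_filter] at this
    simp only [cnt, v, mem_filter, ne_eq]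
    omega
  have hsum : ∑ c, (v c : ℝ) ≤ cnt z S := by
    simp only [v, cnt, card_filter]
    push_cast
    rw [sum_comm]
    refine sum_le_sum fun p _ => ?_
    by_cases hp : z p ∈ S
    · rcases hκ : κ (z p) with _ | c
      · simp [hp]
      · simp [hp]
    · simp [hp]
  rcases Nat.eq_zero_or_pos (cnt z S) with h0 | h0
  · have : ∀ c, cnt z (S.filter fun x => κ x ≠ some c) = 0 := fun c => by have := hv c; omega
    simp only [this, h0, sub_self, sum_const_zero]
    exact (harm_nonneg_psi _).trans hu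
  · have h0' : (0 : ℝ) < cnt z S := by exact_mod_cast h0
    refine le_trans ?_ hu
    refine le_of_mul_le_mul_left ?_ h0'
    rw [mul_sum]
    calc _ ≤ ∑ c, (v c : ℝ) * harm (cnt z S) := by
          refine sum_le_sum fun c _ => ?_
          have h1 := harm_concave_psi
            (show cnt z (S.filter fun x => κ x ≠ some c) ≤ cnt z S by have := hv c; omega)
          have h2 : (cnt z (S.filter fun x => κ x ≠ some c) : ℝ) + v c = cnt z S := by
            exact_mod_cast hv c
          have h3 : (v c : ℝ) * harm (cnt z S) = cnt z S * harm (cnt z S) -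
              cnt z (S.filter fun x => κ x ≠ some c) * harm (cnt z S) := by
            rw [← h2]; ring
          rw [h3, mul_sub]
          linarith
      _ = (∑ c, (v c : ℝ)) * harm (cnt z S) := by rw [sum_mul]
      _ ≤ _ := mul_le_mul_of_nonneg_right hsum (harm_nonneg_psi _)

end Vale.Agent.P304
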