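import Vale.Agent.P304.Psi

namespace Vale.Agent.P304

open Finset

/-- Demand function. -/
def dem (q u : ℕ) : ℕ := (u / q) * q + (2 * (u % q) - q)

/-- Deficiency of the colour counts `n` against the demand `T`. -/
noncomputable def defi {q : ℕ} (T : ℕ) (n : Fin q → ℕ) : ℝ :=
  max (((T / q * q : ℕ) : ℝ) - ∑ c, (min (n c) (T / q) : ℕ))
    ((T : ℝ) - ∑ c, (min (n c) (T / q + 1) : ℕ))

/-- Deficiency of the cell `a` for the assignment `A` of riders to cells. -/
noncomputable def cellD {R Lab : Type*} [Fintype R] [DecidableEq Lab] {q : ℕ}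
    (col : R → Option (Fin q)) (A : R → Lab) (a : Lab) : ℝ :=
  defi (dem q (univ.filter fun ρ => A ρ = a).card)
    fun c => (univ.filter fun ρ => A ρ = a ∧ col ρ = some c).card

noncomputable def slabII {R Lab : Type*} [Fintype R] [Fintype Lab] [DecidableEq Lab] {q : ℕ}
    (col : R → Option (Fin q)) (A : R → Lab) : ℝ :=
  ∑ a, cellD col A a

section demand

theorem dem_eq_rd {q : ℕ} (a b : ℕ) (hb : b < q) : dem q (a * q + b) = a * q + (2 * b - q) := by
  have hq : 0 < q := by omega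
  have h1 : (a * q + b) / q = a := by
    rw [add_comm, Nat.add_mul_div_right _ _ hq, Nat.div_eq_of_lt hb, zero_add]
  have h2 : (a * q + b) % q = b := by
    rw [add_comm, Nat.add_mul_mod_self_right, Nat.mod_eq_of_lt hb]
  unfold dem
  rw [h1, h2]

theorem decomp_rd {q : ℕ} (hq : 0 < q) (u : ℕ) : ∃ a b, b < q ∧ u = a * q + b :=
  ⟨u / q, u % q, Nat.mod_lt _ hq, by rw [mul_comm]; exact (Nat.div_add_mod u q).symm⟩

theorem dem_le_rd {q : ℕ} (hq : 0 < q) (u : ℕ) : dem q u ≤ u := by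
  obtain ⟨a, b, hb, rfl⟩ := decomp_rd hq u
  rw [dem_eq_rd a b hb]; omega

theorem dem_div_rd {q : ℕ} (hq : 0 < q) (u : ℕ) : dem q u / q = u / q := by
  obtain ⟨a, b, hb, rfl⟩ := decomp_rd hq u
  rw [dem_eq_rd a b hb, add_comm, Nat.add_mul_div_right _ _ hq, add_comm (a * q),
    Nat.add_mul_div_right _ _ hq, Nat.div_eq_of_lt hb, Nat.div_eq_of_lt (by omega)]

theorem dem_add_rd {q : ℕ} (hq : 0 < q) (u v : ℕ) : dem q u + dem q v ≤ dem q (u + v) := by
  obtain ⟨a, b, hb, rfl⟩ := decomp_rd hq u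
  obtain ⟨a', b', hb', rfl⟩ := decomp_rd hq v
  rw [dem_eq_rd a b hb, dem_eq_rd a' b' hb']
  by_cases h : b + b' < q
  · have e : a * q + b + (a' * q + b') = (a + a') * q + (b + b') := by ring
    rw [e, dem_eq_rd _ _ h, add_mul]; omega
  · have e : a * q + b + (a' * q + b') = (a + a' + 1) * q + (b + b' - q) := by
      rw [add_mul, add_mul, one_mul]; omega
    rw [e, dem_eq_rd _ _ (by omega), add_mul, add_mul, one_mul]; omega

theorem dem_succ_rd {q : ℕ} (hq : 0 < q) (u : ℕ) : dem q (u + 1) ≤ dem q u + 2 := by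
  obtain ⟨a, b, hb, rfl⟩ := decomp_rd hq u
  rw [dem_eq_rd a b hb]
  by_cases h : b + 1 < q
  · rw [add_assoc, dem_eq_rd _ _ h]; omega
  · have e : a * q + b + 1 = (a + 1) * q + 0 := by rw [add_mul, one_mul]; omega
    rw [e, dem_eq_rd _ _ hq, add_mul, one_mul]; omega

theorem dem_lip_rd {q : ℕ} (hq : 0 < q) {u v : ℕ} (j : ℕ) (h : v ≤ u + j) :
    dem q v ≤ dem q u + 2 * j := by
  have h1 : ∀ j, dem q (u + j) ≤ dem q u + 2 * j := by
    intro j
    induction j with
    | zero => simp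
    | succ j ih => have := dem_succ_rd hq (u + j); rw [← add_assoc]; omega
  obtain ⟨d, hd⟩ := Nat.exists_eq_add_of_le h
  have h2 := dem_add_rd hq v d
  have h3 := h1 j
  rw [hd] at h3
  omega

theorem dem_sum_rd {q : ℕ} (hq : 0 < q) {I : Type*} (s : Finset I) (u : I → ℕ) :
    ∑ i ∈ s, dem q (u i) ≤ dem q (∑ i ∈ s, u i) := by
  classical
  induction s using Finset.induction_on with
  | empty => simp
  | insert i s hi ih =>
    rw [sum_insert hi, sum_insert hi]
    have := dem_add_rd hq (u i) (∑ i ∈ s, u i)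
    omega

end demand

section deficiency

variable {q : ℕ}

/-- Truncated total. -/
def trS (n : Fin q → ℕ) (t : ℕ) : ℕ := ∑ c, min (n c) t

/-- First term of the deficiency. -/
def dfA (T : ℕ) (n : Fin q → ℕ) : ℤ := ((T / q * q : ℕ) : ℤ) - trS n (T / q)

/-- Second term of the deficiency. -/
def dfB (T : ℕ) (n : Fin q → ℕ) : ℤ := (T : ℤ) - trS n (T / q + 1)

theorem defi_eq_rd (T : ℕ) (n : Fin q → ℕ) :
    defi T n = ((max (dfA T n) (dfB T n) : ℤ) : ℝ) := by
  unfold defi dfA dfB trS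
  rw [Int.cast_max]
  simp only [Int.cast_sub, Int.cast_natCast]

theorem trS_le_rd (n : Fin q → ℕ) (t : ℕ) : trS n t ≤ t * q := by
  unfold trS
  calc ∑ c, min (n c) t ≤ ∑ _c : Fin q, t := sum_le_sum fun c _ => min_le_right _ _
    _ = t * q := by simp [mul_comm]

theorem dfA_nonneg_rd (T : ℕ) (n : Fin q → ℕ) : 0 ≤ dfA T n := by
  unfold dfA
  have := trS_le_rd n (T / q)
  omega

theorem trS_mono_rd (n : Fin q → ℕ) {s t : ℕ} (h : s ≤ t) : trS n s ≤ trS n t :=
  sum_le_sum fun _ _ => min_le_min_left _ h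

theorem trS_gap_rd (n : Fin q → ℕ) (s d : ℕ) : trS n (s + d) ≤ trS n s + d * q := by
  unfold trS
  calc ∑ c, min (n c) (s + d) ≤ ∑ c : Fin q, (min (n c) s + d) :=
        sum_le_sum fun c _ => by omega
    _ = _ := by rw [sum_add_distrib]; simp [mul_comm]

theorem sup_form_rd (T : ℕ) (n : Fin q → ℕ) (t : ℕ) :
    ((min T (t * q) : ℕ) : ℤ) - trS n t ≤ max (dfA T n) (dfB T n) := by
  by_cases h : t ≤ T / q
  · obtain ⟨d, hd⟩ := Nat.exists_eq_add_of_le h
    refine le_trans ?_ (le_max_left _ _)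
    unfold dfA
    have h1 := trS_gap_rd n t d
    rw [hd, add_mul]
    have h2 : min T (t * q) ≤ t * q := min_le_right _ _
    omega
  · refine le_trans ?_ (le_max_right _ _)
    unfold dfB
    have h1 := trS_mono_rd n (show T / q + 1 ≤ t by omega)
    have h2 : min T (t * q) ≤ T := min_le_left _ _
    omega

theorem lt_succ_div_rd (hq : 0 < q) (T : ℕ) : T < (T / q + 1) * q := by
  have h1 := Nat.div_add_mod T q
  have h2 := Nat.mod_lt T hq
  rw [add_mul, one_mul, mul_comm]
  omega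

theorem defi_lip_rd (hq : 0 < q) {T T' : ℕ} {n n' : Fin q → ℕ} (j : ℕ) (o : Fin q → ℕ)
    (hT : T' ≤ T + j) (hn : ∀ c, n c ≤ n' c + o c) :
    defi T' n' ≤ defi T n + j + ∑ c, (o c : ℝ) := by
  have h1 : ∀ t, trS n t ≤ trS n' t + ∑ c, o c := by
    intro t
    unfold trS
    rw [← sum_add_distrib]
    exact sum_le_sum fun c _ => by have := hn c; omega
  have h2 : max (dfA T' n') (dfB T' n') ≤
      max (dfA T n) (dfB T n) + (j : ℤ) + ((∑ c, o c : ℕ) : ℤ) := by
    have hA := sup_form_rd T n (T' / q)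
    have hB := sup_form_rd T n (T' / q + 1)
    have h3 := h1 (T' / q)
    have h4 := h1 (T' / q + 1)
    have h5 : T' / q * q ≤ T' := Nat.div_mul_le_self _ _
    have h6 := lt_succ_div_rd hq T'
    generalize max (dfA T n) (dfB T n) = M at hA hB ⊢
    refine max_le ?_ ?_
    · unfold dfA; omega
    · unfold dfB; omega
  rw [defi_eq_rd, defi_eq_rd]
  exact_mod_cast h2

/-- One rider of kind `ox` leaves and one rider of kind `oy` enters. -/
def Rel1 (n n' : Fin q → ℕ) (ox oy : Option (Fin q)) : Prop :=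
  ∀ c, n' c + (if ox = some c then 1 else 0) = n c + (if oy = some c then 1 else 0)

theorem sum_ind_le_rd (o : Option (Fin q)) (p : Fin q → Prop) [DecidablePred p] :
    ∑ d, (if o = some d ∧ p d then 1 else 0 : ℕ) ≤ 1 := by
  rw [← card_filter]
  refine card_le_one.2 fun a ha b hb => ?_
  have h1 := (mem_filter.1 ha).2.1
  have h2 := (mem_filter.1 hb).2.1
  exact Option.some_injective _ (h1.symm.trans h2)

theorem trS_rel_rd {n n' : Fin q → ℕ} {ox oy : Option (Fin q)} (h : Rel1 n n' ox oy) (t : ℕ) :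
    trS n t + ∑ d, (if oy = some d ∧ (ox ≠ some d ∧ n d < t) then 1 else 0 : ℕ) ≤
      trS n' t + ∑ d, (if ox = some d ∧ n d ≤ t then 1 else 0 : ℕ) := by
  unfold trS
  rw [← sum_add_distrib, ← sum_add_distrib]
  refine sum_le_sum fun d _ => ?_
  have := h d
  by_cases h1 : ox = some d <;> by_cases h2 : oy = some d <;> by_cases h3 : n d < t <;>
    by_cases h4 : n d ≤ t <;> simp only [h1, h2, h3, h4, if_true, if_false, ne_eq,
      and_true, and_false, not_true, not_false_eq_true] at this ⊢ <;> omega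

theorem trS_rel1_rd {n n' : Fin q → ℕ} {ox oy : Option (Fin q)} (h : Rel1 n n' ox oy) (t : ℕ) :
    trS n t ≤ trS n' t + 1 := by
  have h1 := trS_rel_rd h t
  have h2 := sum_ind_le_rd ox fun d => n d ≤ t
  omega

theorem trS_rel2_rd {n n' : Fin q → ℕ} {ox oy : Option (Fin q)} (h : Rel1 n n' ox oy) (t : ℕ)
    (hs : ∀ d, ox = some d → t < n d) : trS n t ≤ trS n' t := by
  have h1 := trS_rel_rd h t
  have h2 : ∑ d, (if ox = some d ∧ n d ≤ t then 1 else 0 : ℕ) = 0 :=
    sum_eq_zero fun d _ => if_neg fun hd => by have := hs d hd.1; omega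
  omega

theorem gain_one_rd {n : Fin q → ℕ} {ox : Option (Fin q)} {c : Fin q} {t : ℕ}
    (hx : ox ≠ some c) (hc : n c < t) :
    1 ≤ ∑ d, (if some c = some d ∧ (ox ≠ some d ∧ n d < t) then 1 else 0 : ℕ) := by
  refine le_trans ?_ (single_le_sum (f := fun d =>
    (if some c = some d ∧ (ox ≠ some d ∧ n d < t) then 1 else 0 : ℕ))
    (fun _ _ => Nat.zero_le _) (mem_univ c))
  simp [hx, hc]

theorem trS_rel3_rd {n n' : Fin q → ℕ} {ox : Option (Fin q)} {c : Fin q}
    (h : Rel1 n n' ox (some c)) (t : ℕ) (hx : ox ≠ some c) (hc : n c < t) :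
    trS n t ≤ trS n' t := by
  have h1 := trS_rel_rd h t
  have h2 := sum_ind_le_rd ox fun d => n d ≤ t
  have h3 := gain_one_rd hx hc
  omega

theorem trS_rel4_rd {n n' : Fin q → ℕ} {ox : Option (Fin q)} {c : Fin q}
    (h : Rel1 n n' ox (some c)) (t : ℕ) (hs : ∀ d, ox = some d → t < n d) (hc : n c < t) :
    trS n t + 1 ≤ trS n' t := by
  have h1 := trS_rel_rd h t
  have h2 : ∑ d, (if ox = some d ∧ n d ≤ t then 1 else 0 : ℕ) = 0 :=
    sum_eq_zero fun d _ => if_neg fun hd => by have := hs d hd.1; omega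
  have h3 := gain_one_rd (n := n) (t := t) (ox := ox) (c := c)
    (fun hx => by have := hs c hx; omega) hc
  omega

/-- Capacity of a cell. -/
def capR (T : ℕ) (n : Fin q → ℕ) : ℕ := if dfA T n ≤ dfB T n then T / q + 1 else T / q

/-- Need of a cell. -/
def needR (T : ℕ) (n : Fin q → ℕ) : ℕ := if dfB T n ≤ dfA T n then T / q else T / q + 1

theorem need_le_cap_rd (T : ℕ) (n : Fin q → ℕ) : needR T n ≤ capR T n := by
  unfold needR capR
  split_ifs <;> omega

theorem defi_spare_rd {T : ℕ} {n n' : Fin q → ℕ} {ox oy : Option (Fin q)}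
    (h : Rel1 n n' ox oy) (hs : ∀ d, ox = some d → capR T n < n d) : defi T n' ≤ defi T n := by
  rw [defi_eq_rd, defi_eq_rd, Int.cast_le]
  unfold capR at hs
  by_cases ht : dfA T n ≤ dfB T n
  · rw [if_pos ht] at hs
    have h1 := trS_rel2_rd h (T / q) fun d hd => by have := hs d hd; omega
    have h2 := trS_rel2_rd h (T / q + 1) hs
    unfold dfA dfB at *
    omega
  · rw [if_neg ht] at hs
    have h1 := trS_rel2_rd h (T / q) hs
    have h2 := trS_rel1_rd h (T / q + 1)
    unfold dfA dfB at *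
    omega

theorem defi_swap_rd {T : ℕ} {n n' : Fin q → ℕ} {c c' : Fin q}
    (h : Rel1 n n' (some c) (some c')) (hc : n c' < n c) : defi T n' ≤ defi T n := by
  rw [defi_eq_rd, defi_eq_rd, Int.cast_le]
  have h0 : ∀ t, trS n t ≤ trS n' t := by
    intro t
    by_cases ht : t < n c
    · exact trS_rel2_rd h t fun d hd => by rw [← Option.some_injective _ hd]; exact ht
    · refine trS_rel3_rd h t (fun hd => ?_) (by omega)
      rw [Option.some_injective _ hd] at hc
      omega
  have h1 := h0 (T / q)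
  have h2 := h0 (T / q + 1)
  unfold dfA dfB
  omega

theorem defi_need_rd {T : ℕ} {n n' : Fin q → ℕ} {ox : Option (Fin q)} {c : Fin q}
    (h : Rel1 n n' ox (some c)) (hs : ∀ d, ox = some d → capR T n < n d)
    (hc : n c < needR T n) : defi T n' + 1 ≤ defi T n := by
  rw [defi_eq_rd, defi_eq_rd]
  have key : max (dfA T n') (dfB T n') + 1 ≤ max (dfA T n) (dfB T n) := by
    unfold capR at hs
    unfold needR at hc
    by_cases ht : dfA T n ≤ dfB T n
    · rw [if_pos ht] at hs
      by_cases hu : dfB T n ≤ dfA T n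
      · rw [if_pos hu] at hc
        have h1 := trS_rel4_rd h (T / q) (fun d hd => by have := hs d hd; omega) hc
        have h2 := trS_rel4_rd h (T / q + 1) hs (by omega)
        unfold dfA dfB at *
        omega
      · rw [if_neg hu] at hc
        have h1 := trS_rel2_rd h (T / q) fun d hd => by have := hs d hd; omega
        have h2 := trS_rel4_rd h (T / q + 1) hs hc
        unfold dfA dfB at *
        omega
    · rw [if_neg ht] at hs
      rw [if_pos (by omega)] at hc
      have h1 := trS_rel4_rd h (T / q) hs hc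
      have h2 := trS_rel3_rd h (T / q + 1) (fun hd => by have := hs c hd; omega) (by omega)
      unfold dfA dfB at *
      omega
  exact_mod_cast key

theorem trS_cap_rd (T : ℕ) (n : Fin q → ℕ) :
    (trS n (capR T n) : ℤ) + max (dfA T n) (dfB T n) ≤ T := by
  have h5 : T / q * q ≤ T := Nat.div_mul_le_self _ _
  unfold capR
  split_ifs with h
  · rw [max_eq_right h]; unfold dfB; omega
  · rw [max_eq_left (by omega)]; unfold dfA; omega

theorem exists_need_rd (hq : 0 < q) {T : ℕ} {n : Fin q → ℕ}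
    (h : 0 < max (dfA T n) (dfB T n)) : ∃ c, n c < needR T n := by
  by_contra hne
  push Not at hne
  have h1 : trS n (needR T n) = needR T n * q := by
    unfold trS
    rw [sum_congr rfl fun c _ => min_eq_right (hne c)]
    simp [mul_comm]
  have h6 := lt_succ_div_rd hq T
  unfold needR at h1
  split_ifs at h1 with hu
  · rw [max_eq_left hu] at h; unfold dfA at h; omega
  · rw [max_eq_right (by omega)] at h; unfold dfB at h; omega

theorem ge_of_dfA_rd {T : ℕ} {n : Fin q → ℕ} (h : dfA T n ≤ 0) (c : Fin q) : T / q ≤ n c := by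
  by_contra hc
  have h1 : trS n (T / q) < ∑ _c : Fin q, T / q :=
    sum_lt_sum (fun d _ => min_le_right _ _) ⟨c, mem_univ _, by omega⟩
  have h2 : ∑ _c : Fin q, T / q = T / q * q := by simp [mul_comm]
  unfold dfA at h
  omega

end deficiency

section cells

variable {R Lab : Type*} [Fintype R] [DecidableEq Lab] {q : ℕ}

/-- Number of riders in a cell. -/
def cU (A : R → Lab) (a : Lab) : ℕ := (univ.filter fun ρ => A ρ = a).card

/-- Number of riders of one colour in a cell. -/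
def cN (col : R → Option (Fin q)) (A : R → Lab) (a : Lab) (c : Fin q) : ℕ :=
  (univ.filter fun ρ => A ρ = a ∧ col ρ = some c).card

theorem cellD_eq_rd (col : R → Option (Fin q)) (A : R → Lab) (a : Lab) :
    cellD col A a = defi (dem q (cU A a)) (cN col A a) := rfl

theorem sum_col_le_rd (col : R → Option (Fin q)) (p : R → Prop) [DecidablePred p] :
    ∑ c, (univ.filter fun ρ => p ρ ∧ col ρ = some c).card ≤ (univ.filter p).card := by
  simp only [card_filter]
  rw [sum_comm]
  refine sum_le_sum fun ρ _ => ?_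
  by_cases h : p ρ
  · have := sum_ind_le_rd (col ρ) fun _ => True
    simpa [h] using this
  · simp [h]

theorem cellD_move_rd (hq : 0 < q) (col : R → Option (Fin q)) (A A' : R → Lab) (a : Lab)
    (j : ℕ) (hj : dem q (cU A' a) ≤ dem q (cU A a) + j) :
    cellD col A' a ≤ cellD col A a + j + ((univ.filter fun ρ => A ρ ≠ A' ρ ∧ A ρ = a).card : ℝ) := by
  classical
  rw [cellD_eq_rd, cellD_eq_rd]
  have h1 := defi_lip_rd hq (n := cN col A a) (n' := cN col A' a) j
    (fun c => (univ.filter fun ρ => (A ρ ≠ A' ρ ∧ A ρ = a) ∧ col ρ = some c).card) hj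
    (fun c => by
      unfold cN
      refine le_trans (card_le_card ?_) (card_union_le _ _)
      intro ρ hρ
      simp only [mem_filter, mem_univ, true_and, mem_union] at hρ ⊢
      by_cases h : A ρ = A' ρ
      · exact Or.inl ⟨h ▸ hρ.1, hρ.2⟩
      · exact Or.inr ⟨⟨h, hρ.1⟩, hρ.2⟩)
  have h2 := sum_col_le_rd col fun ρ => A ρ ≠ A' ρ ∧ A ρ = a
  have h3 : ∑ c, (((univ.filter fun ρ => (A ρ ≠ A' ρ ∧ A ρ = a) ∧ col ρ = some c).card : ℕ) : ℝ)
      ≤ ((univ.filter fun ρ => A ρ ≠ A' ρ ∧ A ρ = a).card : ℝ) := by exact_mod_cast h2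
  linarith

theorem sum_fiber_rd [Fintype Lab] (p : R → Prop) [DecidablePred p] (A : R → Lab) :
    ∑ a, ((univ.filter fun ρ => p ρ ∧ A ρ = a).card : ℝ) = ∑ ρ, (if p ρ then (1 : ℝ) else 0) := by
  simp only [card_filter, Nat.cast_sum, Nat.cast_ite, Nat.cast_one, Nat.cast_zero]
  rw [sum_comm]
  refine sum_congr rfl fun ρ _ => ?_
  by_cases h : p ρ
  · simp [h]
  · simp [h]

theorem cellD_congr_rd (col : R → Option (Fin q)) {A A' : R → Lab} {a : Lab}
    (h : ∀ ρ, A' ρ = a ↔ A ρ = a) : cellD col A' a = cellD col A a := by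
  unfold cellD
  simp only [h]

theorem cell_one_rd [DecidableEq R] (col : R → Option (Fin q)) {A A' : R → Lab} {a : Lab}
    {x y : R} (hx : A x = a) (hy : A y ≠ a) (hx' : A' x ≠ a) (hy' : A' y = a)
    (h : ∀ ρ, ρ ≠ x → ρ ≠ y → (A' ρ = a ↔ A ρ = a)) :
    cU A' a = cU A a ∧ Rel1 (cN col A a) (cN col A' a) (col x) (col y) := by
  have hxy : x ≠ y := fun e => hy (e ▸ hx)
  have key : ∀ p : R → Prop, ∀ [DecidablePred p],
      (univ.filter fun ρ => A' ρ = a ∧ p ρ).card + (if p x then 1 else 0) =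
        (univ.filter fun ρ => A ρ = a ∧ p ρ).card + (if p y then 1 else 0) := by
    intro p _
    have e1 : (if p x then 1 else 0 : ℕ) = ∑ ρ, if ρ = x ∧ p ρ then 1 else 0 := by
      rw [sum_eq_single x (fun b _ hb => by simp [hb]) (by simp)]; simp
    have e2 : (if p y then 1 else 0 : ℕ) = ∑ ρ, if ρ = y ∧ p ρ then 1 else 0 := by
      rw [sum_eq_single y (fun b _ hb => by simp [hb]) (by simp)]; simp
    rw [e1, e2, card_filter, card_filter, ← sum_add_distrib, ← sum_add_distrib]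
    refine sum_congr rfl fun ρ _ => ?_
    by_cases h1 : ρ = x
    · subst h1; simp [hx, hx', hxy]
    · by_cases h2 : ρ = y
      · subst h2; simp [hy, hy', h1]
      · simp [h1, h2, h ρ h1 h2]
  refine ⟨?_, fun c => key fun ρ => col ρ = some c⟩
  have := key fun _ => True
  unfold cU
  simpa using this

theorem exists_spare_rd (hq : 0 < q) (col : R → Option (Fin q)) (A : R → Lab) (a : Lab)
    (h : 0 < cellD col A a) : ∃ σ, A σ = a ∧
      ∀ d, col σ = some d → capR (dem q (cU A a)) (cN col A a) < cN col A a d := by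
  by_contra hne
  push Not at hne
  rw [cellD_eq_rd, defi_eq_rd] at h
  have h0 : 0 < max (dfA (dem q (cU A a)) (cN col A a)) (dfB (dem q (cU A a)) (cN col A a)) := by
    exact_mod_cast h
  have h1 := trS_cap_rd (dem q (cU A a)) (cN col A a)
  have h2 := dem_le_rd hq (cU A a)
  have h3 : cU A a ≤ trS (cN col A a) (capR (dem q (cU A a)) (cN col A a)) := by
    have e1 : ∀ c, min (cN col A a c) (capR (dem q (cU A a)) (cN col A a)) = cN col A a c := by
      intro c
      rcases Nat.eq_zero_or_pos (cN col A a c) with h4 | h4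
      · rw [h4]; simp
      · obtain ⟨ρ, hρ⟩ := card_pos.1 h4
        obtain ⟨h5, h6⟩ := (mem_filter.1 hρ).2
        obtain ⟨d, hd, hd'⟩ := hne ρ h5
        rw [h6] at hd
        rw [← Option.some_injective _ hd] at hd'
        exact min_eq_left hd'
    unfold trS
    rw [sum_congr rfl fun c _ => e1 c]
    unfold cU cN
    simp only [card_filter]
    rw [sum_comm]
    refine sum_le_sum fun ρ _ => ?_
    by_cases h5 : A ρ = a
    · obtain ⟨d, hd, -⟩ := hne ρ h5
      simp [h5, hd]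
    · simp [h5]
  omega

end cells

variable {R Lab : Type*} [Fintype R] [DecidableEq R] [Fintype Lab] [DecidableEq Lab] {q : ℕ}

theorem cellD_nonneg (col : R → Option (Fin q)) (A : R → Lab) (a : Lab) :
    0 ≤ cellD col A a := by
  unfold cellD
  rw [defi_eq_rd]
  exact_mod_cast le_trans (dfA_nonneg_rd _ _) (le_max_left _ _)

theorem slabII_lip (hq : 0 < q) (col : R → Option (Fin q)) (A A' : R → Lab) :
    slabII col A' ≤ slabII col A + 3 * ∑ ρ, (if A ρ = A' ρ then (0 : ℝ) else 1) := by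
  have h1 : ∀ a, cellD col A' a ≤ cellD col A a +
      2 * ((univ.filter fun ρ => A ρ ≠ A' ρ ∧ A' ρ = a).card : ℝ) +
        ((univ.filter fun ρ => A ρ ≠ A' ρ ∧ A ρ = a).card : ℝ) := by
    intro a
    have h2 := cellD_move_rd hq col A A' a
      (2 * (univ.filter fun ρ => A ρ ≠ A' ρ ∧ A' ρ = a).card) (dem_lip_rd hq _ (by
        unfold cU
        refine le_trans (card_le_card ?_) (card_union_le _ _)
        intro ρ hρ
        simp only [mem_filter, mem_univ, true_and, mem_union] at hρ ⊢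
        by_cases h : A ρ = A' ρ
        · exact Or.inl (h ▸ hρ)
        · exact Or.inr ⟨h, hρ⟩))
    push_cast at h2
    exact h2
  have h2 := sum_le_sum fun a (_ : a ∈ univ) => h1 a
  rw [sum_add_distrib, sum_add_distrib, ← mul_sum, sum_fiber_rd, sum_fiber_rd] at h2
  have h3 : ∑ ρ, (if A ρ ≠ A' ρ then (1 : ℝ) else 0) = ∑ ρ, (if A ρ = A' ρ then (0 : ℝ) else 1) :=
    sum_congr rfl fun ρ _ => by by_cases h : A ρ = A' ρ <;> simp [h]
  unfold slabII
  linarith

theorem slabII_perm (hq : 0 < q) (col : R → Option (Fin q)) (A : R → Lab) (π : Equiv.Perm R) :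
    slabII col (A ∘ π) ≤ slabII col A + ∑ ρ, (if π ρ = ρ then (0 : ℝ) else 1) := by
  have h1 : ∀ a, cellD col (A ∘ π) a ≤ cellD col A a +
        ((univ.filter fun ρ => A ρ ≠ (A ∘ π) ρ ∧ A ρ = a).card : ℝ) := by
    intro a
    have e : cU (A ∘ π) a = cU A a := by
      unfold cU
      refine card_bij (fun ρ _ => π ρ) (fun ρ hρ => by simpa using hρ)
        (fun _ _ _ _ h => π.injective h) fun ρ hρ => ⟨π.symm ρ, by simpa using hρ, by simp⟩
    have h2 := cellD_move_rd hq col A (A ∘ π) a 0 (by rw [e]; omega)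
    simpa using h2
  have h2 := sum_le_sum fun a (_ : a ∈ univ) => h1 a
  rw [sum_add_distrib, sum_fiber_rd] at h2
  have h3 : ∑ ρ, (if A ρ ≠ (A ∘ π) ρ then (1 : ℝ) else 0) ≤
      ∑ ρ, (if π ρ = ρ then (0 : ℝ) else 1) :=
    sum_le_sum fun ρ _ => by
      by_cases h : π ρ = ρ
      · simp [h]
      · rw [if_neg h]; split_ifs <;> norm_num
  unfold slabII
  linarith

/-- A cell holding all riders has no deficiency. -/
theorem cellD_all {k g : ℕ} (hq : 0 < q) (hg : 2 * (k * g) ≤ q) (col : R → Option (Fin q))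
    (hR : Fintype.card R = k * (q + g))
    (hcol : ∀ c, (univ.filter fun ρ => col ρ = some c).card = k)
    (A : R → Lab) (a : Lab) (hA : ∀ ρ, A ρ = a) : slabII col A = 0 := by
  unfold slabII
  refine sum_eq_zero fun b _ => ?_
  rw [cellD_eq_rd, defi_eq_rd]
  by_cases hb : a = b
  · subst hb
    have e1 : cU A a = k * q + k * g := by
      unfold cU
      rw [filter_true_of_mem fun ρ _ => hA ρ, card_univ, hR, mul_add]
    have e2 : cN col A a = fun _ => k := by
      funext c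
      unfold cN
      simp only [hA, true_and]
      exact hcol c
    have e3 : dem q (cU A a) = k * q := by
      rw [e1, dem_eq_rd _ _ (by omega)]; omega
    have e4 : k * q / q = k := Nat.mul_div_cancel _ hq
    rw [e3, e2]
    unfold dfA dfB trS
    rw [e4]
    simp [mul_comm]
  · have e1 : cU A b = 0 := by
      unfold cU
      simp [hA, hb]
    have e2 : cN col A b = fun _ => 0 := by
      funext c
      unfold cN
      simp [hA, hb]
    rw [e1, e2]
    unfold dfA dfB trS dem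
    simp

/-- No deficiency and at least `q` riders: every colour is present. -/
theorem present_of_cellD (hq : 0 < q) (col : R → Option (Fin q)) (A : R → Lab) (a : Lab)
    (hu : q ≤ (univ.filter fun ρ => A ρ = a).card) (h : cellD col A a ≤ 0) (c : Fin q) :
    ∃ ρ, A ρ = a ∧ col ρ = some c := by
  rw [cellD_eq_rd, defi_eq_rd] at h
  have h0 : max (dfA (dem q (cU A a)) (cN col A a)) (dfB (dem q (cU A a)) (cN col A a)) ≤ 0 := by
    exact_mod_cast h
  have h1 := ge_of_dfA_rd (le_trans (le_max_left _ _) h0) c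
  rw [dem_div_rd hq] at h1
  have h2 : 0 < cU A a / q := Nat.div_pos hu hq
  obtain ⟨ρ, hρ⟩ := card_pos.1 (show 0 < cN col A a c by omega)
  exact ⟨ρ, (mem_filter.1 hρ).2⟩

omit [DecidableEq R] in
theorem slab_drop_rd (col : R → Option (Fin q)) {A A' : R → Lab} (a₀ : Lab)
    (h : ∀ a, cellD col A' a ≤ cellD col A a) (h₀ : cellD col A' a₀ + 1 ≤ cellD col A a₀) :
    slabII col A' + 1 ≤ slabII col A := by
  unfold slabII
  rw [← add_sum_erase _ _ (mem_univ a₀), ← add_sum_erase _ (cellD col A) (mem_univ a₀)]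
  have := sum_le_sum fun a (_ : a ∈ univ.erase a₀) => h a
  linarith

omit [Fintype Lab] [DecidableEq Lab] in
theorem moved_le_rd (π : Equiv.Perm R) (s : Finset R) (h : ∀ ρ, ρ ∉ s → π ρ = ρ) :
    ∑ ρ, (if π ρ = ρ then (0 : ℝ) else 1) ≤ s.card := by
  calc ∑ ρ, (if π ρ = ρ then (0 : ℝ) else 1) ≤ ∑ ρ, (if ρ ∈ s then (1 : ℝ) else 0) :=
        sum_le_sum fun ρ _ => by
          by_cases h1 : ρ ∈ s
          · rw [if_pos h1]; split_ifs <;> norm_num
          · rw [if_neg h1, if_pos (h ρ h1)]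
    _ = s.card := by simp

theorem two_swap_rd (col : R → Option (Fin q)) (A : R → Lab) {x y : R} (hxy : A x ≠ A y)
    (h1 : ∀ n', Rel1 (cN col A (A x)) n' (col x) (col y) →
      defi (dem q (cU A (A x))) n' + 1 ≤ defi (dem q (cU A (A x))) (cN col A (A x)))
    (h2 : ∀ n', Rel1 (cN col A (A y)) n' (col y) (col x) →
      defi (dem q (cU A (A y))) n' ≤ defi (dem q (cU A (A y))) (cN col A (A y))) :
    slabII col (A ∘ Equiv.swap x y) + 1 ≤ slabII col A := by
  have ex : (A ∘ Equiv.swap x y) x = A y := by simp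
  have ey : (A ∘ Equiv.swap x y) y = A x := by simp
  have eo : ∀ ρ, ρ ≠ x → ρ ≠ y → (A ∘ Equiv.swap x y) ρ = A ρ := fun ρ hx hy => by
    simp [Equiv.swap_apply_of_ne_of_ne hx hy]
  generalize A ∘ Equiv.swap x y = A' at ex ey eo ⊢
  have c1 := cell_one_rd col (A := A) (A' := A') (a := A x) (x := x) (y := y) rfl hxy.symm
    (by rw [ex]; exact hxy.symm) ey fun ρ hx hy => by rw [eo ρ hx hy]
  have c2 := cell_one_rd col (A := A) (A' := A') (a := A y) (x := y) (y := x) rfl hxy
    (by rw [ey]; exact hxy) ex fun ρ hy hx => by rw [eo ρ hx hy]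
  have d1 : cellD col A' (A x) + 1 ≤ cellD col A (A x) := by
    rw [cellD_eq_rd, cellD_eq_rd, c1.1]; exact h1 _ c1.2
  refine slab_drop_rd col (A x) (fun a => ?_) d1
  by_cases ha : a = A x
  · rw [ha]; linarith
  by_cases hb : a = A y
  · rw [hb, cellD_eq_rd, cellD_eq_rd, c2.1]; exact h2 _ c2.2
  refine (cellD_congr_rd col fun ρ => ?_).le
  by_cases hx : ρ = x
  · rw [hx, ex]; exact ⟨fun h => absurd h.symm hb, fun h => absurd h.symm ha⟩
  by_cases hy : ρ = y
  · rw [hy, ey]; exact ⟨fun h => absurd h.symm ha, fun h => absurd h.symm hb⟩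
  rw [eo ρ hx hy]

theorem three_cyc_rd (col : R → Option (Fin q)) (A : R → Lab) {x y w : R} (hxy : A x ≠ A y)
    (hyw : A y ≠ A w) (hxw : A x ≠ A w)
    (h1 : ∀ n', Rel1 (cN col A (A x)) n' (col x) (col y) →
      defi (dem q (cU A (A x))) n' + 1 ≤ defi (dem q (cU A (A x))) (cN col A (A x)))
    (h2 : ∀ n', Rel1 (cN col A (A y)) n' (col y) (col w) →
      defi (dem q (cU A (A y))) n' ≤ defi (dem q (cU A (A y))) (cN col A (A y)))
    (h3 : ∀ n', Rel1 (cN col A (A w)) n' (col w) (col x) →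
      defi (dem q (cU A (A w))) n' ≤ defi (dem q (cU A (A w))) (cN col A (A w))) :
    slabII col (A ∘ (Equiv.swap w y * Equiv.swap x y : Equiv.Perm R)) + 1 ≤ slabII col A := by
  have nxy : x ≠ y := fun e => hxy (by rw [e])
  have nyw : y ≠ w := fun e => hyw (by rw [e])
  have nxw : x ≠ w := fun e => hxw (by rw [e])
  have ex : (A ∘ (Equiv.swap w y * Equiv.swap x y : Equiv.Perm R)) x = A w := by simp
  have ey : (A ∘ (Equiv.swap w y * Equiv.swap x y : Equiv.Perm R)) y = A x := by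
    simp [Equiv.swap_apply_of_ne_of_ne nxw nxy]
  have ew : (A ∘ (Equiv.swap w y * Equiv.swap x y : Equiv.Perm R)) w = A y := by
    simp [Equiv.swap_apply_of_ne_of_ne nxw.symm nyw.symm]
  have eo : ∀ ρ, ρ ≠ x → ρ ≠ y → ρ ≠ w →
      (A ∘ (Equiv.swap w y * Equiv.swap x y : Equiv.Perm R)) ρ = A ρ := fun ρ hx hy hw => by
    simp [Equiv.swap_apply_of_ne_of_ne hx hy, Equiv.swap_apply_of_ne_of_ne hw hy]
  generalize A ∘ (Equiv.swap w y * Equiv.swap x y : Equiv.Perm R) = A' at ex ey ew eo ⊢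
  have c1 := cell_one_rd col (A := A) (A' := A') (a := A x) (x := x) (y := y) rfl hxy.symm
    (by rw [ex]; exact hxw.symm) ey fun ρ hx hy => by
      by_cases hw : ρ = w
      · rw [hw, ew]; exact ⟨fun h => absurd h.symm hxy, fun h => absurd h.symm hxw⟩
      · rw [eo ρ hx hy hw]
  have c2 := cell_one_rd col (A := A) (A' := A') (a := A y) (x := y) (y := w) rfl hyw.symm
    (by rw [ey]; exact hxy) ew fun ρ hy hw => by
      by_cases hx : ρ = x
      · rw [hx, ex]; exact ⟨fun h => absurd h.symm hyw, fun h => absurd h hxy⟩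
      · rw [eo ρ hx hy hw]
  have c3 := cell_one_rd col (A := A) (A' := A') (a := A w) (x := w) (y := x) rfl hxw
    (by rw [ew]; exact hyw) ex fun ρ hw hx => by
      by_cases hy : ρ = y
      · rw [hy, ey]; exact ⟨fun h => absurd h hxw, fun h => absurd h hyw⟩
      · rw [eo ρ hx hy hw]
  have d1 : cellD col A' (A x) + 1 ≤ cellD col A (A x) := by
    rw [cellD_eq_rd, cellD_eq_rd, c1.1]; exact h1 _ c1.2
  refine slab_drop_rd col (A x) (fun a => ?_) d1
  by_cases ha : a = A x
  · rw [ha]; linarith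
  by_cases hb : a = A y
  · rw [hb, cellD_eq_rd, cellD_eq_rd, c2.1]; exact h2 _ c2.2
  by_cases hc : a = A w
  · rw [hc, cellD_eq_rd, cellD_eq_rd, c3.1]; exact h3 _ c3.2
  refine (cellD_congr_rd col fun ρ => ?_).le
  by_cases hx : ρ = x
  · rw [hx, ex]; exact ⟨fun h => absurd h.symm hc, fun h => absurd h.symm ha⟩
  by_cases hy : ρ = y
  · rw [hy, ey]; exact ⟨fun h => absurd h.symm ha, fun h => absurd h.symm hb⟩
  by_cases hw : ρ = w
  · rw [hw, ew]; exact ⟨fun h => absurd h.symm hb, fun h => absurd h.symm hc⟩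
  rw [eo ρ hx hy hw]

/-- Exchange lemma: a deficient cell inside a parent cell without deficiency can be repaired by
permuting at most three riders of the parent cell. -/
theorem exchange {Lab' : Type*} [Fintype Lab'] [DecidableEq Lab'] (hq : 0 < q)
    (col : R → Option (Fin q)) (A : R → Lab) (B : R → Lab')
    (hAB : ∀ ρ ρ', A ρ = A ρ' → B ρ = B ρ') (ρ₀ : R)
    (hpos : 0 < cellD col A (A ρ₀)) (hpar : cellD col B (B ρ₀) ≤ 0) :
    ∃ π : Equiv.Perm R, (∀ ρ, π ρ ≠ ρ → B ρ = B ρ₀ ∧ B (π ρ) = B ρ₀) ∧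
      ∑ ρ, (if π ρ = ρ then (0 : ℝ) else 1) ≤ 3 ∧
      slabII col (A ∘ π) + 1 ≤ slabII col A := by
  -- packaging of the two kinds of permutations
  have pack2 : ∀ x y, B x = B ρ₀ → B y = B ρ₀ →
      slabII col (A ∘ Equiv.swap x y) + 1 ≤ slabII col A →
      ∃ π : Equiv.Perm R, (∀ ρ, π ρ ≠ ρ → B ρ = B ρ₀ ∧ B (π ρ) = B ρ₀) ∧
        ∑ ρ, (if π ρ = ρ then (0 : ℝ) else 1) ≤ 3 ∧
        slabII col (A ∘ π) + 1 ≤ slabII col A := by
    intro x y hx hy h
    refine ⟨Equiv.swap x y, fun ρ hρ => ?_, ?_, h⟩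
    · by_cases h1 : ρ = x
      · rw [h1, Equiv.swap_apply_left]; exact ⟨hx, hy⟩
      by_cases h2 : ρ = y
      · rw [h2, Equiv.swap_apply_right]; exact ⟨hy, hx⟩
      exact absurd (Equiv.swap_apply_of_ne_of_ne h1 h2) hρ
    · refine le_trans (moved_le_rd _ {x, y} fun ρ hρ => ?_) ?_
      · simp only [mem_insert, mem_singleton, not_or] at hρ
        exact Equiv.swap_apply_of_ne_of_ne hρ.1 hρ.2
      · have : ({x, y} : Finset R).card ≤ 3 := le_trans card_le_two (by norm_num)
        exact_mod_cast this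
  have pack3 : ∀ x y w, B x = B ρ₀ → B y = B ρ₀ → B w = B ρ₀ →
      slabII col (A ∘ (Equiv.swap w y * Equiv.swap x y : Equiv.Perm R)) + 1 ≤ slabII col A →
      ∃ π : Equiv.Perm R, (∀ ρ, π ρ ≠ ρ → B ρ = B ρ₀ ∧ B (π ρ) = B ρ₀) ∧
        ∑ ρ, (if π ρ = ρ then (0 : ℝ) else 1) ≤ 3 ∧
        slabII col (A ∘ π) + 1 ≤ slabII col A := by
    intro x y w hx hy hw h
    have hsw : ∀ u v, B u = B ρ₀ → B v = B ρ₀ → ∀ ρ, B ρ = B ρ₀ →
        B (Equiv.swap u v ρ) = B ρ₀ := by
      intro u v hu hv ρ hρ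
      rw [Equiv.swap_apply_def]
      split_ifs
      · exact hv
      · exact hu
      · exact hρ
    have hfix : ∀ ρ, ρ ∉ ({x, y, w} : Finset R) →
        (Equiv.swap w y * Equiv.swap x y : Equiv.Perm R) ρ = ρ := by
      intro ρ hρ
      simp only [mem_insert, mem_singleton, not_or] at hρ
      rw [Equiv.Perm.mul_apply, Equiv.swap_apply_of_ne_of_ne hρ.1 hρ.2.1,
        Equiv.swap_apply_of_ne_of_ne hρ.2.2 hρ.2.1]
    refine ⟨Equiv.swap w y * Equiv.swap x y, fun ρ hρ => ?_, ?_, h⟩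
    · have h1 : B ρ = B ρ₀ := by
        by_contra h2
        refine hρ (hfix ρ ?_)
        simp only [mem_insert, mem_singleton, not_or]
        exact ⟨fun e => h2 (e ▸ hx), fun e => h2 (e ▸ hy), fun e => h2 (e ▸ hw)⟩
      exact ⟨h1, hsw w y hw hy _ (hsw x y hx hy ρ h1)⟩
    · refine le_trans (moved_le_rd _ {x, y, w} hfix) ?_
      have : ({x, y, w} : Finset R).card ≤ 3 := card_le_three
      exact_mod_cast this
  -- children of the parent cell
  set I : Finset Lab := univ.filter fun i => ∃ ρ, A ρ = i ∧ B ρ = B ρ₀ with hI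
  have hIB : ∀ ρ, A ρ ∈ I ↔ B ρ = B ρ₀ := by
    intro ρ
    rw [hI, mem_filter]
    exact ⟨fun ⟨_, ρ', h1, h2⟩ => (hAB ρ ρ' h1.symm).trans h2, fun h => ⟨mem_univ _, ρ, rfl, h⟩⟩
  have hsum : ∀ p : R → Prop, ∀ [DecidablePred p],
      (univ.filter fun ρ => B ρ = B ρ₀ ∧ p ρ).card =
        ∑ i ∈ I, (univ.filter fun ρ => A ρ = i ∧ p ρ).card := by
    intro p _
    rw [card_eq_sum_card_fiberwise (f := A) (t := I)
      (fun ρ hρ => (hIB ρ).2 (mem_filter.1 (mem_coe.1 hρ)).2.1)]
    refine sum_congr rfl fun i hi => ?_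
    rw [filter_filter]
    refine congrArg card (filter_congr fun ρ _ => ?_)
    exact ⟨fun h => ⟨h.2, h.1.2⟩, fun h => ⟨⟨(hIB ρ).1 (h.1 ▸ hi), h.2⟩, h.1⟩⟩
  have hU : cU B (B ρ₀) = ∑ i ∈ I, cU A i := by
    have := hsum fun _ => True
    unfold cU
    simpa using this
  have hN : ∀ c, cN col B (B ρ₀) c = ∑ i ∈ I, cN col A i c := fun c =>
    hsum fun ρ => col ρ = some c
  have h1I : A ρ₀ ∈ I := (hIB ρ₀).2 rfl
  -- numerical data
  set T : Lab → ℕ := fun i => dem q (cU A i) with hT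
  set cap : Lab → ℕ := fun i => capR (T i) (cN col A i) with hcap
  set v : Fin q → ℕ := fun c => ∑ i ∈ I, min (cN col A i c) (cap i) with hv
  set Tp : ℕ := dem q (cU B (B ρ₀)) with hTp
  have hpos' := hpos
  rw [cellD_eq_rd, defi_eq_rd] at hpos' hpar
  have hD : 0 < max (dfA (T (A ρ₀)) (cN col A (A ρ₀))) (dfB (T (A ρ₀)) (cN col A (A ρ₀))) := by
    exact_mod_cast hpos'
  have hP : max (dfA Tp (cN col B (B ρ₀))) (dfB Tp (cN col B (B ρ₀))) ≤ 0 := by
    exact_mod_cast hpar
  have hvs : ∑ c, v c < ∑ c, min (cN col B (B ρ₀) c) (Tp / q + 1) := by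
    have e1 : ∑ c, v c = ∑ i ∈ I, trS (cN col A i) (cap i) := sum_comm
    have e2 : ∑ i ∈ I, trS (cN col A i) (cap i) < ∑ i ∈ I, T i := by
      refine sum_lt_sum (fun i _ => ?_) ⟨A ρ₀, h1I, ?_⟩
      · have h1 := trS_cap_rd (T i) (cN col A i)
        have h2 := le_trans (dfA_nonneg_rd (T i) (cN col A i))
          (le_max_left _ (dfB (T i) (cN col A i)))
        have h3 : cap i = capR (T i) (cN col A i) := rfl
        rw [h3]
        omega
      · have h1 := trS_cap_rd (T (A ρ₀)) (cN col A (A ρ₀))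
        have h3 : cap (A ρ₀) = capR (T (A ρ₀)) (cN col A (A ρ₀)) := rfl
        rw [h3]
        omega
    have e3 : ∑ i ∈ I, T i ≤ Tp := by
      rw [hTp, hU]; exact dem_sum_rd hq I _
    have e4 : dfB Tp (cN col B (B ρ₀)) ≤ 0 := le_trans (le_max_right _ _) hP
    unfold dfB trS at e4
    omega
  obtain ⟨c', -, hc'⟩ := exists_lt_of_sum_lt hvs
  have hrider : ∀ i c, 0 < cN col A i c → ∃ ρ, A ρ = i ∧ col ρ = some c := by
    intro i c h
    obtain ⟨ρ, hρ⟩ := card_pos.1 h
    exact ⟨ρ, (mem_filter.1 hρ).2⟩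
  obtain ⟨σ, hσ, hσs⟩ := exists_spare_rd hq col A (A ρ₀) hpos
  have hσB : B σ = B ρ₀ := hAB _ _ hσ
  have hspare : ∀ (ρ : R) (c : Fin q), col ρ = some c → cap (A ρ) < cN col A (A ρ) c →
      ∀ d, col ρ = some d → capR (dem q (cU A (A ρ))) (cN col A (A ρ)) < cN col A (A ρ) d := by
    intro ρ c hc h d hd
    rw [hc] at hd
    rw [← Option.some_injective _ hd]
    exact h
  have hnc := need_le_cap_rd (T (A ρ₀)) (cN col A (A ρ₀))
  have hcap0 : cap (A ρ₀) = capR (T (A ρ₀)) (cN col A (A ρ₀)) := rfl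
  by_cases hcase : ∃ c, cN col A (A ρ₀) c < needR (T (A ρ₀)) (cN col A (A ρ₀)) ∧
      ∃ i ∈ I, cap i < cN col A i c
  · obtain ⟨c, hc, i, hi, hci⟩ := hcase
    obtain ⟨ρ, hρ, hρc⟩ := hrider i c (by omega)
    subst hρ
    have hne : A σ ≠ A ρ := by
      intro e
      rw [← e, hσ] at hci
      omega
    refine pack2 σ ρ hσB ((hIB ρ).1 hi) (two_swap_rd col A hne ?_ ?_)
    · intro n' hn'
      rw [hσ] at hn' ⊢
      rw [hρc] at hn'
      exact defi_need_rd hn' hσs hc
    · intro n' hn'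
      exact defi_spare_rd hn' (hspare ρ c hρc hci)
  · push Not at hcase
    obtain ⟨c, hc⟩ := exists_need_rd hq hD
    have hvc : v c = cN col B (B ρ₀) c := by
      rw [hN]
      exact sum_congr rfl fun i hi => min_eq_left (hcase c hc i hi)
    have hge := ge_of_dfA_rd (le_trans (le_max_left _ _) hP) c
    obtain ⟨i₂, hi₂, hlt₂⟩ : ∃ i ∈ I, min (cN col A i c') (cap i) < cN col A i c' := by
      apply exists_lt_of_sum_lt
      rw [← hN]
      exact lt_of_lt_of_le hc' (min_le_left _ _)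
    have hsp₂ : cap i₂ < cN col A i₂ c' := by omega
    have hnn : needR (T (A ρ₀)) (cN col A (A ρ₀)) ≤ cN col A (A ρ₀) c' := by
      by_contra h
      have := hcase c' (by omega) i₂ hi₂
      omega
    obtain ⟨i, hi, hlt⟩ : ∃ i ∈ I, min (cN col A i c') (cap i) < min (cN col A i c) (cap i) := by
      by_contra h
      push Not at h
      have h1 : v c < v c' := sum_lt_sum h ⟨A ρ₀, h1I, by omega⟩
      have h2 : v c' < Tp / q + 1 := lt_of_lt_of_le hc' (min_le_right _ _)
      omega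
    obtain ⟨ρ₁, hρ₁, hρ₁c⟩ := hrider i c (by omega)
    obtain ⟨ρ₂, hρ₂, hρ₂c⟩ := hrider i₂ c' (by omega)
    subst hρ₁
    subst hρ₂
    have n01 : A ρ₀ ≠ A ρ₁ := by
      intro e
      rw [← e] at hlt
      omega
    have n12 : A ρ₁ ≠ A ρ₂ := by
      intro e
      rw [← e] at hsp₂
      omega
    have hsw : ∀ n', Rel1 (cN col A (A ρ₁)) n' (col ρ₁) (col ρ₂) →
        defi (dem q (cU A (A ρ₁))) n' ≤ defi (dem q (cU A (A ρ₁))) (cN col A (A ρ₁)) := by
      intro n' hn'
      rw [hρ₁c, hρ₂c] at hn'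
      exact defi_swap_rd hn' (by omega)
    by_cases h02 : A ρ₂ = A ρ₀
    · refine pack2 ρ₂ ρ₁ ((hIB _).1 hi₂) ((hIB _).1 hi) (two_swap_rd col A n12.symm ?_ hsw)
      intro n' hn'
      have h3 := hspare ρ₂ c' hρ₂c hsp₂
      rw [hρ₁c] at hn'
      rw [h02] at hn' h3 ⊢
      exact defi_need_rd hn' h3 hc
    · refine pack3 σ ρ₁ ρ₂ hσB ((hIB _).1 hi) ((hIB _).1 hi₂)
        (three_cyc_rd col A (by rw [hσ]; exact n01) n12
          (by rw [hσ]; exact fun e => h02 e.symm) ?_ hsw ?_)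
      · intro n' hn'
        rw [hσ] at hn' ⊢
        rw [hρ₁c] at hn'
        exact defi_need_rd hn' hσs hc
      · intro n' hn'
        exact defi_spare_rd hn' (hspare ρ₂ c' hρ₂c hsp₂)

end Vale.Agent.P304
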